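import Vale.Agent.P248.Comb2

/-!
TASK P248-Comb3.  Uses only the statements of Comb1.lean, Comb2.lean.
* claimP: v ∈ W, k a dual atom (Atom V v k: a 0/1 function on V_v = {η ∈ V | v ⬝ᵥ η = 1}), η₁ ≠ η₂ in V_v with k = 1 on both.
  F = {w ∈ W | η₁ w = 1, η₂ w = -1} is nonempty (h1.sep, h2.neg), N = card F, u = (Σ_{w∈F} w)/(N - 1/2), ξ = (η₁-η₂)/2 ∈ polar W,
  ξ ⬝ᵥ u = N/(N-1/2) > 1.  Suppose |ζ ⬝ᵥ u| ≤ 1 for all ζ ∈ V_v with k ζ = 0.  Take d = T k, T large; h1.mprop gives y with |y| ≤ d on V_v, so y vanishes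
  where k does, so y = c k (atom_mul h2 h1), so ξ ⬝ᵥ y = 0 and ξ ⬝ᵥ u ≤ 1, contradiction.  So some ζ ∈ V_v with k ζ = 0 has |Σ_F ζ ⬝ᵥ w| > N - 1/2, so ζ is
  constant (1 or -1) on F.  If 1: ζ' = ζ - (η₁-η₂) takes values ±1 on W (on F: -1, on -F: 1, elsewhere η₁ w = η₂ w), so ζ' ∈ V (mem_of_pm); take (ζ, ζ').
  If -1: ζ' = ζ + (η₁-η₂), take (ζ', ζ).
* comb: suppose neither.  θ ∈ V (nonempty), atoms c, c̄ = θ - c (exists_atom_pair), θ' = θ - 2c̄ ∈ V.  v ∈ W₀ with c v = 1 (exists_one), so θ v = θ' v = 1.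
  Dual atoms k, v - k (exists_atom_pair hn h2 h1); swapping them assume k ⬝ᵥ θ = 1.  v' = v - 2(v-k) = 2k - v ∈ W, G₊ = {η ∈ V_v | k η = 1} ∋ θ,
  G₋ = {η ∈ V_v | k η = 0} = {(v-k) η = 1}; η v' = 1 on G₊, -1 on G₋; v, v' ∈ W₀.  For η ∈ V let e η = (θ-η)/2 (Pr, pr_half); e θ' = c̄.
  On V_v all e vanish at v; at v', e = 0 on G₊ and 1 on G₋.  θ ≠ θ'.
  Case θ' ∈ G₊: claimP (θ, θ') gives ξ, ξ' ∈ G₋, e ξ' = e ξ + c̄, so Sub (e ξ) c, e ξ ∈ {0, c}; e ξ = 0 means ξ = θ ∈ G₊, e ξ = c fails at v.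
  Case θ' ∈ G₋.  If G₊ = {θ} then G₋ = {θ'} (claimP for v - k), so V ⊆ {±θ, ±θ'} ⊆ span {c, c̄}, and decomp_of {c} {c̄} (span_V) gives Decomp W.
  Otherwise η ∈ G₊, η ≠ θ; claimP (θ, η): ξ, ξ' ∈ G₋, e ξ' = e ξ + e η.  ξ' ≠ θ' (else Sub (e η) c̄, e η ≠ 0, e η = c̄, η = θ').
  claimP for v - k, (θ', ξ'): ζ, ζ' ∈ G₊ with ζ - ζ' = θ' - ξ', i.e. e ζ' + c̄ = e ζ + e ξ + e η.
  lemmaV(e ζ, e η; c̄) at v: γ ≤ c̄, γ v' = 0 ≠ c̄ v', so γ = 0, so e ζ ⊥ e η.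
  lemmaV(e ζ', e η; c) at v' (where e ζ' = e η = 1: e ξ = 0, e ζ = 0, so c̄ = 0): γ ≤ c, γ v = 0 ≠ c v, so γ = 0, so e ζ' ⊥ e η.
  Then where e η = 1 we get c̄ = 1, so Sub (e η) c̄, e η = c̄, η = θ', contradicting η ∈ G₊, θ' ∈ G₋.
-/

open Set

namespace Vale.Agent.P248

variable {n : ℕ} {V W : Finset (Fin n → ℝ)} {θ : Fin n → ℝ}

theorem claimP (h1 : Half V W) (h2 : Half W V) {v k η₁ η₂ : Fin n → ℝ} (hv : v ∈ W)
    (hk : Atom V v k) (hη₁ : η₁ ∈ V) (hη₂ : η₂ ∈ V) (hv₁ : v ⬝ᵥ η₁ = 1) (hv₂ : v ⬝ᵥ η₂ = 1)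
    (hk₁ : k ⬝ᵥ η₁ = 1) (hk₂ : k ⬝ᵥ η₂ = 1) (hne : η₁ ≠ η₂) :
    ∃ ξ ∈ V, ∃ ξ' ∈ V, v ⬝ᵥ ξ = 1 ∧ v ⬝ᵥ ξ' = 1 ∧ k ⬝ᵥ ξ = 0 ∧ k ⬝ᵥ ξ' = 0 ∧ ξ - ξ' = η₁ - η₂ := by
  classical
  set F := W.filter fun w => η₁ ⬝ᵥ w = 1 ∧ η₂ ⬝ᵥ w = -1 with hF
  have hFne : F.Nonempty := by
    by_contra hc
    rw [Finset.not_nonempty_iff_eq_empty] at hc
    have hno : ∀ w ∈ W, η₁ ⬝ᵥ w = 1 → η₂ ⬝ᵥ w = -1 → False := fun w hw a b => by
      have : w ∈ F := Finset.mem_filter.2 ⟨hw, a, b⟩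
      simp [hc] at this
    refine hne (sub_eq_zero.1 (h1.sep _ fun w hw => ?_))
    rw [sub_dotProduct]
    rcases h1.pm η₁ hη₁ w hw with a | a <;> rcases h1.pm η₂ hη₂ w hw with b | b
    · linarith
    · exact (hno w hw a b).elim
    · exact (hno (-w) (h2.neg w hw) (by rw [dotProduct_neg]; linarith)
        (by rw [dotProduct_neg]; linarith)).elim
    · linarith
  have hN : (1 : ℝ) ≤ F.card := by exact_mod_cast hFne.card_pos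
  set u : Fin n → ℝ := (1 / ((F.card : ℝ) - 1 / 2)) • ∑ w ∈ F, w with hu
  have hu' : ∀ ζ : Fin n → ℝ, ζ ⬝ᵥ u * ((F.card : ℝ) - 1 / 2) = ∑ w ∈ F, ζ ⬝ᵥ w := by
    intro ζ
    rw [hu, dotProduct_smul, dotProduct_sum, smul_eq_mul]
    have : (F.card : ℝ) - 1 / 2 ≠ 0 := by linarith
    rw [mul_right_comm, one_div_mul_cancel this, one_mul]
  have hζ : ∃ ζ ∈ V, v ⬝ᵥ ζ = 1 ∧ k ⬝ᵥ ζ = 0 ∧ 1 < |ζ ⬝ᵥ u| := by
    by_contra hc
    push Not at hc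
    set T := ∑ ζ ∈ V, |ζ ⬝ᵥ u| with hT
    have T0 : 0 ≤ T := Finset.sum_nonneg fun _ _ => abs_nonneg _
    have hd : ∀ ζ : Fin n → ℝ, ζ ⬝ᵥ (T • k) = T * (k ⬝ᵥ ζ) := fun ζ => by
      rw [dotProduct_smul, smul_eq_mul, dotProduct_comm]
    obtain ⟨y, hy1, hy2⟩ := h1.mprop v hv (T • k) u ((1 / 2 : ℝ) • (η₁ - η₂))
      (fun ζ hζ hζv => by
        rw [hd]
        rcases hk.1 ζ hζ (dotProduct_comm v ζ ▸ hζv) with h | h <;> rw [h] <;> linarith)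
      (fun ζ hζ hζv => by
        rw [hd]
        rcases hk.1 ζ hζ (dotProduct_comm v ζ ▸ hζv) with h | h
        · rw [h]; linarith [hc ζ hζ (dotProduct_comm v ζ ▸ hζv) h]
        · rw [h]
          linarith [Finset.single_le_sum (f := fun ζ => |ζ ⬝ᵥ u|) (fun _ _ => abs_nonneg _) hζ])
      (fun w hw => by
        rw [smul_dotProduct, sub_dotProduct, smul_eq_mul]
        rcases h1.pm η₁ hη₁ w hw with a | a <;> rcases h1.pm η₂ hη₂ w hw with b | b <;> linarith)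
    obtain ⟨c, rfl⟩ := atom_mul h2 h1 hv hk (f := y) fun ζ hζ hζv h => by
      have := hy1 ζ hζ (dotProduct_comm v ζ ▸ hζv)
      rw [hd, h, mul_zero, abs_nonpos_iff] at this
      rwa [dotProduct_comm]
    have e1 : ((1 / 2 : ℝ) • (η₁ - η₂)) ⬝ᵥ (c • k) = 0 := by
      rw [smul_dotProduct, dotProduct_smul, sub_dotProduct, dotProduct_comm η₁, dotProduct_comm η₂,
        hk₁, hk₂]
      simp
    have e2 := hu' ((1 / 2 : ℝ) • (η₁ - η₂))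
    rw [Finset.sum_congr rfl (g := fun _ => (1 : ℝ)) fun w hw => by
      obtain ⟨-, a, b⟩ := Finset.mem_filter.1 hw
      rw [smul_dotProduct, sub_dotProduct, a, b]; norm_num] at e2
    simp only [Finset.sum_const, nsmul_eq_mul, mul_one] at e2
    rw [e1] at hy2
    nlinarith
  obtain ⟨ζ, hζ, ζv, ζk, ζu⟩ := hζ
  have hconst : (∀ w ∈ F, ζ ⬝ᵥ w = 1) ∨ ∀ w ∈ F, ζ ⬝ᵥ w = -1 := by
    by_contra hc
    push Not at hc
    obtain ⟨⟨a, ha, a1⟩, b, hb, b1⟩ := hc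
    have pm : ∀ w ∈ F, ζ ⬝ᵥ w = 1 ∨ ζ ⬝ᵥ w = -1 := fun w hw =>
      h1.pm ζ hζ w (Finset.mem_filter.1 hw).1
    have a2 := (pm a ha).resolve_left a1
    have b2 := (pm b hb).resolve_right b1
    have s1 := Finset.single_le_sum (f := fun w => 1 - ζ ⬝ᵥ w)
      (fun w hw => by rcases pm w hw with h | h <;> simp only [h] <;> norm_num) ha
    have s2 := Finset.single_le_sum (f := fun w => 1 + ζ ⬝ᵥ w)
      (fun w hw => by rcases pm w hw with h | h <;> simp only [h] <;> norm_num) hb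
    simp only [Finset.sum_sub_distrib, Finset.sum_add_distrib, Finset.sum_const, nsmul_eq_mul,
      mul_one, ← hu' ζ] at s1 s2
    rcases lt_abs.1 ζu with h | h <;> nlinarith
  have val : ∀ (s : ℝ), (∀ w ∈ F, ζ ⬝ᵥ w = s) → (s = 1 ∨ s = -1) → ζ - s • (η₁ - η₂) ∈ V := by
    intro s hs hs'
    refine h1.mem_of_pm fun w hw => ?_
    rw [sub_dotProduct, smul_dotProduct, sub_dotProduct, smul_eq_mul]
    rcases h1.pm η₁ hη₁ w hw with a | a <;> rcases h1.pm η₂ hη₂ w hw with b | b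
    · rw [a, b, sub_self, mul_zero, sub_zero]; exact h1.pm ζ hζ w hw
    · rw [a, b, hs w (Finset.mem_filter.2 ⟨hw, a, b⟩)]
      rcases hs' with h | h <;> rw [h] <;> norm_num
    · have := hs (-w) (Finset.mem_filter.2 ⟨h2.neg w hw, by rw [dotProduct_neg]; linarith,
        by rw [dotProduct_neg]; linarith⟩)
      rw [dotProduct_neg, neg_eq_iff_eq_neg] at this
      rw [a, b, this]
      rcases hs' with h | h <;> rw [h] <;> norm_num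
    · rw [a, b, sub_self, mul_zero, sub_zero]; exact h1.pm ζ hζ w hw
  have dv : ∀ s : ℝ, v ⬝ᵥ (ζ - s • (η₁ - η₂)) = 1 := fun s => by
    rw [dotProduct_sub, dotProduct_smul, dotProduct_sub, hv₁, hv₂, ζv]; simp
  have dk : ∀ s : ℝ, k ⬝ᵥ (ζ - s • (η₁ - η₂)) = 0 := fun s => by
    rw [dotProduct_sub, dotProduct_smul, dotProduct_sub, hk₁, hk₂, ζk]; simp
  rcases hconst with h | h
  · exact ⟨ζ, hζ, _, val 1 h (Or.inl rfl), ζv, dv 1, ζk, dk 1, by simp⟩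
  · exact ⟨_, val (-1) h (Or.inr rfl), ζ, hζ, dv (-1), ζv, dk (-1), ζk, by simp⟩

theorem comb3_main (h1 : Half V W) (h2 : Half W V) (hθ : θ ∈ V) {c v k : Fin n → ℝ}
    (hc : Atom W θ c) (hc' : Atom W θ (θ - c)) (hv : v ∈ W) (θv : θ ⬝ᵥ v = 1) (cv : c ⬝ᵥ v = 1)
    (hk : Atom V v k) (hk' : Atom V v (v - k)) (kθ : k ⬝ᵥ θ = 1) : Decomp W := by
  by_contra hD
  set e : (Fin n → ℝ) → Fin n → ℝ := fun η => (1 / 2 : ℝ) • (θ - η) with he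
  have ep : ∀ η ∈ V, Pr W θ (e η) := fun η hη => pr_half h1 hη
  have ev : ∀ η w, e η ⬝ᵥ w = (θ ⬝ᵥ w - η ⬝ᵥ w) / 2 := fun η w => by
    simp only [he]; rw [smul_dotProduct, sub_dotProduct, smul_eq_mul]; ring
  have einj : ∀ η η', e η = e η' → η = η' := fun η η' h => by
    have := smul_right_injective _ (show (1 / 2 : ℝ) ≠ 0 by norm_num) h
    exact sub_right_injective this
  have eθ : e θ = 0 := by simp [he]
  set θ' := θ - (2 : ℝ) • (θ - c) with hθ'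
  have θ'V : θ' ∈ V := (pr_iff h1 h2 hθ _).1 hc'.1
  have eθ' : e θ' = θ - c := by simp only [he, hθ', sub_sub_cancel, smul_smul]; norm_num
  have θ'w : ∀ w, θ' ⬝ᵥ w = 2 * (c ⬝ᵥ w) - θ ⬝ᵥ w := fun w => by
    rw [hθ', sub_dotProduct, smul_dotProduct, sub_dotProduct, smul_eq_mul]; ring
  have vθ : v ⬝ᵥ θ = 1 := dotProduct_comm θ v ▸ θv
  have vθ' : v ⬝ᵥ θ' = 1 := by rw [dotProduct_comm, θ'w]; linarith
  set v' := v - (2 : ℝ) • (v - k) with hv'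
  have v'W : v' ∈ W := (pr_iff h2 h1 hv _).1 hk'.1
  have v'η : ∀ η, η ⬝ᵥ v' = 2 * (k ⬝ᵥ η) - v ⬝ᵥ η := fun η => by
    rw [dotProduct_comm, hv', sub_dotProduct, smul_dotProduct, sub_dotProduct, smul_eq_mul]; ring
  have θv' : θ ⬝ᵥ v' = 1 := by rw [v'η]; linarith
  have e_v : ∀ η, v ⬝ᵥ η = 1 → e η ⬝ᵥ v = 0 := fun η h => by
    rw [ev, dotProduct_comm η, h, θv]; norm_num
  have e_v' : ∀ η, v ⬝ᵥ η = 1 → e η ⬝ᵥ v' = 1 - k ⬝ᵥ η := fun η h => by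
    rw [ev, θv', v'η, h]; ring
  have hne : θ ≠ θ' := fun h => hc'.2.1 (by rw [← eθ', ← h, eθ])
  have nn : ∀ f, Pr W θ f → ∀ w ∈ W, θ ⬝ᵥ w = 1 → 0 ≤ f ⬝ᵥ w ∧ f ⬝ᵥ w ≤ 1 := fun f hf w hw hθw => by
    rcases hf w hw hθw with h | h <;> rw [h] <;> norm_num
  have kk : ∀ η, (v - k) ⬝ᵥ η = v ⬝ᵥ η - k ⬝ᵥ η := fun η => sub_dotProduct _ _ _
  have dif : ∀ {a b a' b' : Fin n → ℝ}, a - b = a' - b' → ∀ w,
      a ⬝ᵥ w - b ⬝ᵥ w = a' ⬝ᵥ w - b' ⬝ᵥ w := fun h w => by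
    rw [← sub_dotProduct, ← sub_dotProduct, h]
  rcases hk.1 θ' θ'V vθ' with kθ' | kθ'
  swap
  · obtain ⟨ξ, hξ, ξ', hξ', a1, a2, a3, a4, a5⟩ := claimP h1 h2 hv hk hθ θ'V vθ vθ' kθ kθ' hne
    rcases hc.2.2 (e ξ) (ep ξ hξ) (fun w hw hθw h => by
      have b1 := dif a5 w
      have b2 := (nn _ (ep ξ' hξ') w hw hθw).2
      have b3 := (nn _ hc.1 w hw hθw).2
      rw [ev] at h b2
      rw [θ'w] at b1
      linarith) with h | h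
    · rw [einj ξ θ (h.trans eθ.symm)] at a3; linarith
    · have := e_v ξ a1
      rw [h] at this; linarith
  have subc' : ∀ η ∈ V, η ≠ θ → Sub W θ (e η) (θ - c) → η = θ' := fun η hη hηθ hs => by
    rcases hc'.2.2 _ (ep η hη) hs with h | h
    · exact absurd (einj _ _ (h.trans eθ.symm)) hηθ
    · exact einj _ _ (h.trans eθ'.symm)
  by_cases hG : ∀ η ∈ V, v ⬝ᵥ η = 1 → k ⬝ᵥ η = 1 → η = θ
  · have hG' : ∀ η ∈ V, v ⬝ᵥ η = 1 → k ⬝ᵥ η = 0 → η = θ' := by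
      intro η hη a b
      by_contra hh
      obtain ⟨ξ, hξ, ξ', hξ', a1, a2, a3, a4, a5⟩ := claimP h1 h2 hv hk' hη θ'V a vθ'
        (by rw [kk]; linarith) (by rw [kk]; linarith) hh
      rw [kk] at a3 a4
      rw [hG ξ hξ a1 (by linarith), hG ξ' hξ' a2 (by linarith), sub_self] at a5
      exact hh (sub_eq_zero.1 a5.symm)
    refine hD (decomp_of h1 h2 hθ {c} {θ - c} ?_ ⟨c, rfl, hc.2.1⟩ ⟨_, rfl, hc'.2.1⟩
      fun w hw hθw => ?_)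
    · rw [eq_top_iff, ← span_V h1, Submodule.span_le]
      set X := Submodule.span ℝ (({c} : Set (Fin n → ℝ)) ∪ {θ - c})
      have m1 : c ∈ X := Submodule.subset_span (Or.inl rfl)
      have m2 : θ - c ∈ X := Submodule.subset_span (Or.inr rfl)
      have m3 : θ ∈ X := by simpa using X.add_mem m1 m2
      have m4 : θ' ∈ X := X.sub_mem m3 (X.smul_mem _ m2)
      have key : ∀ η ∈ V, v ⬝ᵥ η = 1 → η ∈ X := fun η hη a => by
        rcases hk.1 η hη a with b | b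
        · exact hG' η hη a b ▸ m4
        · exact hG η hη a b ▸ m3
      intro η hη
      rcases h2.pm v hv η hη with a | a
      · exact key η hη a
      · exact X.neg_mem_iff.1 (key (-η) (h1.neg η hη) (by rw [dotProduct_neg]; linarith))
    · rcases hc.1 w hw hθw with h | h
      · left; rintro a rfl; exact h
      · right; rintro a rfl; rw [sub_dotProduct]; linarith
  push Not at hG
  obtain ⟨η, hη, ηv, ηk, ηθ⟩ := hG
  have ηθ' : η ≠ θ' := fun h => by rw [h] at ηk; linarith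
  obtain ⟨ξ, hξ, ξ', hξ', a1, a2, a3, a4, a5⟩ := claimP h1 h2 hv hk hθ hη vθ ηv kθ ηk ηθ.symm
  have E1 : ∀ w, e ξ' ⬝ᵥ w = e ξ ⬝ᵥ w + e η ⬝ᵥ w := fun w => by
    rw [ev, ev, ev]; linarith [dif a5 w]
  have ξ'θ' : θ' ≠ ξ' := fun h => ηθ' (subc' η hη ηθ fun w hw hθw hh => by
    have b1 := E1 w
    rw [← h, eθ'] at b1
    linarith [(nn _ (ep ξ hξ) w hw hθw).1, (nn _ hc'.1 w hw hθw).2])
  obtain ⟨ζ, hζ, ζ', hζ', b1, b2, b3, b4, b5⟩ := claimP h1 h2 hv hk' θ'V hξ' vθ' a2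
    (by rw [kk]; linarith) (by rw [kk]; linarith) ξ'θ'
  rw [kk] at b3 b4
  have E2 : ∀ w, e ζ' ⬝ᵥ w + (θ ⬝ᵥ w - c ⬝ᵥ w) = e ζ ⬝ᵥ w + e ξ ⬝ᵥ w + e η ⬝ᵥ w := fun w => by
    have := dif b5 w
    have := E1 w
    rw [θ'w] at *
    simp only [ev] at *
    linarith
  have cv' : c ⬝ᵥ v' = 0 := by
    have := e_v' θ' vθ'
    rw [eθ', sub_dotProduct] at this
    linarith
  have O1 : ∀ w ∈ W, θ ⬝ᵥ w = 1 → e ζ ⬝ᵥ w = 1 → e η ⬝ᵥ w = 1 → False := by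
    obtain ⟨γ, γp, γ1, γ2⟩ := lemmaV h1 h2 hθ (ep ζ hζ) (ep η hη) hc'.1 hv θv (e_v ζ b1) (e_v η ηv)
      (by rw [sub_dotProduct]; linarith) (fun w hw hθw x y => by
        rw [sub_dotProduct]
        linarith [E2 w, (nn _ (ep ξ hξ) w hw hθw).1, (nn _ (ep ζ' hζ') w hw hθw).2,
          (nn _ hc.1 w hw hθw).1])
    rcases hc'.2.2 γ γp (fun w hw hθw h => (γ2 w hw hθw h).2) with h | h
    · intro w hw hθw x y
      have := γ1 w hw hθw x y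
      rw [h, zero_dotProduct] at this; norm_num at this
    · have := (γ2 v' v'W θv' (by rw [h, sub_dotProduct]; linarith)).1
      rw [e_v' ζ b1, e_v' η ηv] at this
      rcases this with h | h <;> linarith
  have ζ0 : ∀ w ∈ W, θ ⬝ᵥ w = 1 → e η ⬝ᵥ w = 1 → e ζ ⬝ᵥ w = 0 ∧ e ξ ⬝ᵥ w = 0 := fun w hw hθw y =>
    ⟨(ep ζ hζ w hw hθw).resolve_right fun x => O1 w hw hθw x y, by
      linarith [E1 w, (nn _ (ep ξ hξ) w hw hθw).1, (nn _ (ep ξ' hξ') w hw hθw).2]⟩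
  have O2 : ∀ w ∈ W, θ ⬝ᵥ w = 1 → e ζ' ⬝ᵥ w = 1 → e η ⬝ᵥ w = 1 → False := by
    obtain ⟨γ, γp, γ1, γ2⟩ := lemmaV h1 h2 hθ (ep ζ' hζ') (ep η hη) hc.1 v'W θv'
      (by rw [e_v' ζ' b2]; linarith) (by rw [e_v' η ηv]; linarith) cv' (fun w hw hθw x y => by
        linarith [E2 w, (ζ0 w hw hθw y).1, (ζ0 w hw hθw y).2])
    rcases hc.2.2 γ γp (fun w hw hθw h => (γ2 w hw hθw h).2) with h | h
    · intro w hw hθw x y
      have := γ1 w hw hθw x y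
      rw [h, zero_dotProduct] at this; norm_num at this
    · have := (γ2 v hv θv (h ▸ cv)).1
      rw [e_v ζ' b2, e_v η ηv] at this
      rcases this with h | h <;> linarith
  refine ηθ' (subc' η hη ηθ fun w hw hθw y => ?_)
  have := (ep ζ' hζ' w hw hθw).resolve_right fun x => O2 w hw hθw x y
  rw [sub_dotProduct]
  linarith [E2 w, (ζ0 w hw hθw y).1, (ζ0 w hw hθw y).2]

theorem comb (hn : 2 ≤ n) (h1 : Half V W) (h2 : Half W V) : Decomp W ∨ Decomp V := by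
  by_contra hc
  push Not at hc
  obtain ⟨θ, hθ⟩ := h1.nonempty
  obtain ⟨c, c1, c2⟩ := exists_atom_pair hn h1 h2 hθ hc.1
  obtain ⟨v, hv, θv, cv⟩ := exists_one h1 h2 hθ c1.1 c1.2.1
  obtain ⟨k, k1, k2⟩ := exists_atom_pair hn h2 h1 hv hc.2
  have vθ : v ⬝ᵥ θ = 1 := dotProduct_comm θ v ▸ θv
  rcases k1.1 θ hθ vθ with h | h
  · exact hc.1 (comb3_main h1 h2 hθ c1 c2 hv θv cv k2 (by rwa [sub_sub_cancel])
      (by rw [sub_dotProduct]; linarith))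
  · exact hc.1 (comb3_main h1 h2 hθ c1 c2 hv θv cv k1 k2 h)

end Vale.Agent.P248
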