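import Vale.Agent.P248.Mass

/-! The core estimate (helper74). -/

open MeasureTheory Filter Topology Set
open scoped Real ComplexConjugate Pointwise

namespace Vale.Agent.P248

theorem zeta_re {n : ℕ} (a : Fin n → ℝ) (z : (Fin n → ℝ) × (Fin n → ℝ)) :
    (zeta a z).re = a ⬝ᵥ z.1 := by simp [zeta]

theorem zeta_im {n : ℕ} (a : Fin n → ℝ) (z : (Fin n → ℝ) × (Fin n → ℝ)) :
    (zeta a z).im = a ⬝ᵥ z.2 := by simp [zeta]

theorem core_cont_zeta {n : ℕ} (a : Fin n → ℝ) : Continuous (zeta a) := by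
  unfold zeta; fun_prop

/-- the fibre map has Jacobian `Hm` -/
theorem core_hasFDerivAt {n : ℕ} {ι : Type} [Fintype ι] (a : ι → Fin n → ℝ) (b : ι → ℝ → ℝ)
    (G : ι → ℂ) (y : Fin n → ℝ) (h : ∀ l, HasDerivAt (b l) (‖G l‖ ^ 2) (a l ⬝ᵥ y)) :
    HasFDerivAt (fun y => ∑ l, b l (a l ⬝ᵥ y) • a l)
      (LinearMap.toContinuousLinearMap (Matrix.toLin' (Hm G a))) y := by
  have hd : ∀ l, HasFDerivAt (fun y : Fin n → ℝ => a l ⬝ᵥ y)
      (∑ j, a l j • (ContinuousLinearMap.proj j : (Fin n → ℝ) →L[ℝ] ℝ)) y := by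
    intro l
    have := (∑ j, a l j • (ContinuousLinearMap.proj j : (Fin n → ℝ) →L[ℝ] ℝ)).hasFDerivAt (x := y)
    refine this.congr_of_eventuallyEq (Eventually.of_forall fun v => ?_)
    simp [dotProduct]
  have h2 := HasFDerivAt.fun_sum (u := Finset.univ)
    (fun l _ => (((h l).comp_hasFDerivAt y (hd l)).smul_const (a l)))
  refine h2.congr_fderiv ?_
  ext v j
  simp [Hm, Matrix.mulVec, dotProduct, Finset.sum_apply, Finset.mul_sum, Finset.sum_mul]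
  rw [Finset.sum_comm]
  refine Finset.sum_congr rfl fun l _ => Finset.sum_congr rfl fun k _ => by ring

theorem core_inj {n : ℕ} {ι : Type} [Fintype ι] (a : ι → Fin n → ℝ)
    (hspan : ∀ x : Fin n → ℝ, (∀ l, a l ⬝ᵥ x = 0) → x = 0) (b : ι → ℝ → ℝ) (I : ι → Set ℝ)
    (hb : ∀ l, StrictMonoOn (b l) (I l)) :
    InjOn (fun y => ∑ l, b l (a l ⬝ᵥ y) • a l) {y | ∀ l, a l ⬝ᵥ y ∈ I l} := by
  intro y hy y' hy' h
  have h1 : ∑ l, (b l (a l ⬝ᵥ y) - b l (a l ⬝ᵥ y')) * (a l ⬝ᵥ y - a l ⬝ᵥ y') = 0 := by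
    have h2 := congrArg (fun v => v ⬝ᵥ (y - y')) h
    simp only [sum_dotProduct, smul_dotProduct, smul_eq_mul, dotProduct_sub] at h2
    simp only [sub_mul, Finset.sum_sub_distrib]
    simp only [mul_sub, Finset.sum_sub_distrib]
    linarith
  have h3 : ∀ l, 0 ≤ (b l (a l ⬝ᵥ y) - b l (a l ⬝ᵥ y')) * (a l ⬝ᵥ y - a l ⬝ᵥ y') := by
    intro l
    rcases le_total (a l ⬝ᵥ y) (a l ⬝ᵥ y') with h4 | h4
    · exact mul_nonneg_of_nonpos_of_nonpos (sub_nonpos.2 ((hb l).monotoneOn (hy l) (hy' l) h4))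
        (sub_nonpos.2 h4)
    · exact mul_nonneg (sub_nonneg.2 ((hb l).monotoneOn (hy' l) (hy l) h4)) (sub_nonneg.2 h4)
  rw [Finset.sum_eq_zero_iff_of_nonneg (fun l _ => h3 l)] at h1
  rw [← sub_eq_zero]
  apply hspan
  intro l
  rw [dotProduct_sub]
  rcases mul_eq_zero.1 (h1 l (Finset.mem_univ l)) with h4 | h4
  · rw [(hb l).injOn (hy l) (hy' l) (sub_eq_zero.1 h4), sub_self]
  · exact h4

theorem core_sign {f : ℝ → ℝ} {r t : ℝ} (hf : StrictMonoOn f {t | |t| < r}) (h0 : f 0 = 0)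
    (ht : |t| < r) : f t * t = |f t| * |t| := by
  have hr : (0 : ℝ) ∈ {t : ℝ | |t| < r} := by
    simp only [mem_ofPred_eq, abs_zero]; exact (abs_nonneg t).trans_lt ht
  rw [← abs_mul, abs_of_nonneg]
  rcases le_total t 0 with h | h
  · exact mul_nonneg_of_nonpos_of_nonpos (h0 ▸ hf.monotoneOn ht hr h) h
  · exact mul_nonneg (h0 ▸ hf.monotoneOn hr ht h) h

theorem isBounded_dom {φ : ℝ → ℝ} (h : Continuous φ) : Bornology.IsBounded (dom φ) := by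
  obtain ⟨M, hM⟩ := (isCompact_Icc (a := (-1 : ℝ)) (b := 1)).bddAbove_image h.continuousOn
  rw [isBounded_iff_forall_norm_le]
  refine ⟨1 + M, fun ζ hζ => ?_⟩
  have h1 := Complex.norm_le_abs_re_add_abs_im ζ
  have h2 : φ ζ.re ≤ M := hM ⟨ζ.re, ⟨(abs_lt.1 hζ.1).1.le, (abs_lt.1 hζ.1).2.le⟩, rfl⟩
  linarith [hζ.1, hζ.2]

/-- the estimate for fixed parameters -/
theorem core_step {φ : ℝ → ℝ} {Φ : ℂ → ℂ} (hL : Lens φ Φ) {n : ℕ} (hn : 1 ≤ n)
    (A : Finset (Fin n → ℝ)) (hA : ∀ x : Fin n → ℝ, (∀ a ∈ A, a ⬝ᵥ x = 0) → x = 0)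
    {q : ℕ} (hq : 1 ≤ q) {c : ℝ} (hc : 0 < c) (b : ℝ → ℝ → ℝ)
    (hb : ∀ s : ℝ, |s| < 1 → StrictMonoOn (b s) {t | |t| < φ s} ∧ ∀ t : ℝ, |t| < φ s →
      HasDerivAt (b s) (‖deriv (fun z => Φ z ^ (q + 1)) ((s : ℂ) + (t : ℂ) * Complex.I)‖ ^ 2) t)
    (S : Set ((Fin n → ℝ) × (Fin n → ℝ))) (hS : MeasurableSet S)
    (hmem : ∀ x y : Fin n → ℝ, (∀ a ∈ A, zeta a (x, y) ∈ dom φ) →
      ∑ a ∈ A, ‖Φ (zeta a (x, y)) ^ (q + 1)‖ ^ 2 < 1 →
      (x, ∑ a ∈ A, (b (a ⬝ᵥ x) (a ⬝ᵥ y) / c) • a) ∈ S) :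
    ENNReal.ofReal ((π * q) ^ n / n.factorial) ≤ ENNReal.ofReal (c ^ n) * volume S := by
  have hU := isOpen_dom hL.prof.cont
  have h0 : (0 : ℂ) ∈ dom φ := by
    refine ⟨by simp, ?_⟩
    simpa using hL.prof.pos 0 (by simp)
  have hm := mass hn (ι := A) (fun l => l.1) (fun x hx => hA x fun a ha => hx ⟨a, ha⟩) hU h0
    hL.holo hL.zero hL.proper hq
  refine hm.trans ?_
  set Ω : Set ((Fin n → ℝ) × (Fin n → ℝ)) := {z | (∀ l : A, zeta l.1 z ∈ dom φ) ∧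
    ∑ l : A, ‖Φ (zeta l.1 z) ^ (q + 1)‖ ^ 2 < 1} with hΩ
  have hΩo : IsOpen Ω := by
    have h1 : IsOpen {z : (Fin n → ℝ) × (Fin n → ℝ) | ∀ l : A, zeta l.1 z ∈ dom φ} := by
      rw [ofPred_forall]
      exact isOpen_iInter_of_finite fun l => hU.preimage (core_cont_zeta _)
    have h2 : ContinuousOn (fun z : (Fin n → ℝ) × (Fin n → ℝ) =>
        ∑ l : A, ‖Φ (zeta l.1 z) ^ (q + 1)‖ ^ 2) {z | ∀ l : A, zeta l.1 z ∈ dom φ} := by
      refine continuousOn_finsetSum _ fun l _ => ?_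
      have h3 : ContinuousOn (fun z => Φ (zeta l.1 z)) {z | ∀ l : A, zeta l.1 z ∈ dom φ} :=
        hL.holo.continuousOn.comp (core_cont_zeta _).continuousOn fun z hz => hz l
      exact (h3.pow _).norm.pow _
    exact h2.isOpen_inter_preimage h1 isOpen_Iio
  rw [← lintegral_indicator hΩo.measurableSet, Measure.volume_eq_prod]
  refine (lintegral_prod_le _).trans ?_
  rw [Measure.prod_apply hS, ← lintegral_const_mul' _ _ ENNReal.ofReal_ne_top]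
  refine lintegral_mono fun x => ?_
  have hΩx : IsOpen (Prod.mk x ⁻¹' Ω) := hΩo.preimage (by fun_prop)
  have e1 : ∀ (F : (Fin n → ℝ) × (Fin n → ℝ) → ENNReal) (y : Fin n → ℝ),
      Ω.indicator F (x, y) = (Prod.mk x ⁻¹' Ω).indicator (fun y => F (x, y)) y := by
    intro F y
    by_cases h : (x, y) ∈ Ω
    · rw [indicator_of_mem h, indicator_of_mem (by exact h)]
    · rw [indicator_of_notMem h, indicator_of_notMem (by exact h)]
  simp only [e1]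
  rw [lintegral_indicator hΩx.measurableSet]
  have hder : ∀ y ∈ Prod.mk x ⁻¹' Ω, HasFDerivWithinAt
      (fun y => ∑ l : A, b (l.1 ⬝ᵥ x) (l.1 ⬝ᵥ y) • l.1)
      (LinearMap.toContinuousLinearMap (Matrix.toLin' (Hm (fun l : A =>
        deriv (fun w => Φ w ^ (q + 1)) (zeta l.1 (x, y))) (fun l => l.1)))) (Prod.mk x ⁻¹' Ω) y := by
    intro y hy
    refine (core_hasFDerivAt (fun l : A => l.1) (fun l => b (l.1 ⬝ᵥ x)) _ y
      fun l => ?_).hasFDerivWithinAt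
    have h1 := hy.1 l
    have h2 : |l.1 ⬝ᵥ x| < 1 := by simpa [zeta_re] using h1.1
    have h3 : |l.1 ⬝ᵥ y| < φ (l.1 ⬝ᵥ x) := by simpa [zeta_re, zeta_im] using h1.2
    exact (hb _ h2).2 _ h3
  by_cases hx : ∀ l : A, |l.1 ⬝ᵥ x| < 1
  swap
  · have : Prod.mk x ⁻¹' Ω = ∅ := by
      refine eq_empty_of_forall_notMem fun y hy => hx fun l => ?_
      simpa [zeta_re] using (hy.1 l).1
    rw [this]; simp
  have hinj : InjOn (fun y => ∑ l : A, b (l.1 ⬝ᵥ x) (l.1 ⬝ᵥ y) • l.1) (Prod.mk x ⁻¹' Ω) := by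
    refine (core_inj (fun l : A => l.1) (fun x hx => hA x fun a ha => hx ⟨a, ha⟩)
      (fun l => b (l.1 ⬝ᵥ x)) (fun l => {t | |t| < φ (l.1 ⬝ᵥ x)})
      fun l => (hb _ (hx l)).1).mono ?_
    intro y hy l
    simpa [zeta_re, zeta_im] using (hy.1 l).2
  have hcv := lintegral_abs_det_fderiv_eq_addHaar_image volume hΩx.measurableSet hder hinj
  simp only [LinearMap.det_toContinuousLinearMap, LinearMap.det_toLin'] at hcv
  refine le_trans (lintegral_mono fun y => ENNReal.ofReal_le_ofReal (le_abs_self _)) ?_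
  rw [hcv]
  have hsub : (fun y => ∑ l : A, b (l.1 ⬝ᵥ x) (l.1 ⬝ᵥ y) • l.1) '' (Prod.mk x ⁻¹' Ω) ⊆
      c • (Prod.mk x ⁻¹' S) := by
    rintro _ ⟨y, hy, rfl⟩
    refine ⟨∑ a ∈ A, (b (a ⬝ᵥ x) (a ⬝ᵥ y) / c) • a, hmem x y (fun a ha => hy.1 ⟨a, ha⟩) ?_, ?_⟩
    · rw [← Finset.sum_coe_sort A]; exact hy.2
    · simp only
      rw [Finset.sum_coe_sort A (fun a => b (a ⬝ᵥ x) (a ⬝ᵥ y) • a), Finset.smul_sum]
      refine Finset.sum_congr rfl fun a _ => ?_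
      rw [smul_smul]; congr 1; field_simp
  refine (measure_mono hsub).trans ?_
  rw [Measure.addHaar_smul, Module.finrank_fin_fun, abs_of_pos (pow_pos hc n)]

theorem core_term {ε₁ ε₂ M f t β : ℝ} (h1 : 0 ≤ ε₁) (h2 : 0 ≤ ε₂) (hf : f ≤ M) (hM : 0 ≤ M)
    (h : f - ε₁ ≤ |t| ∨ |β| ≤ ε₂) : |β| * f ≤ |β| * |t| + (|β| * ε₁ + ε₂ * M) := by
  have hb := abs_nonneg β
  have ht := abs_nonneg t
  rcases h with h | h
  · nlinarith [mul_le_mul_of_nonneg_left h hb, mul_nonneg h2 hM]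
  · nlinarith [mul_le_mul_of_nonneg_left hf hb, mul_le_mul_of_nonneg_right h hM,
      mul_nonneg hb ht, mul_nonneg hb h1]

theorem core_t {φ : ℝ → ℝ} {Φ : ℂ → ℂ} (hL : Lens φ Φ) {n : ℕ} (hn : 1 ≤ n)
    (A : Finset (Fin n → ℝ)) (hA : ∀ x : Fin n → ℝ, (∀ a ∈ A, a ⬝ᵥ x = 0) → x = 0)
    {ε : ℝ} (hε : 0 < ε) {t : ℝ} (ht0 : 0 < t) (ht1 : t < 1) :
    ENNReal.ofReal (t ^ n * (4 ^ n / n.factorial)) ≤ volume (coreSet φ A ε) := by
  obtain ⟨M, hM⟩ := (isCompact_Icc (a := (-1 : ℝ)) (b := 1)).bddAbove_image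
    hL.prof.cont.continuousOn
  have hM' : ∀ s, |s| ≤ 1 → φ s ≤ M := fun s hs => hM ⟨s, abs_le.1 hs, rfl⟩
  have hM0 : 0 < M := (hL.prof.pos 0 (by simp)).trans_le (hM' 0 (by simp))
  set N : ℝ := (A.card : ℝ) with hN
  have hN0 : 0 ≤ N := Nat.cast_nonneg _
  obtain ⟨δ, hδ, hbd⟩ := hL.bdry (ε / 2) (by positivity)
  set ε₂ : ℝ := ε / (2 * (N + 1) * M) with hε₂
  have hε₂0 : 0 < ε₂ := by positivity
  -- choice of the small parameter
  obtain ⟨e, he0, he1, he2, he3⟩ : ∃ e : ℝ, 0 < e ∧ e ≤ 1 ∧ e ≤ ε₂ / 2 ∧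
      t * (1 + e * (N + 1)) < 1 := by
    have h1 : Tendsto (fun e : ℝ => t * (1 + e * (N + 1))) (𝓝[>] 0) (𝓝 (t * (1 + 0 * (N + 1)))) :=
      Tendsto.mono_left (Continuous.tendsto (by fun_prop) 0) nhdsWithin_le_nhds
    have h2 := h1.eventually (gt_mem_nhds (show t * (1 + 0 * (N + 1)) < 1 by simpa using ht1))
    have h3 : ∀ᶠ e : ℝ in 𝓝[>] 0, e ≤ min 1 (ε₂ / 2) :=
      mem_nhdsWithin_of_mem_nhds (Iic_mem_nhds (by positivity))
    obtain ⟨e, h4, h5, h6⟩ := (h2.and (h3.and self_mem_nhdsWithin)).exists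
    exact ⟨e, h6, h5.trans (min_le_left _ _), h5.trans (min_le_right _ _), h4⟩
  obtain ⟨p₀, hp₀⟩ := hL.est e he0
  set r : ℝ := max (1 - δ) 0 with hr
  have hr0 : 0 ≤ r := le_max_right _ _
  have hr1 : r < 1 := max_lt (by linarith) one_pos
  set t' := t * (1 + e * (N + 1)) with ht'
  have ht'0 : 0 < t' := by positivity
  obtain ⟨q, hq1, hq2, hq3, hq4⟩ : ∃ q : ℕ, 1 ≤ q ∧ p₀ ≤ q ∧ r ^ q ≤ ε₂ / 4 ∧
      t' / (1 - t') ≤ q := by
    have h1 := (tendsto_pow_atTop_nhds_zero_of_lt_one hr0 hr1).eventually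
      (ge_mem_nhds (show (0 : ℝ) < ε₂ / 4 by positivity))
    have h2 := tendsto_natCast_atTop_atTop (R := ℝ) |>.eventually_ge_atTop (t' / (1 - t'))
    obtain ⟨q, h3, h4, h5, h6⟩ := ((eventually_ge_atTop 1).and ((eventually_ge_atTop p₀).and
      (h1.and h2))).exists
    exact ⟨q, h3, h4, h5, h6⟩
  obtain ⟨b, hb⟩ := hp₀ (q + 1) (by omega)
  set c : ℝ := π / 4 * ((q + 1 : ℕ) : ℝ) * (1 + e * (N + 1)) with hc
  have hc0 : 0 < c := by positivity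
  have key := core_step hL hn A hA hq1 hc0 b
    (fun s hs => ⟨(hb s hs).2.1, fun t ht => ((hb s hs).2.2 t ht).1⟩)
    (toMeasurable volume (coreSet φ A ε)) (measurableSet_toMeasurable _ _) ?_
  · rw [measure_toMeasurable] at key
    have h1 : ENNReal.ofReal (c ^ n) * ENNReal.ofReal (t ^ n * (4 ^ n / n.factorial)) ≤
        ENNReal.ofReal (c ^ n) * volume (coreSet φ A ε) := by
      refine le_trans ?_ key
      rw [← ENNReal.ofReal_mul (by positivity)]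
      refine ENNReal.ofReal_le_ofReal ?_
      have h2 : c * t * 4 ≤ π * q := by
        have h3 : t' * (q + 1) ≤ q := by
          rw [div_le_iff₀ (by linarith)] at hq4
          linarith
        have h4 : c * t * 4 = π * (t' * (q + 1)) := by
          rw [hc, ht']; push_cast; ring
        rw [h4]
        exact mul_le_mul_of_nonneg_left h3 Real.pi_pos.le
      have h5 : c ^ n * (t ^ n * (4 ^ n / n.factorial)) = (c * t * 4) ^ n / n.factorial := by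
        rw [mul_pow (c * t), mul_pow c t]; ring
      rw [h5]
      gcongr
    exact (ENNReal.mul_le_mul_iff_right (by simpa using pow_pos hc0 n) ENNReal.ofReal_ne_top).1 h1
  intro x y hd hψ
  apply subset_toMeasurable
  have h2 : ∀ a ∈ A, |a ⬝ᵥ x| < 1 := fun a ha => by simpa [zeta_re] using (hd a ha).1
  have h3 : ∀ a ∈ A, |a ⬝ᵥ y| < φ (a ⬝ᵥ x) := fun a ha => by
    simpa [zeta_re, zeta_im] using (hd a ha).2
  have hP : 0 < π / 4 * ((q + 1 : ℕ) : ℝ) := by positivity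
  have hβ : ∀ a ∈ A, |b (a ⬝ᵥ x) (a ⬝ᵥ y) / c| ≤
      ((1 + e) * ‖Φ (zeta a (x, y)) ^ (q + 1)‖ ^ 2 + e) / (1 + e * (N + 1)) := by
    intro a ha
    have h4 := ((hb _ (h2 a ha)).2.2 _ (h3 a ha)).2
    rw [abs_div, abs_of_pos hc0, div_le_div_iff₀ hc0 (by positivity), hc]
    have h5 : (0 : ℝ) ≤ 1 + e * (N + 1) := by positivity
    calc _ ≤ _ := mul_le_mul_of_nonneg_right h4 h5
      _ = _ := by unfold zeta; ring
  have hsum : ∑ a ∈ A, |b (a ⬝ᵥ x) (a ⬝ᵥ y) / c| ≤ 1 := by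
    refine (Finset.sum_le_sum hβ).trans ?_
    rw [← Finset.sum_div, div_le_one (by positivity), Finset.sum_add_distrib, ← Finset.mul_sum,
      Finset.sum_const, nsmul_eq_mul, ← hN]
    nlinarith
  refine ⟨y, fun a => b (a ⬝ᵥ x) (a ⬝ᵥ y) / c, fun a ha => ⟨(h2 a ha).le, (h3 a ha).le⟩, rfl,
    hsum, ?_⟩
  simp only [sum_dotProduct, smul_dotProduct, smul_eq_mul]
  have hterm : ∀ a ∈ A, |b (a ⬝ᵥ x) (a ⬝ᵥ y) / c| * φ (a ⬝ᵥ x) ≤
      b (a ⬝ᵥ x) (a ⬝ᵥ y) / c * (a ⬝ᵥ y) +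
        (|b (a ⬝ᵥ x) (a ⬝ᵥ y) / c| * (ε / 2) + ε₂ * M) := by
    intro a ha
    have h4 : b (a ⬝ᵥ x) (a ⬝ᵥ y) / c * (a ⬝ᵥ y) = |b (a ⬝ᵥ x) (a ⬝ᵥ y) / c| * |a ⬝ᵥ y| := by
      rw [abs_div, abs_of_pos hc0, div_mul_eq_mul_div, div_mul_eq_mul_div,
        core_sign (hb _ (h2 a ha)).2.1 (hb _ (h2 a ha)).1 (h3 a ha)]
    rw [h4]
    refine core_term (by positivity) hε₂0.le (hM' _ (h2 a ha).le) hM0.le ?_
    by_cases h5 : 1 - δ ≤ ‖Φ (zeta a (x, y))‖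
    · left
      simpa [zeta_re, zeta_im] using hbd _ (hd a ha) h5
    · right
      refine (hβ a ha).trans ?_
      have h6 : ‖Φ (zeta a (x, y))‖ ≤ r := (not_le.1 h5).le.trans (le_max_left _ _)
      have h7 : ‖Φ (zeta a (x, y)) ^ (q + 1)‖ ^ 2 ≤ ε₂ / 4 := by
        rw [norm_pow, ← pow_mul]
        refine le_trans ?_ hq3
        refine (pow_le_pow_left₀ (norm_nonneg _) h6 _).trans ?_
        exact pow_le_pow_of_le_one hr0 hr1.le (by omega)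
      rw [div_le_iff₀ (by positivity)]
      have h8 : 0 ≤ ε₂ * (e * (N + 1)) := by positivity
      nlinarith [mul_le_mul_of_nonneg_left h7 (by linarith : 0 ≤ 1 + e)]
  refine (Finset.sum_le_sum hterm).trans ?_
  rw [Finset.sum_add_distrib, Finset.sum_add_distrib, ← Finset.sum_mul, Finset.sum_const,
    nsmul_eq_mul, ← hN]
  have h9 : N * (ε₂ * M) ≤ ε / 2 := by
    have : N * (ε₂ * M) = ε / 2 * (N / (N + 1)) := by rw [hε₂]; field_simp
    rw [this]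
    exact mul_le_of_le_one_right (by positivity) (by rw [div_le_one (by positivity)]; linarith)
  nlinarith [mul_le_mul_of_nonneg_right hsum (by positivity : 0 ≤ ε / 2)]

theorem core {φ : ℝ → ℝ} {Φ : ℂ → ℂ} (hL : Lens φ Φ) {n : ℕ} (hn : 1 ≤ n) : CoreProp φ n := by
  intro A hA ε hε
  have h1 : Tendsto (fun t : ℝ => ENNReal.ofReal (t ^ n * (4 ^ n / n.factorial))) (𝓝[<] 1)
      (𝓝 (ENNReal.ofReal (1 ^ n * (4 ^ n / n.factorial)))) :=
    Tendsto.mono_left (Continuous.tendsto (ENNReal.continuous_ofReal.comp (by fun_prop)) 1)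
      nhdsWithin_le_nhds
  rw [one_pow, one_mul] at h1
  refine le_of_tendsto h1 ?_
  filter_upwards [Ioo_mem_nhdsLT (show (0 : ℝ) < 1 by norm_num)] with t ht
  exact core_t hL hn A hA hε ht.1 ht.2

end Vale.Agent.P248
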