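import Vale.Agent.P248.Bodies

/-!
TASK P248-Far.  EStar for K and K° forces K, K° to be a dual pair of polytopes with ±1 pairing and MProp.
(i) polar_far: let y satisfy y ⬝ᵥ w ≤ 1 on Far K, x ∈ K, R > 0.  Let x₀ maximise |x' + R y|² := (x'+Ry)⬝ᵥ(x'+Ry) on K.
Expanding, x₀ ∈ Far K with u = x₀ + R y, and y ⬝ᵥ x ≤ y ⬝ᵥ x₀ + |x₀|²/(2R) ≤ 1 + C/R.  R → ∞.
Far K is symmetric (u ↦ -u) and contained in K.
(ii) far_pair: x₀ ∈ Far K (witness u₀), ξ₀ ∈ Far K° (witness v₀).  |ξ₀ ⬝ᵥ x₀| ≤ 1; suppose < 1 and let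
2c = φ(ξ₀ ⬝ᵥ x₀) > 0.  Use EStar with Θ = polar K, x₀, ξ₀, u = M v₀, α = c - M v₀ ⬝ᵥ ξ₀.  For θ ∈ K°:
α + θ ⬝ᵥ u ≤ c - (M/2)|θ - ξ₀|² ≤ φ(θ ⬝ᵥ x₀) for M large (θ near ξ₀: continuity; otherwise the left side is ≤ 0 ≤ φ);
apply to ±θ (φ even).  α ≤ 0 for M large because v₀ ⬝ᵥ ξ₀ > 0 (test θ = -ξ₀, and ξ₀ ≠ 0: if ξ₀ = 0 testing ±θ gives K° = {0},
impossible for n ≥ 1; likewise h₀ := u₀ ⬝ᵥ x₀ > 0).  α + ξ₀ ⬝ᵥ u = c.
For σ > 0 put h σ = (u₀ + σ ξ₀) ⬝ᵥ x₀ + σ²|ξ₀|²/2, θ₀ = u₀/h₀, θσ = (u₀ + σ ξ₀)/h σ; both are in K°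
(for x ∈ K: (u₀ + σ ξ₀)⬝ᵥ(x - x₀) ≤ -|x-x₀|²/2 + σ ξ₀ ⬝ᵥ (x-x₀) ≤ σ²|ξ₀|²/2; h σ > 0 for small σ).  With A = {θ₀, θσ} we get y with
θ₀ ⬝ᵥ y = 0 (φ 1 = 0) and |θσ ⬝ᵥ y| ≤ φ(1 - τ), τ = σ²|ξ₀|²/(2 hσ).  σ ξ₀ = hσ θσ - h₀ θ₀, so
c ≤ ξ₀ ⬝ᵥ y ≤ (hσ/σ) φ(1-τ) = (φ(1-τ)/√τ) √(hσ) |ξ₀|/√2 → 0 as σ → 0+ (Prof.sqrt).  Contradiction.
(iii) W = Far K, V = Far K° are finite: polar V = K is bounded so V separates points; two distinct points of W differ by 2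
in some θ ∈ V ⊆ K° (bounded), so W is uniformly separated inside the compact K (or: sign patterns on a finite
spanning subset of V).
(iv) hull: convexHull V is compact convex, contains 0 (V symmetric, nonempty), so by polar_polar and polar_convexHull it equals
polar (polar V) = polar K = polar W.
(v) mprop_of_estar: Θ = V.  V = V_v ∪ -V_v, V_v = {θ ∈ V | θ ⬝ᵥ v = 1}.  For small τ > 0, x = v - τ d ∈ K, θ ⬝ᵥ x = 1 - τ (θ ⬝ᵥ d) on V_v.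
Let ω = φ(1-τ) > 0, η > 0.  By Prof.ratio for the finitely many δ = θ ⬝ᵥ d, for small τ |φ(1 - τ δ) - ω δ| ≤ η ω.
EStar with α = -ω(1+η), u' = ω u, A = V gives y with |θ ⬝ᵥ y| ≤ ω(θ ⬝ᵥ d + η), ω(ξ ⬝ᵥ u - 1 - η) ≤ ξ ⬝ᵥ y.  Divide by ω and let η → 0 by compactness
(the y's are bounded since polar V = K is bounded).
-/

open MeasureTheory Filter Topology Set
open scoped Real ComplexConjugate Pointwise

namespace Vale.Agent.P248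

variable {n : ℕ}

/-- points exposed by a ball -/
def Far (K : Set (Fin n → ℝ)) : Set (Fin n → ℝ) :=
  {x₀ | x₀ ∈ K ∧ ∃ u : Fin n → ℝ, ∀ x ∈ K, (x - x₀) ⬝ᵥ (x - x₀) / 2 ≤ u ⬝ᵥ (x₀ - x)}

theorem far_self_nonneg (a : Fin n → ℝ) : 0 ≤ a ⬝ᵥ a :=
  Finset.sum_nonneg fun i _ => mul_self_nonneg (a i)

theorem far_cs (a b : Fin n → ℝ) : (a ⬝ᵥ b) ^ 2 ≤ (a ⬝ᵥ a) * (b ⬝ᵥ b) := by
  have := Finset.sum_mul_sq_le_sq_mul_sq Finset.univ a b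
  simpa only [dotProduct, sq] using this

theorem far_subset (K : Set (Fin n → ℝ)) : Far K ⊆ K := fun _ h => h.1

theorem far_neg {K : Set (Fin n → ℝ)} (hK : Body K) {x₀ : Fin n → ℝ} (h : x₀ ∈ Far K) :
    -x₀ ∈ Far K := by
  obtain ⟨h1, u, hu⟩ := h
  refine ⟨hK.symm _ h1, -u, fun x hx => ?_⟩
  have := hu (-x) (hK.symm _ hx)
  simp only [dotProduct_sub, sub_dotProduct, dotProduct_neg, neg_dotProduct] at this ⊢
  linarith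

theorem polar_far {K : Set (Fin n → ℝ)} (hK : Body K) : polar (Far K) = polar K := by
  refine Subset.antisymm (fun y hy x hx => ?_) fun y hy x hx => hy x hx.1
  obtain ⟨z, -, hz⟩ := hK.compact.exists_isMaxOn ⟨x, hx⟩
    (f := fun x' : Fin n → ℝ => x' ⬝ᵥ x') (by fun_prop)
  refine le_of_forall_pos_le_add fun ε hε => ?_
  have hz0 := far_self_nonneg z
  set R := (z ⬝ᵥ z + 1) / ε with hR
  have hR0 : 0 < R := by positivity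
  obtain ⟨x₀, hx₀, hm⟩ := hK.compact.exists_isMaxOn ⟨x, hx⟩
    (f := fun x' : Fin n → ℝ => (x' + R • y) ⬝ᵥ (x' + R • y)) (by fun_prop)
  have hm' : ∀ x' ∈ K, x' ⬝ᵥ x' + 2 * R * (y ⬝ᵥ x') ≤ x₀ ⬝ᵥ x₀ + 2 * R * (y ⬝ᵥ x₀) := by
    intro x' hx'
    have := hm hx'
    simp only [mem_ofPred_eq, dotProduct_add, add_dotProduct, dotProduct_smul, smul_dotProduct,
      smul_eq_mul, dotProduct_comm x' y, dotProduct_comm x₀ y] at this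
    linarith
  have hfar : x₀ ∈ Far K := by
    refine ⟨hx₀, x₀ + R • y, fun x' hx' => ?_⟩
    have := hm' x' hx'
    simp only [dotProduct_sub, sub_dotProduct, add_dotProduct, smul_dotProduct, smul_eq_mul,
      dotProduct_comm x₀ x']
    linarith
  have h1 := hy x₀ hfar
  have h2 := hm' x hx
  have h3 : x₀ ⬝ᵥ x₀ ≤ z ⬝ᵥ z := hz hx₀
  have h4 := far_self_nonneg x
  have h5 : R * ε = z ⬝ᵥ z + 1 := by rw [hR]; field_simp
  have h6 : R * (y ⬝ᵥ x) ≤ R * (1 + ε) := by nlinarith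
  exact le_of_mul_le_mul_left h6 hR0

theorem far_exists_ne (hn : 1 ≤ n) {K : Set (Fin n → ℝ)} (hK : Body K) : ∃ x ∈ K, x ≠ 0 := by
  obtain ⟨ε, hε, hb⟩ := Metric.mem_nhds_iff.1 (mem_interior_iff_mem_nhds.1 hK.zero_mem_interior)
  refine ⟨fun _ => ε / 2, hb ?_, fun h => ?_⟩
  · rw [mem_ball_zero_iff, pi_norm_lt_iff hε]
    intro i
    rw [Real.norm_eq_abs, abs_of_pos (by positivity)]
    linarith
  · have := congrFun h ⟨0, hn⟩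
    simp only [Pi.zero_apply] at this
    linarith

theorem far_pos (hn : 1 ≤ n) {K : Set (Fin n → ℝ)} (hK : Body K) {x₀ u : Fin n → ℝ} (h1 : x₀ ∈ K)
    (hu : ∀ x ∈ K, (x - x₀) ⬝ᵥ (x - x₀) / 2 ≤ u ⬝ᵥ (x₀ - x)) : 0 < x₀ ⬝ᵥ x₀ ∧ 0 < u ⬝ᵥ x₀ := by
  have h2 : 0 < x₀ ⬝ᵥ x₀ := by
    refine (far_self_nonneg x₀).lt_of_ne fun h => ?_
    have h0 : x₀ = 0 := dotProduct_self_eq_zero.1 h.symm
    obtain ⟨x, hx, hne⟩ := far_exists_ne hn hK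
    have a1 := hu x hx
    have a2 := hu (-x) (hK.symm _ hx)
    simp only [h0, sub_zero, zero_sub, dotProduct_neg, neg_dotProduct, neg_neg] at a1 a2
    exact hne (dotProduct_self_eq_zero.1 (le_antisymm (by linarith) (far_self_nonneg x)))
  have h3 := hu (-x₀) (hK.symm _ h1)
  simp only [dotProduct_sub, sub_dotProduct, dotProduct_neg, neg_dotProduct] at h3
  exact ⟨h2, by linarith⟩

theorem far_norming {K : Set (Fin n → ℝ)} (hK : Body K) : Norming K (polar K) := by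
  refine ⟨fun θ h => h, fun x hx => ?_⟩
  rw [← hK.bipolar]
  intro θ hθ
  rw [dotProduct_comm]
  exact (le_abs_self _).trans (hx θ hθ)

/-- first half of `far_pair`: a uniform lower bound for the interpolation problem -/
theorem far_interp {φ : ℝ → ℝ} (hφ : Prof φ) (hn : 1 ≤ n) {K : Set (Fin n → ℝ)} (hK : Body K)
    (h : EStar φ K) {x₀ ξ₀ : Fin n → ℝ} (hx : x₀ ∈ K) (hξ : ξ₀ ∈ Far (polar K))
    (hlt : |ξ₀ ⬝ᵥ x₀| < 1) : ∃ c : ℝ, 0 < c ∧ ∀ A : Finset (Fin n → ℝ), (∀ a ∈ A, a ∈ polar K) →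
      ∃ y : Fin n → ℝ, (∀ a ∈ A, |a ⬝ᵥ y| ≤ φ (a ⬝ᵥ x₀)) ∧ c ≤ ξ₀ ⬝ᵥ y := by
  obtain ⟨hξK, v₀, hv⟩ := hξ
  have hp := hφ.pos _ hlt
  set c := φ (ξ₀ ⬝ᵥ x₀) / 2 with hc
  have hc0 : 0 < c := by positivity
  obtain ⟨δ, hδ, hd⟩ : ∃ δ > 0, ∀ s, |s - ξ₀ ⬝ᵥ x₀| < δ → c < φ s := by
    have : ∀ᶠ s in 𝓝 (ξ₀ ⬝ᵥ x₀), c < φ s :=
      hφ.cont.continuousAt.eventually (lt_mem_nhds (by linarith))
    obtain ⟨δ, hδ, hd⟩ := Metric.eventually_nhds_iff.1 this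
    exact ⟨δ, hδ, fun s hs => hd (by rwa [Real.dist_eq])⟩
  have hvξ := (far_pos hn hK.polar_body hξK hv).2
  have hxx := far_self_nonneg x₀
  set M := c / (v₀ ⬝ᵥ ξ₀) + 2 * c * (x₀ ⬝ᵥ x₀) / δ ^ 2 with hM
  have hM1 : 0 ≤ c / (v₀ ⬝ᵥ ξ₀) := by positivity
  have hM2 : 0 ≤ 2 * c * (x₀ ⬝ᵥ x₀) / δ ^ 2 := by positivity
  have hα : c - M * (v₀ ⬝ᵥ ξ₀) ≤ 0 := by
    have : c / (v₀ ⬝ᵥ ξ₀) * (v₀ ⬝ᵥ ξ₀) = c := by field_simp
    rw [hM]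
    nlinarith [mul_nonneg hM2 hvξ.le]
  have key : ∀ θ ∈ polar K, c - M * (v₀ ⬝ᵥ ξ₀) + θ ⬝ᵥ (M • v₀) ≤ φ (θ ⬝ᵥ x₀) := by
    intro θ hθ
    have a1 := hv θ hθ
    have a2 := far_self_nonneg (θ - ξ₀)
    have a3 : c - M * (v₀ ⬝ᵥ ξ₀) + θ ⬝ᵥ (M • v₀) ≤ c - M * ((θ - ξ₀) ⬝ᵥ (θ - ξ₀) / 2) := by
      rw [dotProduct_sub v₀] at a1
      rw [dotProduct_smul, smul_eq_mul, dotProduct_comm θ v₀]
      have := mul_le_mul_of_nonneg_left a1 (add_nonneg hM1 hM2)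
      rw [← hM] at this
      linarith
    refine a3.trans ?_
    by_cases hs : |θ ⬝ᵥ x₀ - ξ₀ ⬝ᵥ x₀| < δ
    · have := hd _ hs
      have : 0 ≤ M * ((θ - ξ₀) ⬝ᵥ (θ - ξ₀) / 2) := mul_nonneg (add_nonneg hM1 hM2) (by linarith)
      linarith
    · refine le_trans ?_ (hφ.nonneg (hK.abs_le hx hθ))
      have b1 : δ ^ 2 ≤ ((θ - ξ₀) ⬝ᵥ x₀) ^ 2 := by
        rw [sub_dotProduct, ← sq_abs (θ ⬝ᵥ x₀ - ξ₀ ⬝ᵥ x₀)]
        exact pow_le_pow_left₀ hδ.le (not_lt.1 hs) 2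
      have b2 := b1.trans (far_cs (θ - ξ₀) x₀)
      have b3 : c ≤ 2 * c * (x₀ ⬝ᵥ x₀) / δ ^ 2 * ((θ - ξ₀) ⬝ᵥ (θ - ξ₀) / 2) := by
        rw [div_mul_eq_mul_div, le_div_iff₀ (by positivity)]
        nlinarith
      rw [hM]
      nlinarith [mul_nonneg hM1 a2]
  refine ⟨c, hc0, fun A hA => ?_⟩
  obtain ⟨y, hy1, hy2⟩ := h (polar K) (far_norming hK) x₀ hx ξ₀ hξK (c - M * (v₀ ⬝ᵥ ξ₀)) (M • v₀)
    hα (fun θ hθ => by
      rcases abs_cases (θ ⬝ᵥ (M • v₀)) with e | e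
      · rw [e.1]; exact key θ hθ
      · have := key (-θ) (hK.polar_body.symm _ hθ)
        rw [neg_dotProduct, neg_dotProduct, hφ.even] at this
        rw [e.1]; exact this) A hA
  refine ⟨y, hy1, ?_⟩
  rw [dotProduct_smul, smul_eq_mul, dotProduct_comm ξ₀ v₀] at hy2
  linarith

theorem far_pair {φ : ℝ → ℝ} (hφ : Prof φ) (hn : 1 ≤ n) {K : Set (Fin n → ℝ)} (hK : Body K)
    (h : EStar φ K) {x₀ ξ₀ : Fin n → ℝ} (hx : x₀ ∈ Far K) (hξ : ξ₀ ∈ Far (polar K)) :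
    ξ₀ ⬝ᵥ x₀ = 1 ∨ ξ₀ ⬝ᵥ x₀ = -1 := by
  have habs := hK.abs_le hx.1 hξ.1
  by_contra hcon
  have hlt : |ξ₀ ⬝ᵥ x₀| < 1 :=
    habs.lt_of_ne fun e => hcon ((abs_eq (by norm_num : (0 : ℝ) ≤ 1)).1 e)
  obtain ⟨c, hc, hA⟩ := far_interp hφ hn hK h hx.1 hξ hlt
  obtain ⟨hxK, u₀, hu⟩ := hx
  obtain ⟨hξK, v₀, hv⟩ := hξ
  have hh0 := (far_pos hn hK hxK hu).2
  have hq := (far_pos hn hK.polar_body hξK hv).1
  set q := ξ₀ ⬝ᵥ ξ₀ with hqd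
  set h₀ := u₀ ⬝ᵥ x₀ with hh₀
  set s₀ := ξ₀ ⬝ᵥ x₀ with hs₀
  let H : ℝ → ℝ := fun σ => h₀ + σ * s₀ + σ ^ 2 * q / 2
  have hHc : Continuous H := by fun_prop
  have hH0 : Tendsto H (𝓝[>] 0) (𝓝 h₀) := by
    have := hHc.tendsto 0
    simp only [H, zero_mul, add_zero, ne_eq, OfNat.ofNat_ne_zero, not_false_eq_true, zero_pow,
      zero_div] at this
    exact this.mono_left nhdsWithin_le_nhds
  have hHpos : ∀ᶠ σ in 𝓝[>] (0 : ℝ), 0 < H σ := hH0.eventually (lt_mem_nhds hh0)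
  let τ : ℝ → ℝ := fun σ => σ ^ 2 * (q / (2 * H σ))
  have hq0 : Tendsto (fun σ => q / (2 * H σ)) (𝓝[>] 0) (𝓝 (q / (2 * h₀))) :=
    tendsto_const_nhds.div (hH0.const_mul 2) (by positivity)
  have hτ : Tendsto τ (𝓝[>] 0) (𝓝[>] 0) := by
    refine tendsto_nhdsWithin_iff.2 ⟨?_, ?_⟩
    · have h1 : Tendsto (fun σ : ℝ => σ ^ 2) (𝓝[>] 0) (𝓝 0) := by
        have := ((continuous_pow 2).tendsto (0 : ℝ)).mono_left (nhdsWithin_le_nhds (s := Ioi 0))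
        simpa using this
      simpa using h1.mul hq0
    · filter_upwards [hHpos, self_mem_nhdsWithin] with σ h1 h2
      have h3 : 0 < σ := h2
      exact mul_pos (pow_pos h3 2) (div_pos hq (by linarith))
  have hlim : Tendsto (fun σ => φ (1 - τ σ) / √(τ σ) * (√(q / (2 * H σ)) * H σ)) (𝓝[>] 0)
      (𝓝 0) := by
    simpa using (hφ.sqrt.comp hτ).mul (hq0.sqrt.mul hH0)
  have hev : ∀ᶠ σ in 𝓝[>] (0 : ℝ), c ≤ φ (1 - τ σ) / √(τ σ) * (√(q / (2 * H σ)) * H σ) := by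
    filter_upwards [hHpos, self_mem_nhdsWithin] with σ h1 h2
    have h3 : 0 < σ := h2
    have m0 : h₀⁻¹ • u₀ ∈ polar K := by
      intro x hx
      have a1 := hu x hx
      have a2 := far_self_nonneg (x - x₀)
      rw [dotProduct_sub u₀] at a1
      rw [smul_dotProduct, smul_eq_mul, inv_mul_le_iff₀ hh0]
      linarith
    have m1 : (H σ)⁻¹ • (u₀ + σ • ξ₀) ∈ polar K := by
      intro x hx
      have a1 := hu x hx
      have a2 := far_self_nonneg (x - x₀ - σ • ξ₀)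
      rw [smul_dotProduct, smul_eq_mul, inv_mul_le_iff₀ h1]
      simp only [dotProduct_sub, sub_dotProduct, add_dotProduct, smul_dotProduct, dotProduct_smul,
        smul_eq_mul, dotProduct_comm x ξ₀, dotProduct_comm x₀ ξ₀] at a1 a2 ⊢
      simp only [H]
      nlinarith
    classical
    obtain ⟨y, hy1, hy2⟩ := hA {h₀⁻¹ • u₀, (H σ)⁻¹ • (u₀ + σ • ξ₀)} (by
      intro a ha
      simp only [Finset.mem_insert, Finset.mem_singleton] at ha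
      rcases ha with rfl | rfl
      exacts [m0, m1])
    have y0 := hy1 _ (Finset.mem_insert_self _ _)
    have y1 := hy1 _ (Finset.mem_insert_of_mem (Finset.mem_singleton_self _))
    rw [smul_dotProduct, smul_dotProduct, smul_eq_mul, smul_eq_mul, ← hh₀,
      inv_mul_cancel₀ hh0.ne', hφ.one, abs_nonpos_iff, mul_eq_zero] at y0
    have y2 : u₀ ⬝ᵥ y = 0 := y0.resolve_left (inv_ne_zero hh0.ne')
    have e1 : ((H σ)⁻¹ • (u₀ + σ • ξ₀)) ⬝ᵥ x₀ = 1 - τ σ := by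
      rw [smul_dotProduct, add_dotProduct, smul_dotProduct, smul_eq_mul, smul_eq_mul, ← hh₀, ← hs₀]
      have : h₀ + σ * s₀ = H σ - σ ^ 2 * q / 2 := by simp only [H]; ring
      rw [this]
      simp only [τ]
      field_simp
    rw [e1, smul_dotProduct, add_dotProduct, smul_dotProduct, y2, smul_eq_mul, smul_eq_mul,
      zero_add] at y1
    have y3 := (le_abs_self _).trans y1
    rw [inv_mul_le_iff₀ h1] at y3
    have hs : 0 < √(q / (2 * H σ)) := Real.sqrt_pos.2 (by positivity)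
    have e2 : √(τ σ) = σ * √(q / (2 * H σ)) := by
      simp only [τ]
      rw [Real.sqrt_mul (sq_nonneg σ), Real.sqrt_sq h3.le]
    have e3 : φ (1 - τ σ) / √(τ σ) * (√(q / (2 * H σ)) * H σ) = H σ * φ (1 - τ σ) / σ := by
      rw [e2]
      field_simp
    rw [e3, le_div_iff₀ h3]
    nlinarith
  exact absurd (ge_of_tendsto hlim hev) (not_le.2 hc)

theorem far_mprop_approx {φ : ℝ → ℝ} (hφ : Prof φ) {K : Set (Fin n → ℝ)}
    (h : EStar φ K) {V : Finset (Fin n → ℝ)} (hV : K = polar (V : Set (Fin n → ℝ)))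
    (hneg : ∀ θ ∈ V, -θ ∈ V) {v d u ξ : Fin n → ℝ} (hpm : ∀ θ ∈ V, θ ⬝ᵥ v = 1 ∨ θ ⬝ᵥ v = -1)
    (hd : ∀ θ ∈ V, θ ⬝ᵥ v = 1 → 0 ≤ θ ⬝ᵥ d)
    (hu : ∀ θ ∈ V, θ ⬝ᵥ v = 1 → |θ ⬝ᵥ u| ≤ θ ⬝ᵥ d + 1) (hξ : ξ ∈ polar K) {η : ℝ} (hη : 0 < η) :
    ∃ y : Fin n → ℝ, (∀ θ ∈ V, θ ⬝ᵥ v = 1 → |θ ⬝ᵥ y| ≤ θ ⬝ᵥ d + η) ∧
      ξ ⬝ᵥ u - 1 - η ≤ ξ ⬝ᵥ y := by
  have e1 : ∀ᶠ τ in 𝓝[>] (0 : ℝ), ∀ θ ∈ V, θ ⬝ᵥ v = 1 →
      |φ (1 - τ * (θ ⬝ᵥ d)) / φ (1 - τ) - θ ⬝ᵥ d| < η := by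
    refine (Finset.eventually_all V).2 fun θ hθ => ?_
    by_cases h1 : θ ⬝ᵥ v = 1
    · have := (Metric.tendsto_nhds.1 (hφ.ratio _ (hd θ hθ h1))) η hη
      filter_upwards [this] with τ hτ _
      rwa [Real.dist_eq] at hτ
    · exact Eventually.of_forall fun τ h2 => absurd h2 h1
  have e2 : ∀ᶠ τ in 𝓝[>] (0 : ℝ), ∀ θ ∈ V, τ * (θ ⬝ᵥ d) < 1 := by
    refine (Finset.eventually_all V).2 fun θ _ => ?_
    have hc : Continuous fun τ : ℝ => τ * (θ ⬝ᵥ d) := by fun_prop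
    exact (hc.continuousAt.eventually (gt_mem_nhds (by simp))).filter_mono nhdsWithin_le_nhds
  have e3 : ∀ᶠ τ in 𝓝[>] (0 : ℝ), τ ∈ Ioo (0 : ℝ) 1 := Ioo_mem_nhdsGT one_pos
  obtain ⟨τ, h1, h2, h3, h4⟩ := (e1.and (e2.and e3)).exists
  have hω : 0 < φ (1 - τ) := hφ.pos _ (by rw [abs_lt]; constructor <;> linarith)
  set ω := φ (1 - τ) with hωd
  have hneg1 : ∀ θ ∈ V, ¬ θ ⬝ᵥ v = 1 → (-θ) ⬝ᵥ v = 1 := fun θ hθ hn => by
    rw [neg_dotProduct, (hpm θ hθ).resolve_left hn, neg_neg]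
  have hx : ∀ θ : Fin n → ℝ, θ ⬝ᵥ v = 1 → θ ⬝ᵥ (v - τ • d) = 1 - τ * (θ ⬝ᵥ d) := fun θ hθ => by
    rw [dotProduct_sub, dotProduct_smul, smul_eq_mul, hθ]
  have hb : ∀ θ ∈ V, θ ⬝ᵥ v = 1 → ω * (θ ⬝ᵥ d - η) ≤ φ (θ ⬝ᵥ (v - τ • d)) ∧
      φ (θ ⬝ᵥ (v - τ • d)) ≤ ω * (θ ⬝ᵥ d + η) := by
    intro θ hθ hv
    have a1 := abs_lt.1 (h1 θ hθ hv)
    rw [hx θ hv]
    constructor
    · rw [mul_comm, ← le_div_iff₀ hω]; linarith [a1.1]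
    · rw [mul_comm ω, ← div_le_iff₀ hω]; linarith [a1.2]
  have hxK : v - τ • d ∈ K := by
    rw [hV]
    intro θ hθ
    rw [dotProduct_comm]
    by_cases hv : θ ⬝ᵥ v = 1
    · rw [hx θ hv]
      nlinarith [hd θ hθ hv]
    · have a1 := hx (-θ) (hneg1 θ hθ hv)
      have a2 := h2 (-θ) (hneg θ hθ)
      rw [neg_dotProduct] at a1
      linarith
  have hN : Norming K (V : Set (Fin n → ℝ)) := by
    rw [hV]
    refine ⟨fun θ hθ x hx => ?_, fun x hx θ hθ => ?_⟩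
    · rw [dotProduct_comm]; exact hx θ hθ
    · rw [dotProduct_comm]; exact (le_abs_self _).trans (hx θ hθ)
  have key : ∀ θ ∈ V, θ ⬝ᵥ v = 1 →
      -(ω * (1 + η)) + |θ ⬝ᵥ (ω • u)| ≤ φ (θ ⬝ᵥ (v - τ • d)) := by
    intro θ hθ hv
    rw [dotProduct_smul, smul_eq_mul, abs_mul, abs_of_pos hω]
    have := mul_le_mul_of_nonneg_left (hu θ hθ hv) hω.le
    linarith [(hb θ hθ hv).1]
  obtain ⟨y, hy1, hy2⟩ := h V hN _ hxK ξ hξ (-(ω * (1 + η))) (ω • u)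
    (by have : 0 < ω * (1 + η) := by positivity
        linarith)
    (fun θ hθ => by
      by_cases hv : θ ⬝ᵥ v = 1
      · exact key θ hθ hv
      · have := key (-θ) (hneg θ hθ) (hneg1 θ hθ hv)
        rwa [neg_dotProduct, neg_dotProduct, abs_neg, hφ.even] at this) V (fun a ha => ha)
  refine ⟨ω⁻¹ • y, fun θ hθ hv => ?_, ?_⟩
  · rw [dotProduct_smul, smul_eq_mul, abs_mul, abs_of_pos (inv_pos.2 hω), inv_mul_le_iff₀ hω]
    exact (hy1 θ hθ).trans (hb θ hθ hv).2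
  · rw [dotProduct_smul, smul_eq_mul] at hy2
    rw [dotProduct_smul, smul_eq_mul, le_inv_mul_iff₀ hω]
    linarith

theorem mprop_of_estar {φ : ℝ → ℝ} (hφ : Prof φ) {K : Set (Fin n → ℝ)} (hK : Body K)
    (h : EStar φ K) {V W : Finset (Fin n → ℝ)} (hV : K = polar (V : Set (Fin n → ℝ)))
    (hW : polar K = polar (W : Set (Fin n → ℝ))) (hneg : ∀ θ ∈ V, -θ ∈ V)
    (hpm : ∀ θ ∈ V, ∀ w ∈ W, θ ⬝ᵥ w = 1 ∨ θ ⬝ᵥ w = -1) : MProp V W := by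
  intro v hv d u ξ hd hu hξ
  have hξK : ξ ∈ polar K := by rw [hW]; exact fun w hw => hξ w hw
  have happ := fun k : ℕ => far_mprop_approx hφ h hV hneg (fun θ hθ => hpm θ hθ v hv) hd hu hξK
    (η := 1 / ((k : ℝ) + 1)) Nat.one_div_pos_of_nat
  choose y hy1 hy2 using happ
  set C := ∑ θ ∈ V, |θ ⬝ᵥ d| + 1 with hC
  have hC1 : ∀ θ ∈ V, |θ ⬝ᵥ d| + 1 ≤ C := fun θ hθ => by
    have := Finset.single_le_sum (f := fun θ => |θ ⬝ᵥ d|) (fun θ _ => abs_nonneg _) hθ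
    linarith
  have hC0 : 0 < C := by
    have : 0 ≤ ∑ θ ∈ V, |θ ⬝ᵥ d| := Finset.sum_nonneg fun θ _ => abs_nonneg _
    linarith
  have hbd : ∀ k, ∀ θ ∈ V, θ ⬝ᵥ v = 1 → |θ ⬝ᵥ y k| ≤ C := by
    intro k θ hθ h1
    have a1 := hy1 k θ hθ h1
    have a2 : 1 / ((k : ℝ) + 1) ≤ 1 := by
      rw [div_le_one (by positivity)]
      linarith [(Nat.cast_nonneg k : (0 : ℝ) ≤ k)]
    linarith [hC1 θ hθ, le_abs_self (θ ⬝ᵥ d)]
  have hmem : ∀ k, y k ∈ (fun x => C • x) '' K := by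
    intro k
    refine ⟨C⁻¹ • y k, ?_, by simp [smul_smul, hC0.ne']⟩
    rw [hV]
    intro θ hθ
    rw [smul_dotProduct, smul_eq_mul, inv_mul_le_iff₀ hC0, mul_one, dotProduct_comm]
    refine (le_abs_self _).trans ?_
    rcases hpm θ hθ v hv with h1 | h1
    · exact hbd k θ hθ h1
    · have := hbd k (-θ) (hneg θ hθ) (by rw [neg_dotProduct, h1, neg_neg])
      rwa [neg_dotProduct, abs_neg] at this
  obtain ⟨z, -, ψ, hψ, hz⟩ := (hK.compact.image (by fun_prop)).tendsto_subseq hmem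
  have h0 : Tendsto (fun k => 1 / ((ψ k : ℝ) + 1)) atTop (𝓝 0) :=
    tendsto_one_div_add_atTop_nhds_zero_nat.comp hψ.tendsto_atTop
  have hdot : ∀ θ : Fin n → ℝ, Tendsto (fun k => θ ⬝ᵥ y (ψ k)) atTop (𝓝 (θ ⬝ᵥ z)) := fun θ =>
    ((by fun_prop : Continuous fun x : Fin n → ℝ => θ ⬝ᵥ x).tendsto z).comp hz
  refine ⟨z, fun θ hθ h1 => ?_, ?_⟩
  · have := le_of_tendsto_of_tendsto' (hdot θ).abs (h0.const_add (θ ⬝ᵥ d))
      fun k => hy1 (ψ k) θ hθ h1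
    simpa using this
  · have := le_of_tendsto_of_tendsto' (h0.const_sub (ξ ⬝ᵥ u - 1)) (hdot ξ) fun k => hy2 (ψ k)
    simpa using this

theorem far_sep {K V : Set (Fin n → ℝ)} (hK : Body K) (hV : K = polar V) {x : Fin n → ℝ}
    (hx : ∀ θ ∈ V, x ⬝ᵥ θ = 0) : x = 0 := by
  obtain ⟨C, hC⟩ := hK.compact.isBounded.exists_norm_le
  by_contra hne
  have h0 : 0 < ‖x‖ := norm_pos_iff.2 hne
  have hm : ((|C| + 1) / ‖x‖) • x ∈ K := by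
    rw [hV]
    intro θ hθ
    rw [smul_dotProduct, hx θ hθ]
    simp
  have := hC _ hm
  rw [norm_smul, Real.norm_eq_abs, abs_of_pos (by positivity), div_mul_cancel₀ _ h0.ne'] at this
  linarith [le_abs_self C]

theorem far_finite {V W : Set (Fin n → ℝ)} (hsep : ∀ x, (∀ θ ∈ V, x ⬝ᵥ θ = 0) → x = 0)
    (hpm : ∀ θ ∈ V, ∀ w ∈ W, θ ⬝ᵥ w = 1 ∨ θ ⬝ᵥ w = -1) : W.Finite := by
  obtain ⟨B, hBV, hspan, hli⟩ := exists_linearIndependent ℝ V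
  have hB : B.Finite := hli.setFinite
  have : Finite B := hB
  refine Set.Finite.of_injOn (f := fun w (θ : B) => θ.1 ⬝ᵥ w)
    (t := Set.pi univ fun _ => {1, -1}) (fun w hw θ _ => hpm θ.1 (hBV θ.2) w hw)
    (fun w _ w' _ e => ?_) (Set.Finite.pi fun _ => Set.toFinite _)
  refine sub_eq_zero.1 (hsep _ fun θ hθ => ?_)
  have h1 : θ ∈ Submodule.span ℝ B := hspan ▸ Submodule.subset_span hθ
  clear hθ
  induction h1 using Submodule.span_induction with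
  | mem b hb =>
    have := congrFun e ⟨b, hb⟩
    simp only at this
    rw [dotProduct_comm, dotProduct_sub, this, sub_self]
  | zero => simp
  | add a b _ _ ha hb => rw [dotProduct_add, ha, hb, add_zero]
  | smul c a _ ha => rw [dotProduct_smul, ha, smul_zero]

theorem far_half {φ : ℝ → ℝ} (hφ : Prof φ) (hn : 1 ≤ n) {K : Set (Fin n → ℝ)} (hK : Body K)
    (h : EStar φ K) {V W : Finset (Fin n → ℝ)} (hV : K = polar (V : Set (Fin n → ℝ)))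
    (hW : polar K = polar (W : Set (Fin n → ℝ))) (hneg : ∀ θ ∈ V, -θ ∈ V)
    (hpm : ∀ θ ∈ V, ∀ w ∈ W, θ ⬝ᵥ w = 1 ∨ θ ⬝ᵥ w = -1) : Half V W := by
  refine ⟨hneg, hpm, fun ξ hξ => ?_, fun ξ hξ => far_sep hK.polar_body hW hξ,
    mprop_of_estar hφ hK h hV hW hneg hpm⟩
  have hne : V.Nonempty := by
    obtain ⟨x, -, hx⟩ := far_exists_ne hn hK
    by_contra he
    rw [Finset.not_nonempty_iff_eq_empty] at he
    exact hx (far_sep hK hV (by simp [he]))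
  obtain ⟨θ, hθ⟩ := hne
  have h0 : (0 : Fin n → ℝ) ∈ convexHull ℝ (V : Set (Fin n → ℝ)) := by
    have := convex_convexHull ℝ (V : Set (Fin n → ℝ)) (subset_convexHull ℝ _ hθ)
      (subset_convexHull ℝ _ (hneg θ hθ)) (a := 1 / 2) (b := 1 / 2) (by norm_num) (by norm_num)
      (by norm_num)
    simpa using this
  rw [← polar_polar (V.finite_toSet.isCompact_convexHull ℝ).isClosed (convex_convexHull ℝ _) h0,
    polar_convexHull, ← hV, hW]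
  exact hξ

theorem exists_pair {φ : ℝ → ℝ} (hφ : Prof φ) (hn : 1 ≤ n) {K : Set (Fin n → ℝ)} (hK : Body K)
    (h1 : EStar φ K) (h2 : EStar φ (polar K)) :
    ∃ V W : Finset (Fin n → ℝ), Half V W ∧ Half W V ∧ K = polar (V : Set (Fin n → ℝ)) ∧
      polar K = polar (W : Set (Fin n → ℝ)) := by
  have e1 : K = polar (Far (polar K)) := by rw [polar_far hK.polar_body, hK.bipolar]
  have e2 : polar K = polar (Far K) := (polar_far hK).symm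
  have hpm : ∀ θ ∈ Far (polar K), ∀ w ∈ Far K, θ ⬝ᵥ w = 1 ∨ θ ⬝ᵥ w = -1 :=
    fun θ hθ w hw => far_pair hφ hn hK h1 hw hθ
  have hpm' : ∀ w ∈ Far K, ∀ θ ∈ Far (polar K), w ⬝ᵥ θ = 1 ∨ w ⬝ᵥ θ = -1 :=
    fun w hw θ hθ => by rw [dotProduct_comm]; exact hpm θ hθ w hw
  have fW : (Far K).Finite := far_finite (fun x hx => far_sep hK e1 hx) hpm
  have fV : (Far (polar K)).Finite := far_finite (fun x hx => far_sep hK.polar_body e2 hx) hpm'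
  have e3 : K = polar (fV.toFinset : Set (Fin n → ℝ)) := by rwa [fV.coe_toFinset]
  have e4 : polar K = polar (fW.toFinset : Set (Fin n → ℝ)) := by rwa [fW.coe_toFinset]
  refine ⟨fV.toFinset, fW.toFinset, far_half hφ hn hK h1 e3 e4 (fun θ hθ => ?_)
    fun θ hθ w hw => ?_, far_half hφ hn hK.polar_body h2 e4 (by rw [hK.bipolar]; exact e3)
    (fun θ hθ => ?_) fun θ hθ w hw => ?_, e3, e4⟩
  · rw [Set.Finite.mem_toFinset] at hθ ⊢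
    exact far_neg hK.polar_body hθ
  · rw [Set.Finite.mem_toFinset] at hθ hw
    exact hpm θ hθ w hw
  · rw [Set.Finite.mem_toFinset] at hθ ⊢
    exact far_neg hK hθ
  · rw [Set.Finite.mem_toFinset] at hθ hw
    exact hpm' θ hθ w hw

end Vale.Agent.P248
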