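import Vale.Agent.P248.Vol

/-!
TASK P248-Vol (second file).  Hanner polytopes; splitting of polar W along a decomposition.
Induction on IsHanner.  The polar of the segment with parameter a is the segment with parameter 1/a, volume 2a
(volume_preserving_funUnique / Real.volume_Icc_pi_toReal).  HannerImage.prod_image: use the block map
T₁ × T₂ conjugated by the append equivalence.  hannerImage_one: a = max of x 0 over K.
decomp_prod: k = finrank X₁, l = finrank X₂ (Submodule.finrank_add_eq_of_isCompl), pick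
e₁ : (Fin k → ℝ) ≃ₗ X₁, e₂ (Module.finBasis .equivFun.symm), T (append x y) = e₁ x + e₂ y
(Submodule.prodEquivOfIsCompl), K i = preimage of polar W under the injective linear map e i (a Body: closed embedding,
0 is interior).  ξ = x₁ + x₂ is in polar W iff both x₁, x₂ are, since each w kills X₁ or X₂.
-/

open MeasureTheory Filter Topology Set
open scoped Real ComplexConjugate Pointwise

namespace Vale.Agent.P248

variable {n k l : ℕ}

theorem han_seg_eq (a : ℝ) :
    {x : Fin 1 → ℝ | -a ≤ x 0 ∧ x 0 ≤ a} = Icc (fun _ => -a) (fun _ => a) := by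
  ext x
  simp only [mem_setOf_eq, mem_Icc, Pi.le_def, Fin.forall_fin_one]

theorem han_seg_body {a : ℝ} (ha : 0 < a) : Body {x : Fin 1 → ℝ | -a ≤ x 0 ∧ x 0 ≤ a} where
  compact := by rw [han_seg_eq]; exact isCompact_Icc
  convex := by rw [han_seg_eq]; exact convex_Icc _ _
  inter := by
    refine ⟨0, mem_interior_iff_mem_nhds.2 ?_⟩
    rw [han_seg_eq]
    exact pi_Icc_mem_nhds (fun _ => by simpa using ha) (fun _ => by simpa using ha)
  symm := by
    rintro x ⟨h1, h2⟩
    constructor <;> simp only [Pi.neg_apply] <;> linarith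

theorem han_seg_polar {a : ℝ} (ha : 0 < a) :
    polar {x : Fin 1 → ℝ | -a ≤ x 0 ∧ x 0 ≤ a} = {x : Fin 1 → ℝ | -a⁻¹ ≤ x 0 ∧ x 0 ≤ a⁻¹} := by
  ext y
  simp only [polar, mem_setOf_eq, dotProduct, Fin.sum_univ_one]
  constructor
  · intro h
    have h1 := h (fun _ => a) ⟨by linarith, le_rfl⟩
    have h2 := h (fun _ => -a) ⟨le_rfl, by linarith⟩
    constructor
    · rw [neg_le, ← one_div, le_div_iff₀ ha]
      linarith
    · rw [← one_div, le_div_iff₀ ha]
      linarith
  · rintro ⟨h1, h2⟩ x ⟨h3, h4⟩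
    have h5 : |y 0| ≤ a⁻¹ := abs_le.2 ⟨h1, h2⟩
    have h6 : |x 0| ≤ a := abs_le.2 ⟨h3, h4⟩
    calc y 0 * x 0 ≤ |y 0| * |x 0| := by rw [← abs_mul]; exact le_abs_self _
      _ ≤ a⁻¹ * a := mul_le_mul h5 h6 (abs_nonneg _) (inv_nonneg.2 ha.le)
      _ = 1 := inv_mul_cancel₀ ha.ne'

theorem han_seg_volume {a : ℝ} (ha : 0 < a) :
    volume.real {x : Fin 1 → ℝ | -a ≤ x 0 ∧ x 0 ≤ a} = 2 * a := by
  rw [han_seg_eq, Measure.real, Real.volume_Icc_pi_toReal (fun _ => by linarith)]
  simp only [Fin.prod_univ_one]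
  ring

theorem IsHanner.body {H : Set (Fin n → ℝ)} (h : IsHanner n H) : Body H := by
  induction h with
  | segment a ha => exact han_seg_body ha
  | prod _ _ hA hB => exact hA.prod_body hB
  | sum _ _ hA hB => exact hA.sum_body hB

theorem IsHanner.polar_hanner {H : Set (Fin n → ℝ)} (h : IsHanner n H) : IsHanner n (polar H) := by
  induction h with
  | segment a ha =>
    rw [han_seg_polar ha]
    exact IsHanner.segment _ (inv_pos.2 ha)
  | prod hA hB iA iB =>
    rw [polar_prodSet hA.body hB.body]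
    exact IsHanner.sum iA iB
  | sum hA hB iA iB =>
    rw [polar_sumSet]
    exact IsHanner.prod iA iB

theorem han_fact (k l : ℕ) : (k.factorial * l.factorial / (k + l).factorial : ℝ) *
    (4 ^ k / k.factorial * (4 ^ l / l.factorial)) = 4 ^ (k + l) / (k + l).factorial := by
  have h1 : (k.factorial : ℝ) ≠ 0 := by positivity
  have h2 : (l.factorial : ℝ) ≠ 0 := by positivity
  have h3 : ((k + l).factorial : ℝ) ≠ 0 := by positivity
  rw [pow_add]
  field_simp

theorem IsHanner.vp_eq {H : Set (Fin n → ℝ)} (h : IsHanner n H) :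
    vp H = 4 ^ n / n.factorial := by
  induction h with
  | segment a ha =>
    unfold vp
    rw [han_seg_polar ha, han_seg_volume ha, han_seg_volume (inv_pos.2 ha)]
    have := ha.ne'
    field_simp
    norm_num
  | prod hA hB iA iB =>
    rw [vp_prodSet hA.body hB.body, iA, iB, han_fact]
  | sum hA hB iA iB =>
    rw [vp_sumSet hA.body hB.body, iA, iB, han_fact]

/-- appending as a linear equivalence -/
noncomputable def hanAppend (k l : ℕ) : ((Fin k → ℝ) × (Fin l → ℝ)) ≃ₗ[ℝ] (Fin (k + l) → ℝ) :=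
  { Fin.appendEquiv (α := ℝ) k l with
    map_add' := by
      intro p q
      funext i
      refine Fin.addCases (fun j => ?_) (fun j => ?_) i <;> simp [Fin.appendEquiv]
    map_smul' := by
      intro r p
      funext i
      refine Fin.addCases (fun j => ?_) (fun j => ?_) i <;> simp [Fin.appendEquiv] }

theorem hanAppend_apply (p : (Fin k → ℝ) × (Fin l → ℝ)) :
    hanAppend k l p = Fin.append p.1 p.2 := rfl

theorem hanAppend_symm (x : Fin k → ℝ) (y : Fin l → ℝ) :
    (hanAppend k l).symm (Fin.append x y) = (x, y) := by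
  rw [LinearEquiv.symm_apply_eq]
  rfl

theorem HannerImage.vp_eq {K : Set (Fin n → ℝ)} (h : HannerImage K) :
    vp K = 4 ^ n / n.factorial := by
  obtain ⟨H, hH, T, rfl⟩ := h
  rw [vp_image, hH.vp_eq]

theorem HannerImage.polar_image {K : Set (Fin n → ℝ)} (h : HannerImage K) :
    HannerImage (polar K) := by
  obtain ⟨H, hH, T, rfl⟩ := h
  obtain ⟨S, hS, -⟩ := Vale.Agent.P248.polar_image T
  exact ⟨_, hH.polar_hanner, S, hS H⟩

theorem HannerImage.image {K : Set (Fin n → ℝ)} (h : HannerImage K)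
    (T : (Fin n → ℝ) ≃ₗ[ℝ] (Fin n → ℝ)) : HannerImage (T '' K) := by
  obtain ⟨H, hH, S, rfl⟩ := h
  exact ⟨H, hH, S.trans T, by rw [← Set.image_comp]; rfl⟩

theorem HannerImage.prod_image {A : Set (Fin k → ℝ)} {B : Set (Fin l → ℝ)} (hA : HannerImage A)
    (hB : HannerImage B) : HannerImage (prodSet A B) := by
  obtain ⟨H₁, h₁, T₁, rfl⟩ := hA
  obtain ⟨H₂, h₂, T₂, rfl⟩ := hB
  refine ⟨_, IsHanner.prod h₁ h₂,
    (hanAppend k l).symm.trans ((T₁.prodCongr T₂).trans (hanAppend k l)), ?_⟩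
  have key : ∀ (x : Fin k → ℝ) (y : Fin l → ℝ),
      ((hanAppend k l).symm.trans ((T₁.prodCongr T₂).trans (hanAppend k l))) (Fin.append x y) =
        Fin.append (T₁ x) (T₂ y) := by
    intro x y
    rw [LinearEquiv.trans_apply, hanAppend_symm]
    rfl
  ext z
  constructor
  · rintro ⟨_, ⟨x, hx, rfl⟩, _, ⟨y, hy, rfl⟩, rfl⟩
    exact ⟨_, ⟨x, hx, y, hy, rfl⟩, key x y⟩
  · rintro ⟨_, ⟨x, hx, y, hy, rfl⟩, rfl⟩
    exact ⟨_, ⟨x, hx, rfl⟩, _, ⟨y, hy, rfl⟩, key x y⟩

theorem hannerImage_one {K : Set (Fin 1 → ℝ)} (hK : Body K) : HannerImage K := by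
  obtain ⟨m, hm, hmax⟩ := hK.compact.exists_isMaxOn ⟨0, hK.zero_mem⟩
    (continuous_apply (0 : Fin 1)).continuousOn
  have hmax' : ∀ x ∈ K, x 0 ≤ m 0 := fun x hx => hmax hx
  have hpos : 0 < m 0 := by
    obtain ⟨ε, hε, hb⟩ := Metric.mem_nhds_iff.1 hK.vol_nhds
    have : (fun _ => ε / 2 : Fin 1 → ℝ) ∈ K := by
      apply hb
      rw [mem_ball_zero_iff, pi_norm_const, Real.norm_eq_abs, abs_of_pos (by linarith)]
      linarith
    have := hmax' _ this
    linarith
  refine ⟨_, IsHanner.segment (m 0) hpos, LinearEquiv.refl ℝ _, ?_⟩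
  ext x
  change x ∈ K ↔ x ∈ id '' _
  rw [image_id, mem_setOf_eq]
  constructor
  · intro hx
    have h1 := hmax' _ (hK.symm x hx)
    simp only [Pi.neg_apply] at h1
    exact ⟨by linarith, hmax' x hx⟩
  · rintro ⟨h1, h2⟩
    have h3 := hK.convex hm (hK.symm m hm) (a := (m 0 + x 0) / (2 * m 0))
      (b := (m 0 - x 0) / (2 * m 0)) (div_nonneg (by linarith) (by linarith))
      (div_nonneg (by linarith) (by linarith)) (by field_simp; ring)
    convert h3 using 1
    funext i
    rw [Subsingleton.elim i 0]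
    simp only [Pi.add_apply, Pi.smul_apply, Pi.neg_apply, smul_eq_mul]
    field_simp
    ring

theorem Body.han_preimage {K : Set (Fin n → ℝ)} (hK : Body K)
    (e : (Fin k → ℝ) →ₗ[ℝ] (Fin n → ℝ)) (he : Function.Injective e) : Body (e ⁻¹' K) where
  compact := (e.isClosedEmbedding_of_injective (LinearMap.ker_eq_bot.2 he)).isCompact_preimage
    hK.compact
  convex := hK.convex.linear_preimage e
  inter := by
    refine ⟨0, mem_interior_iff_mem_nhds.2 ?_⟩
    apply e.continuous_of_finiteDimensional.continuousAt.preimage_mem_nhds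
    rw [map_zero]
    exact hK.vol_nhds
  symm := by
    intro x hx
    rw [mem_preimage, map_neg]
    exact hK.symm _ hx

theorem decomp_prod {W : Finset (Fin n → ℝ)} (hB : Body (polar (W : Set (Fin n → ℝ))))
    (hD : Decomp W) : ∃ k l : ℕ, 1 ≤ k ∧ 1 ≤ l ∧ k + l = n ∧
      ∃ (A : Set (Fin k → ℝ)) (B : Set (Fin l → ℝ)), Body A ∧ Body B ∧
        ∃ T : (Fin (k + l) → ℝ) ≃ₗ[ℝ] (Fin n → ℝ),
          polar (W : Set (Fin n → ℝ)) = T '' prodSet A B := by
  obtain ⟨X₁, X₂, hc, h₁, h₂, hW⟩ := hD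
  let e₁ : (Fin (Module.finrank ℝ X₁) → ℝ) ≃ₗ[ℝ] X₁ := (Module.finBasis ℝ X₁).equivFun.symm
  let e₂ : (Fin (Module.finrank ℝ X₂) → ℝ) ≃ₗ[ℝ] X₂ := (Module.finBasis ℝ X₂).equivFun.symm
  let f₁ := X₁.subtype ∘ₗ (e₁ : (Fin (Module.finrank ℝ X₁) → ℝ) →ₗ[ℝ] X₁)
  let f₂ := X₂.subtype ∘ₗ (e₂ : (Fin (Module.finrank ℝ X₂) → ℝ) →ₗ[ℝ] X₂)
  have hf₁ : Function.Injective f₁ := X₁.subtype_injective.comp e₁.injective
  have hf₂ : Function.Injective f₂ := X₂.subtype_injective.comp e₂.injective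
  have m₁ : ∀ x, f₁ x ∈ X₁ := fun x => (e₁ x).2
  have m₂ : ∀ x, f₂ x ∈ X₂ := fun x => (e₂ x).2
  let T := (hanAppend _ _).symm.trans ((e₁.prodCongr e₂).trans (X₁.prodEquivOfIsCompl X₂ hc))
  have key : ∀ x y, T (Fin.append x y) = f₁ x + f₂ y := by
    intro x y
    simp only [T]
    rw [LinearEquiv.trans_apply, hanAppend_symm]
    rfl
  have hsum : ∀ u ∈ X₁, ∀ v ∈ X₂, u + v ∈ polar (W : Set (Fin n → ℝ)) ↔
      u ∈ polar (W : Set (Fin n → ℝ)) ∧ v ∈ polar (W : Set (Fin n → ℝ)) := by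
    intro u hu v hv
    constructor
    · intro h
      constructor
      · intro w hw
        have := h w hw
        rw [add_dotProduct] at this
        rcases hW w hw with h3 | h3
        · rw [h3 u hu]; exact zero_le_one
        · rw [h3 v hv, add_zero] at this; exact this
      · intro w hw
        have := h w hw
        rw [add_dotProduct] at this
        rcases hW w hw with h3 | h3
        · rw [h3 u hu, zero_add] at this; exact this
        · rw [h3 v hv]; exact zero_le_one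
    · rintro ⟨h3, h4⟩ w hw
      rw [add_dotProduct]
      rcases hW w hw with h5 | h5
      · rw [h5 u hu, zero_add]; exact h4 w hw
      · rw [h5 v hv, add_zero]; exact h3 w hw
  refine ⟨Module.finrank ℝ X₁, Module.finrank ℝ X₂, ?_, ?_, ?_, f₁ ⁻¹' polar W, f₂ ⁻¹' polar W,
    hB.han_preimage f₁ hf₁, hB.han_preimage f₂ hf₂, T, ?_⟩
  · exact Submodule.one_le_finrank_iff.2 h₁
  · exact Submodule.one_le_finrank_iff.2 h₂
  · rw [Submodule.finrank_add_eq_of_isCompl hc, Module.finrank_fin_fun]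
  · ext z
    constructor
    · intro hz
      obtain ⟨p, hp⟩ := (hanAppend _ _).surjective (T.symm z)
      have hz' : z = f₁ p.1 + f₂ p.2 := by
        rw [← key, ← hanAppend_apply, hp, LinearEquiv.apply_symm_apply]
      have := (hsum _ (m₁ p.1) _ (m₂ p.2)).1 (hz' ▸ hz)
      exact ⟨_, ⟨p.1, this.1, p.2, this.2, rfl⟩, by rw [key, hz']⟩
    · rintro ⟨_, ⟨x, hx, y, hy, rfl⟩, rfl⟩
      rw [key]
      exact (hsum _ (m₁ x) _ (m₂ y)).2 ⟨hx, hy⟩

end Vale.Agent.P248
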