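import Vale.Agent.P248.Bodies

/-!
TASK P248-Ineq.  From the core estimate CoreProp to the Mahler inequality and to EStar.
Notation K_A = {x | ∀ a ∈ A, |a ⬝ᵥ x| ≤ 1}.  For A ⊆ Θ ⊆ polar K:  K ⊆ K_A and
coreSet φ A ε ⊆ K_A ×ˢ polar K  (Σ β a • a with Σ |β a| ≤ 1 lies in polar K by Body.abs_le).
approx: by outer regularity take an open bounded U ⊇ K with vol U ≤ vol K + η (Set.exists_isOpen_lt_add or
IsCompact.exists_isOpen_lt_add; intersect with a ball of radius R).  closedBall 0 R \ U is compact and disjoint from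
K = ⋂_{θ ∈ Θ} {|θ ⬝ᵥ x| ≤ 1}, so finitely many θ suffice (IsCompact.elim_finite_subfamily_closed); add A₀.
Then K_A ∩ closedBall R ⊆ U ⊆ ball R, and K_A is star-shaped, so K_A ⊆ U (rescale a point of norm > R to
norm R).  K_A bounded gives the spanning condition.
mahler_of_core: Θ = polar K is norming by bipolar; 4ⁿ/n! ≤ (vol K + η) vol K° (volume on the product is
Measure.prod_prod / Measure.volume_eq_prod), η → 0.
estar_of_core: first enlarge A to A₁ ⊆ Θ with K_{A₁} bounded (approx), so that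
|a ⬝ᵥ y| ≤ M for all a ∈ A₁ forces ‖y‖ ≤ C M.  Claim: for every η > 0 there is y with
|a ⬝ᵥ y| ≤ φ(a ⬝ᵥ x) + η on A₁ and α + ξ ⬝ᵥ u ≤ ξ ⬝ᵥ y + η.  The statement follows by compactness
(closed bounded nested sets, or a sequence η = 1/(m+1) and tendsto_subseq_of_bounded).
Claim: φ is uniformly continuous on [-1,1], Θ ⊆ polar K is bounded, so for small ρ,
‖x' - x‖ < ρ, θ ∈ Θ, |θ ⬝ᵥ x'| ≤ 1 imply |φ(θ ⬝ᵥ x') - φ(θ ⬝ᵥ x)| < η'.  The set
N = ball (x,ξ) ρ ∩ (K ×ˢ polar K) has measure c > 0 (x ∈ closure (interior K):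
Convex.closure_interior_eq_closure_of_nonempty_interior).  Take A' ⊇ A₁ from approx with η vol K° < c.  If
coreSet φ A' η' missed the ball it would lie in (K_{A'} ×ˢ polar K) \ N, of measure < vol K vol K° ≤ 4ⁿ/n!.
So there are (x', ξ') in the ball and y, β:  α + ξ' ⬝ᵥ u ≤ Σ |β a| (α + |a ⬝ᵥ u|)  (α ≤ 0, Σ|β| ≤ 1)
≤ Σ |β a| φ(a ⬝ᵥ x) ≤ Σ |β a| φ(a ⬝ᵥ x') + η' ≤ ξ' ⬝ᵥ y + 2η', and ξ' is ρ-close to ξ, y is bounded.
-/

open MeasureTheory Filter Topology Set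
open scoped Real ComplexConjugate Pointwise

namespace Vale.Agent.P248

variable {n : ℕ}

theorem ineq_dot_le (a v : Fin n → ℝ) : |a ⬝ᵥ v| ≤ n * ‖a‖ * ‖v‖ := by
  unfold dotProduct
  refine (Finset.abs_sum_le_sum_abs _ _).trans ?_
  have h : ∀ i ∈ (Finset.univ : Finset (Fin n)), |a i * v i| ≤ ‖a‖ * ‖v‖ := fun i _ => by
    rw [abs_mul]
    exact mul_le_mul (norm_le_pi_norm a i) (norm_le_pi_norm v i) (abs_nonneg _) (norm_nonneg _)
  refine (Finset.sum_le_sum h).trans (le_of_eq ?_)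
  simp [mul_assoc]

theorem ineq_closed (a : Fin n → ℝ) (c : ℝ) : IsClosed {x : Fin n → ℝ | |a ⬝ᵥ x| ≤ c} :=
  isClosed_le (by fun_prop) continuous_const

theorem ineq_scale {A : Finset (Fin n → ℝ)}
    (h : Bornology.IsBounded {x : Fin n → ℝ | ∀ a ∈ A, |a ⬝ᵥ x| ≤ 1}) :
    ∃ C : ℝ, 0 < C ∧ ∀ M : ℝ, 0 < M → ∀ y : Fin n → ℝ, (∀ a ∈ A, |a ⬝ᵥ y| ≤ M) → ‖y‖ ≤ C * M := by
  obtain ⟨C, hC, hC'⟩ := h.exists_pos_norm_le
  refine ⟨C, hC, fun M hM y hy => ?_⟩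
  have h1 := hC' (M⁻¹ • y) fun a ha => by
    rw [dotProduct_smul, smul_eq_mul, abs_mul, abs_of_pos (inv_pos.2 hM), inv_mul_le_iff₀ hM,
      mul_one]
    exact hy a ha
  rwa [norm_smul, Real.norm_eq_abs, abs_of_pos (inv_pos.2 hM), inv_mul_le_iff₀ hM,
    mul_comm] at h1

theorem ineq_span {A : Finset (Fin n → ℝ)}
    (h : Bornology.IsBounded {x : Fin n → ℝ | ∀ a ∈ A, |a ⬝ᵥ x| ≤ 1}) (x : Fin n → ℝ)
    (hx : ∀ a ∈ A, a ⬝ᵥ x = 0) : x = 0 := by
  obtain ⟨C, hC, hC'⟩ := ineq_scale h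
  rw [← norm_le_zero_iff]
  refine le_of_forall_pos_le_add fun ε hε => ?_
  have h1 := hC' (ε / C) (by positivity) x fun a ha => by
    rw [hx a ha, abs_zero]
    positivity
  rwa [mul_div_cancel₀ _ hC.ne', ← zero_add ε] at h1

theorem ineq_core_subset {φ : ℝ → ℝ} {K : Set (Fin n → ℝ)} (hK : Body K)
    {A : Finset (Fin n → ℝ)} (hA : ∀ a ∈ A, a ∈ polar K) (ε : ℝ) :
    coreSet φ A ε ⊆ {x : Fin n → ℝ | ∀ a ∈ A, |a ⬝ᵥ x| ≤ 1} ×ˢ polar K := by
  rintro z ⟨y, β, h1, h2, h3, -⟩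
  refine ⟨fun a ha => (h1 a ha).1, fun x hx => ?_⟩
  rw [h2, sum_dotProduct]
  refine le_trans (Finset.sum_le_sum fun a ha => ?_) h3
  rw [smul_dotProduct, smul_eq_mul]
  refine (le_abs_self _).trans ?_
  rw [abs_mul]
  exact mul_le_of_le_one_right (abs_nonneg _) (hK.abs_le hx (hA a ha))

theorem ineq_core_real {φ : ℝ → ℝ} (hc : CoreProp φ n) {A : Finset (Fin n → ℝ)}
    (h : Bornology.IsBounded {x : Fin n → ℝ | ∀ a ∈ A, |a ⬝ᵥ x| ≤ 1}) {ε : ℝ} (hε : 0 < ε)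
    {S : Set ((Fin n → ℝ) × (Fin n → ℝ))} (hS : coreSet φ A ε ⊆ S) (hS' : volume S ≠ ⊤) :
    4 ^ n / n.factorial ≤ volume.real S :=
  (ENNReal.ofReal_le_iff_le_toReal hS').1 ((hc A (ineq_span h) ε hε).trans (measure_mono hS))

theorem ineq_vol_prod (S T : Set (Fin n → ℝ)) :
    volume.real (S ×ˢ T) = volume.real S * volume.real T := by
  rw [Measure.volume_eq_prod, measureReal_prod_prod]

theorem ineq_local_pos {K : Set (Fin n → ℝ)} (hK : Body K) {x : Fin n → ℝ} (hx : x ∈ K) {ρ : ℝ}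
    (hρ : 0 < ρ) : 0 < volume.real (Metric.ball x ρ ∩ K) := by
  have h1 : x ∈ closure (interior K) := by
    rw [hK.convex.closure_interior_eq_closure_of_nonempty_interior hK.inter]
    exact subset_closure hx
  have h2 := mem_closure_iff.1 h1 _ Metric.isOpen_ball (Metric.mem_ball_self hρ)
  have h3 := (Metric.isOpen_ball.inter isOpen_interior).measure_pos volume h2
  refine ENNReal.toReal_pos
    (h3.trans_le (measure_mono (inter_subset_inter_right _ interior_subset))).ne' ?_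
  exact measure_ne_top_of_subset inter_subset_right hK.compact.measure_lt_top.ne

theorem approx {K Θ : Set (Fin n → ℝ)} (hK : Body K) (hΘ : Norming K Θ)
    (A₀ : Finset (Fin n → ℝ)) (hA₀ : ∀ a ∈ A₀, a ∈ Θ) {η : ℝ} (hη : 0 < η) :
    ∃ A : Finset (Fin n → ℝ), A₀ ⊆ A ∧ (∀ a ∈ A, a ∈ Θ) ∧
      Bornology.IsBounded {x : Fin n → ℝ | ∀ a ∈ A, |a ⬝ᵥ x| ≤ 1} ∧
      volume.real {x : Fin n → ℝ | ∀ a ∈ A, |a ⬝ᵥ x| ≤ 1} ≤ volume.real K + η := by
  classical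
  obtain ⟨R, hR, hKR⟩ := hK.compact.isBounded.subset_ball_lt 0 0
  have hKt : volume K ≠ ⊤ := hK.compact.measure_lt_top.ne
  obtain ⟨U, hKU, hU, hUv⟩ := K.exists_isOpen_lt_add hKt (ENNReal.ofReal_pos.2 hη).ne'
  have hS : IsCompact (Metric.closedBall (0 : Fin n → ℝ) R \ (U ∩ Metric.ball 0 R)) :=
    (isCompact_closedBall _ _).diff (hU.inter Metric.isOpen_ball)
  obtain ⟨u, hu⟩ := hS.elim_finite_subfamily_closed
    (fun θ : Θ => {x : Fin n → ℝ | |θ.1 ⬝ᵥ x| ≤ 1}) (fun θ => ineq_closed _ _) (by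
      rw [eq_empty_iff_forall_notMem]
      rintro x ⟨hx, hx'⟩
      have h1 : x ∈ K := hΘ.2 x fun θ hθ => mem_iInter.1 hx' ⟨θ, hθ⟩
      exact hx.2 ⟨hKU h1, hKR h1⟩)
  have h1 : ∀ x : Fin n → ℝ, (∀ a ∈ A₀ ∪ u.image Subtype.val, |a ⬝ᵥ x| ≤ 1) → ‖x‖ ≤ R →
      x ∈ U ∩ Metric.ball 0 R := by
    intro x hx hxR
    by_contra h
    refine eq_empty_iff_forall_notMem.1 hu x ⟨⟨mem_closedBall_zero_iff.2 hxR, h⟩, ?_⟩
    exact mem_iInter₂.2 fun θ hθ =>
      hx _ (Finset.mem_union_right _ (Finset.mem_image_of_mem _ hθ))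
  have h2 : {x : Fin n → ℝ | ∀ a ∈ A₀ ∪ u.image Subtype.val, |a ⬝ᵥ x| ≤ 1} ⊆
      U ∩ Metric.ball 0 R := by
    intro x hx
    refine h1 x hx ?_
    by_contra hxR
    rw [not_le] at hxR
    have hx0 : 0 < ‖x‖ := hR.trans hxR
    have h3 : ‖(R / ‖x‖) • x‖ = R := by
      rw [norm_smul, Real.norm_eq_abs, abs_of_pos (div_pos hR hx0), div_mul_cancel₀ _ hx0.ne']
    have h4 := h1 ((R / ‖x‖) • x) (fun a ha => by
      rw [dotProduct_smul, smul_eq_mul, abs_mul, abs_of_pos (div_pos hR hx0)]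
      exact mul_le_one₀ ((div_le_one hx0).2 hxR.le) (abs_nonneg _) (hx a ha)) h3.le
    exact (mem_ball_zero_iff.1 h4.2).ne h3
  refine ⟨A₀ ∪ u.image Subtype.val, Finset.subset_union_left, fun a ha => ?_,
    Metric.isBounded_ball.subset (h2.trans inter_subset_right), ?_⟩
  · rcases Finset.mem_union.1 ha with h | h
    · exact hA₀ a h
    · obtain ⟨θ, -, rfl⟩ := Finset.mem_image.1 h
      exact θ.2
  · have h3 := (measure_mono (μ := volume) (h2.trans inter_subset_left)).trans hUv.le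
    have h4 := ENNReal.toReal_mono (ENNReal.add_ne_top.2 ⟨hKt, ENNReal.ofReal_ne_top⟩) h3
    rwa [ENNReal.toReal_add hKt ENNReal.ofReal_ne_top, ENNReal.toReal_ofReal hη.le] at h4

theorem mahler_of_core {φ : ℝ → ℝ} (hc : CoreProp φ n) {K : Set (Fin n → ℝ)} (hK : Body K) :
    4 ^ n / n.factorial ≤ vp K := by
  have hΘ : Norming K (polar K) := by
    refine ⟨fun _ h => h, fun x hx => ?_⟩
    rw [← hK.bipolar]
    intro θ hθ
    rw [dotProduct_comm]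
    exact (le_abs_self _).trans (hx θ hθ)
  have hP := hK.polar_body.volume_pos
  refine le_of_forall_pos_le_add fun ε hε => ?_
  obtain ⟨A, -, hA, hb, hv⟩ := approx hK hΘ ∅ (by simp) (div_pos hε hP)
  have h1 := ineq_core_real hc hb one_pos (ineq_core_subset hK hA 1)
    (hb.prod hK.polar_body.compact.isBounded).measure_lt_top.ne
  rw [ineq_vol_prod] at h1
  refine h1.trans ((mul_le_mul_of_nonneg_right hv hP.le).trans (le_of_eq ?_))
  rw [add_mul, div_mul_cancel₀ _ hP.ne', vp]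

/-- The core set comes close to every point of `K × K°`. -/
theorem ineq_near {φ : ℝ → ℝ} (hc : CoreProp φ n) {K Θ : Set (Fin n → ℝ)} (hK : Body K)
    (h : vp K ≤ 4 ^ n / n.factorial) (hΘ : Norming K Θ) {x ξ : Fin n → ℝ} (hx : x ∈ K)
    (hξ : ξ ∈ polar K) (A₀ : Finset (Fin n → ℝ)) (hA₀ : ∀ a ∈ A₀, a ∈ Θ) {ε ρ : ℝ} (hε : 0 < ε)
    (hρ : 0 < ρ) : ∃ A : Finset (Fin n → ℝ), A₀ ⊆ A ∧ (∀ a ∈ A, a ∈ Θ) ∧
      ∃ z ∈ coreSet φ A ε, ‖z.1 - x‖ < ρ ∧ ‖z.2 - ξ‖ < ρ := by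
  have hP := hK.polar_body.volume_pos
  have hc0 := mul_pos (ineq_local_pos hK hx hρ) (ineq_local_pos hK.polar_body hξ hρ)
  obtain ⟨A, hA0, hA, hb, hv⟩ := approx hK hΘ A₀ hA₀ (div_pos (half_pos hc0) hP)
  refine ⟨A, hA0, hA, ?_⟩
  by_contra hno
  have hA' : ∀ a ∈ A, a ∈ polar K := fun a ha => hΘ.1 a (hA a ha)
  have hfin := (hb.prod hK.polar_body.compact.isBounded).measure_lt_top (μ := volume).ne
  have h1 : coreSet φ A ε ⊆ ({x : Fin n → ℝ | ∀ a ∈ A, |a ⬝ᵥ x| ≤ 1} ×ˢ polar K) \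
      ((Metric.ball x ρ ∩ K) ×ˢ (Metric.ball ξ ρ ∩ polar K)) := fun z hz =>
    ⟨ineq_core_subset hK hA' ε hz, fun h' =>
      hno ⟨z, hz, mem_ball_iff_norm.1 h'.1.1, mem_ball_iff_norm.1 h'.2.1⟩⟩
  have h2 := ineq_core_real hc hb hε h1 (measure_ne_top_of_subset sdiff_subset hfin)
  have hsub : (Metric.ball x ρ ∩ K) ×ˢ (Metric.ball ξ ρ ∩ polar K) ⊆
      {x : Fin n → ℝ | ∀ a ∈ A, |a ⬝ᵥ x| ≤ 1} ×ˢ polar K := fun w hw =>
    ⟨fun a ha => hK.abs_le hw.1.2 (hA' a ha), hw.2.2⟩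
  rw [measureReal_sdiff hsub
    ((measurableSet_ball.inter hK.compact.measurableSet).prod
      (measurableSet_ball.inter hK.polar_body.compact.measurableSet)) hfin,
    ineq_vol_prod, ineq_vol_prod] at h2
  have h3 := mul_le_mul_of_nonneg_right hv hP.le
  rw [add_mul, div_mul_cancel₀ _ hP.ne'] at h3
  unfold vp at h
  linarith

theorem estar_of_core {φ : ℝ → ℝ} (hφ : Prof φ) (hc : CoreProp φ n) {K : Set (Fin n → ℝ)}
    (hK : Body K) (h : vp K ≤ 4 ^ n / n.factorial) : EStar φ K := by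
  intro Θ hΘ x hx ξ hξ α u hα hu A hA
  obtain ⟨A₁, hA₁, hA₁Θ, hb, -⟩ := approx hK hΘ A hA one_pos
  obtain ⟨C, hC, hC'⟩ := ineq_scale hb
  obtain ⟨B, hB, hB'⟩ :=
    ((isCompact_Icc (a := (-1 : ℝ)) (b := 1)).image hφ.cont).isBounded.exists_pos_norm_le
  have hφB : ∀ s, |s| ≤ 1 → φ s ≤ B := fun s hs =>
    (le_abs_self _).trans (hB' _ ⟨s, abs_le.1 hs, rfl⟩)
  obtain ⟨P, hP, hP'⟩ := hK.polar_body.compact.isBounded.exists_pos_norm_le
  have huc := Metric.uniformContinuousOn_iff.1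
    ((isCompact_Icc (a := (-1 : ℝ)) (b := 1)).uniformContinuousOn_of_continuous
      hφ.cont.continuousOn)
  have claim : ∀ η : ℝ, 0 < η → ∃ y : Fin n → ℝ, (∀ a ∈ A₁, |a ⬝ᵥ y| ≤ φ (a ⬝ᵥ x) + η) ∧
      α + ξ ⬝ᵥ u ≤ ξ ⬝ᵥ y + η := by
    intro η hη
    obtain ⟨δ, hδ, hδ'⟩ := huc (η / 3) (by positivity)
    have hD : 0 < n * (‖u‖ + C * B) + 1 := by positivity
    have hD' : 0 < n * P + 1 := by positivity
    obtain ⟨A', hA', hA'Θ, z, ⟨y, β, h1, h2, h3, h4⟩, hz1, hz2⟩ := ineq_near hc hK h hΘ hx hξ A₁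
      hA₁Θ (ε := η / 3) (ρ := min (δ / (n * P + 1)) (η / 3 / (n * (‖u‖ + C * B) + 1)))
      (by positivity) (by positivity)
    have hz1' : ‖z.1 - x‖ * (n * P + 1) < δ := (lt_div_iff₀ hD').1 (hz1.trans_le (min_le_left _ _))
    have hz2' : ‖z.2 - ξ‖ * (n * (‖u‖ + C * B) + 1) < η / 3 :=
      (lt_div_iff₀ hD).1 (hz2.trans_le (min_le_right _ _))
    have hclose : ∀ a ∈ A', |φ (a ⬝ᵥ z.1) - φ (a ⬝ᵥ x)| < η / 3 := by
      intro a ha
      have ha' := hΘ.1 a (hA'Θ a ha)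
      refine hδ' _ (abs_le.1 (h1 a ha).1) _ (abs_le.1 (hK.abs_le hx ha')) ?_
      rw [Real.dist_eq, ← dotProduct_sub]
      refine (ineq_dot_le _ _).trans_lt (lt_of_le_of_lt ?_ hz1')
      have h5 : (n : ℝ) * ‖a‖ ≤ n * P + 1 := by
        have := mul_le_mul_of_nonneg_left (hP' a ha') (Nat.cast_nonneg (α := ℝ) n)
        linarith
      rw [mul_comm]
      exact mul_le_mul_of_nonneg_left h5 (norm_nonneg _)
    have hy : ‖y‖ ≤ C * B := hC' B hB y fun a ha =>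
      (h1 a (hA' ha)).2.trans (hφB _ (h1 a (hA' ha)).1)
    refine ⟨y, fun a ha => ?_, ?_⟩
    · have h5 := (abs_lt.1 (hclose a (hA' ha))).2
      have h6 := (h1 a (hA' ha)).2
      linarith
    · have h5 : z.2 ⬝ᵥ u ≤ ∑ a ∈ A', |β a| * (φ (a ⬝ᵥ z.1) + (η / 3 - α)) := by
        rw [h2, sum_dotProduct]
        refine Finset.sum_le_sum fun a ha => ?_
        rw [smul_dotProduct, smul_eq_mul]
        refine (le_abs_self _).trans ?_
        rw [abs_mul]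
        refine mul_le_mul_of_nonneg_left ?_ (abs_nonneg _)
        have h6 := (abs_lt.1 (hclose a ha)).1
        have h7 := hu a (hA'Θ a ha)
        linarith
      simp only [mul_add, Finset.sum_add_distrib, ← Finset.sum_mul] at h5
      have h6 := mul_le_of_le_one_left (by linarith : 0 ≤ η / 3 - α) h3
      have h7 : |(z.2 - ξ) ⬝ᵥ (u - y)| ≤ η / 3 := by
        refine (ineq_dot_le _ _).trans (le_trans ?_ hz2'.le)
        have h8 : ‖u - y‖ ≤ ‖u‖ + C * B := (norm_sub_le _ _).trans (by linarith)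
        have h9 := mul_le_mul_of_nonneg_left h8
          (by positivity : 0 ≤ (n : ℝ) * ‖z.2 - ξ‖)
        have h10 := norm_nonneg (z.2 - ξ)
        linarith
      rw [sub_dotProduct, dotProduct_sub, dotProduct_sub] at h7
      have h8 := (abs_le.1 h7).1
      linarith
  let t : ℕ → Set (Fin n → ℝ) := fun m =>
    {y | (∀ a ∈ A₁, |a ⬝ᵥ y| ≤ φ (a ⬝ᵥ x) + 1 / (m + 1)) ∧ α + ξ ⬝ᵥ u ≤ ξ ⬝ᵥ y + 1 / (m + 1)}
  have htc : ∀ m, IsClosed (t m) := by
    intro m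
    have h1 : IsClosed {y : Fin n → ℝ | ∀ a ∈ A₁, |a ⬝ᵥ y| ≤ φ (a ⬝ᵥ x) + 1 / (m + 1)} := by
      simp only [ofPred_forall]
      exact isClosed_biInter fun a _ => ineq_closed _ _
    have h2 : IsClosed {y : Fin n → ℝ | α + ξ ⬝ᵥ u ≤ ξ ⬝ᵥ y + 1 / (m + 1)} :=
      isClosed_le continuous_const (by fun_prop)
    exact h1.inter h2
  obtain ⟨y, hy⟩ := IsCompact.nonempty_iInter_of_sequence_nonempty_isCompact_isClosed t
    (fun m y hy => by
      have h1 : (1 : ℝ) / ((m + 1 : ℕ) + 1) ≤ 1 / (m + 1) :=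
        Nat.one_div_le_one_div (Nat.le_succ m)
      exact ⟨fun a ha => (hy.1 a ha).trans (by linarith), hy.2.trans (by linarith)⟩)
    (fun m => claim _ Nat.one_div_pos_of_nat)
    (Metric.isCompact_of_isClosed_isBounded (htc 0)
      ((Metric.isBounded_closedBall (x := 0) (r := C * (B + 1))).subset fun y hy =>
        mem_closedBall_zero_iff.2 (hC' _ (by positivity) y fun a ha => by
          have h1 := hy.1 a ha
          have h2 := hφB _ (hK.abs_le hx (hΘ.1 a (hA₁Θ a ha)))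
          norm_num at h1
          linarith))) htc
  rw [mem_iInter] at hy
  refine ⟨y, fun a ha => le_of_forall_pos_le_add fun ε hε => ?_,
    le_of_forall_pos_le_add fun ε hε => ?_⟩
  · obtain ⟨m, hm⟩ := exists_nat_one_div_lt hε
    exact ((hy m).1 a (hA₁ ha)).trans (by linarith)
  · obtain ⟨m, hm⟩ := exists_nat_one_div_lt hε
    exact (hy m).2.trans (by linarith)

end Vale.Agent.P248
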