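import Vale.Agent.P248.Lens
import Vale.Agent.P248.Core
import Vale.Agent.P248.Ineq
import Vale.Agent.P248.Far
import Vale.Agent.P248.Comb3
import Vale.Agent.P248.Hanner

open MeasureTheory Filter Topology Set
open scoped Real ComplexConjugate Pointwise

namespace Vale.Agent.P248

theorem mahler_ineq {n : ℕ} (hn : 1 ≤ n) {K : Set (Fin n → ℝ)} (hK : Body K) :
    4 ^ n / n.factorial ≤ vp K := by
  obtain ⟨φ, Φ, hL⟩ := exists_lens
  exact mahler_of_core (core hL hn) hK

theorem factor_le {k l : ℕ} {x y : ℝ} (hx : 4 ^ k / k.factorial ≤ x) (hy : 4 ^ l / l.factorial ≤ y)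
    (h : (k.factorial * l.factorial / (k + l).factorial : ℝ) * (x * y) ≤
      4 ^ (k + l) / (k + l).factorial) :
    x ≤ 4 ^ k / k.factorial ∧ y ≤ 4 ^ l / l.factorial := by
  have hk : (0 : ℝ) < k.factorial := by positivity
  have hl : (0 : ℝ) < l.factorial := by positivity
  have hkl : (0 : ℝ) < (k + l).factorial := by positivity
  have hX : (0 : ℝ) < 4 ^ k / k.factorial := by positivity
  have hY : (0 : ℝ) < 4 ^ l / l.factorial := by positivity
  have h' : x * y ≤ (4 ^ k / k.factorial) * (4 ^ l / l.factorial) := by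
    have e : (4 : ℝ) ^ (k + l) / (k + l).factorial =
        (k.factorial * l.factorial / (k + l).factorial : ℝ) *
          ((4 ^ k / k.factorial) * (4 ^ l / l.factorial)) := by
      rw [pow_add]; field_simp
    rw [e] at h
    exact le_of_mul_le_mul_left h (by positivity)
  constructor
  · by_contra hc
    push Not at hc
    nlinarith [mul_le_mul_of_nonneg_left hy (hX.le.trans hx), mul_lt_mul_of_pos_right hc hY]
  · by_contra hc
    push Not at hc
    nlinarith [mul_le_mul_of_nonneg_right hx (hY.le.trans hy), mul_lt_mul_of_pos_left hc hX]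

theorem eq_case (n : ℕ) : 1 ≤ n → ∀ K : Set (Fin n → ℝ), Body K →
    vp K ≤ 4 ^ n / n.factorial → HannerImage K := by
  induction n using Nat.strong_induction_on with
  | _ n ih =>
  intro hn K hK h
  rcases hn.eq_or_lt with h1 | h2
  · subst h1; exact hannerImage_one hK
  have step : ∀ W : Finset (Fin n → ℝ), Body (polar (W : Set (Fin n → ℝ))) → Decomp W →
      vp (polar (W : Set (Fin n → ℝ))) ≤ 4 ^ n / n.factorial →
      HannerImage (polar (W : Set (Fin n → ℝ))) := by
    intro W hB hD hv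
    obtain ⟨k, l, hk, hl, hkl, A, B, hA, hB', T, hT⟩ := decomp_prod hB hD
    subst hkl
    rw [hT, vp_image, vp_prodSet hA hB'] at hv
    obtain ⟨h3, h4⟩ := factor_le (mahler_ineq hk hA) (mahler_ineq hl hB') hv
    rw [hT]
    exact ((ih k (by omega) hk A hA h3).prod_image (ih l (by omega) hl B hB' h4)).image T
  obtain ⟨φ, Φ, hL⟩ := exists_lens
  have hc := core hL hn
  have h' : vp (polar K) ≤ 4 ^ n / n.factorial := by rw [hK.vp_polar]; exact h
  obtain ⟨V, W, h3, h4, hV, hW⟩ := exists_pair hL.prof hn hK (estar_of_core hL.prof hc hK h)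
    (estar_of_core hL.prof hc hK.polar_body h')
  rcases comb h2 h3 h4 with hD | hD
  · have := step W (hW ▸ hK.polar_body) hD (hW ▸ h')
    rw [← hW] at this
    rw [← hK.bipolar]
    exact this.polar_image
  · have := step V (hV ▸ hK) hD (hV ▸ h)
    rwa [← hV] at this

theorem mahler_main (n : ℕ) (hn : 1 ≤ n) (K : Set (Fin n → ℝ)) (hc : IsCompact K)
    (hv : Convex ℝ K) (hi : (interior K).Nonempty) (hs : ∀ x ∈ K, -x ∈ K) :
    (4 : ℝ) ^ n / n.factorial ≤ (volume K).toReal * (volume (polar K)).toReal ∧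
    ((volume K).toReal * (volume (polar K)).toReal = (4 : ℝ) ^ n / n.factorial ↔
      ∃ H : Set (Fin n → ℝ), IsHanner n H ∧
        ∃ T : (Fin n → ℝ) ≃ₗ[ℝ] (Fin n → ℝ), K = T '' H) := by
  have hK : Body K := ⟨hc, hv, hi, hs⟩
  exact ⟨mahler_ineq hn hK, fun h => eq_case n hn K hK h.le, fun h => HannerImage.vp_eq h⟩

end Vale.Agent.P248
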