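import Vale.Agent.P248.Defs

/-!
Shared definitions for the proof of the symmetric Mahler conjecture (interfaces between the parts).
DO NOT EDIT (owner helper74).
-/

open MeasureTheory Filter Topology Set
open scoped Real ComplexConjugate

namespace Vale.Agent.P248

/-- origin symmetric convex body -/
structure Body {n : ℕ} (K : Set (Fin n → ℝ)) : Prop where
  compact : IsCompact K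
  convex : Convex ℝ K
  inter : (interior K).Nonempty
  symm : ∀ x ∈ K, -x ∈ K

/-- volume product -/
noncomputable def vp {n : ℕ} (K : Set (Fin n → ℝ)) : ℝ :=
  volume.real K * volume.real (polar K)

/-- invertible linear image of a Hanner polytope -/
def HannerImage {n : ℕ} (K : Set (Fin n → ℝ)) : Prop :=
  ∃ H : Set (Fin n → ℝ), IsHanner n H ∧ ∃ T : (Fin n → ℝ) ≃ₗ[ℝ] (Fin n → ℝ), K = T '' H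

/-- `Θ ⊆ K°` cuts out `K` -/
def Norming {n : ℕ} (K Θ : Set (Fin n → ℝ)) : Prop :=
  (∀ θ ∈ Θ, θ ∈ polar K) ∧ ∀ x, (∀ θ ∈ Θ, |θ ⬝ᵥ x| ≤ 1) → x ∈ K

/-! ### the planar lens domain -/

/-- the domain `{s + i t : |s| < 1, |t| < φ s}` -/
def dom (φ : ℝ → ℝ) : Set ℂ := {ζ | |ζ.re| < 1 ∧ |ζ.im| < φ ζ.re}

/-- properties of the boundary function -/
structure Prof (φ : ℝ → ℝ) : Prop where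
  cont : Continuous φ
  even : ∀ s, φ (-s) = φ s
  one : φ 1 = 0
  pos : ∀ s, |s| < 1 → 0 < φ s
  sqrt : Tendsto (fun τ => φ (1 - τ) / √τ) (𝓝[>] 0) (𝓝 0)
  ratio : ∀ δ, 0 ≤ δ → Tendsto (fun τ => φ (1 - τ * δ) / φ (1 - τ)) (𝓝[>] 0) (𝓝 δ)

/-- the key estimate on the vertical primitive of `|(Φ^p)'|²` -/
def EstProp (φ : ℝ → ℝ) (Φ : ℂ → ℂ) : Prop :=
  ∀ ε : ℝ, 0 < ε → ∃ p₀ : ℕ, ∀ p : ℕ, p₀ ≤ p → ∃ b : ℝ → ℝ → ℝ, ∀ s : ℝ, |s| < 1 →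
    b s 0 = 0 ∧ StrictMonoOn (b s) {t | |t| < φ s} ∧ ∀ t : ℝ, |t| < φ s →
      HasDerivAt (b s) (‖deriv (fun z => Φ z ^ p) ((s : ℂ) + (t : ℂ) * Complex.I)‖ ^ 2) t ∧
      |b s t| ≤ π / 4 * p * ((1 + ε) * ‖Φ ((s : ℂ) + (t : ℂ) * Complex.I) ^ p‖ ^ 2 + ε)

/-- everything the analytic part needs about the conformal map `Φ : dom φ → 𝔻` -/
structure Lens (φ : ℝ → ℝ) (Φ : ℂ → ℂ) : Prop where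
  prof : Prof φ
  holo : DifferentiableOn ℂ Φ (dom φ)
  zero : Φ 0 = 0
  lt_one : ∀ ζ ∈ dom φ, ‖Φ ζ‖ < 1
  proper : ∀ r : ℝ, r < 1 → IsCompact {ζ | ζ ∈ dom φ ∧ ‖Φ ζ‖ ≤ r}
  bdry : ∀ ε : ℝ, 0 < ε → ∃ δ : ℝ, 0 < δ ∧ ∀ ζ ∈ dom φ, 1 - δ ≤ ‖Φ ζ‖ → φ ζ.re - ε ≤ |ζ.im|
  est : EstProp φ Φ

theorem isOpen_dom {φ : ℝ → ℝ} (h : Continuous φ) : IsOpen (dom φ) := by
  have h1 : IsOpen {ζ : ℂ | |ζ.re| < 1} := isOpen_lt (by fun_prop) continuous_const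
  have h2 : IsOpen {ζ : ℂ | |ζ.im| < φ ζ.re} := isOpen_lt (by fun_prop) (by fun_prop)
  exact h1.inter h2

theorem Prof.nonneg {φ : ℝ → ℝ} (h : Prof φ) {s : ℝ} (hs : |s| ≤ 1) : 0 ≤ φ s := by
  rcases hs.lt_or_eq with h1 | h1
  · exact (h.pos s h1).le
  · rcases abs_eq (by norm_num : (0 : ℝ) ≤ 1) |>.1 h1 with h2 | h2
    · rw [h2, h.one]
    · rw [h2, h.even, h.one]

/-! ### the explicit conformal map -/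

noncomputable def kap : ℝ := 8 / π ^ 2

noncomputable def Psi (w : ℂ) : ℂ :=
  (kap : ℂ) * ∑' k : ℕ, w ^ (2 * k + 1) / (2 * (k : ℂ) + 1) ^ 2

noncomputable def dPsi (w : ℂ) : ℂ :=
  (kap : ℂ) * ∑' k : ℕ, w ^ (2 * k) / (2 * (k : ℂ) + 1)

noncomputable def Aw (w : ℂ) : ℂ := 1 / 2 * Complex.log ((1 + w) / (1 - w))

noncomputable def Tf (θ : ℝ) : ℝ :=
  kap * ∑' k : ℕ, Real.sin ((2 * (k : ℝ) + 1) * θ) / (2 * (k : ℝ) + 1) ^ 2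

noncomputable def phi (s : ℝ) : ℝ := Tf (π * (1 - s) / 2)

/-- `Φ` is the inverse of `Psi : 𝔻 → dom phi` -/
structure IsInv (Φ : ℂ → ℂ) : Prop where
  lt_one : ∀ ζ ∈ dom phi, ‖Φ ζ‖ < 1
  right : ∀ ζ ∈ dom phi, Psi (Φ ζ) = ζ
  hasDeriv : ∀ ζ ∈ dom phi, HasDerivAt Φ (dPsi (Φ ζ))⁻¹ ζ
  map_conj : ∀ ζ ∈ dom phi, Φ (conj ζ) = conj (Φ ζ)
  im_nonneg : ∀ ζ ∈ dom phi, 0 ≤ ζ.im → 0 ≤ (Φ ζ).im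

/-! ### matrices -/

/-- the complexified linear form -/
noncomputable def zeta {n : ℕ} (a : Fin n → ℝ) (z : (Fin n → ℝ) × (Fin n → ℝ)) : ℂ :=
  ((a ⬝ᵥ z.1 : ℝ) : ℂ) + ((a ⬝ᵥ z.2 : ℝ) : ℂ) * Complex.I

noncomputable def Hm {n : ℕ} {ι : Type} [Fintype ι] (G : ι → ℂ) (a : ι → Fin n → ℝ) :
    Matrix (Fin n) (Fin n) ℝ :=
  Matrix.of fun j k => ∑ l, ‖G l‖ ^ 2 * (a l j * a l k)

noncomputable def eta {n : ℕ} {ι : Type} [Fintype ι] (F G : ι → ℂ) (a : ι → Fin n → ℝ) :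
    Fin n → ℂ :=
  fun k => ∑ l, F l * conj (G l) * (a l k : ℂ)

/-- `α H + β (conj η) ηᵀ` -/
noncomputable def Mm {n : ℕ} {ι : Type} [Fintype ι] (α β : ℝ) (F G : ι → ℂ)
    (a : ι → Fin n → ℝ) : Matrix (Fin n) (Fin n) ℂ :=
  Matrix.of fun j k => (α : ℂ) * (Hm G a j k : ℝ) + (β : ℂ) * (conj (eta F G a j) * eta F G a k)

/-! ### the core set and its consequences -/

def coreSet {n : ℕ} (φ : ℝ → ℝ) (A : Finset (Fin n → ℝ)) (ε : ℝ) :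
    Set ((Fin n → ℝ) × (Fin n → ℝ)) :=
  {z | ∃ (y : Fin n → ℝ) (β : (Fin n → ℝ) → ℝ),
    (∀ a ∈ A, |a ⬝ᵥ z.1| ≤ 1 ∧ |a ⬝ᵥ y| ≤ φ (a ⬝ᵥ z.1)) ∧ z.2 = ∑ a ∈ A, β a • a ∧
    ∑ a ∈ A, |β a| ≤ 1 ∧ ∑ a ∈ A, |β a| * φ (a ⬝ᵥ z.1) ≤ z.2 ⬝ᵥ y + ε}

/-- the main analytic estimate -/
def CoreProp (φ : ℝ → ℝ) (n : ℕ) : Prop :=
  ∀ A : Finset (Fin n → ℝ), (∀ x : Fin n → ℝ, (∀ a ∈ A, a ⬝ᵥ x = 0) → x = 0) →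
    ∀ ε : ℝ, 0 < ε → ENNReal.ofReal (4 ^ n / n.factorial) ≤ volume (coreSet φ A ε)

/-- what equality in the Mahler inequality gives -/
def EStar {n : ℕ} (φ : ℝ → ℝ) (K : Set (Fin n → ℝ)) : Prop :=
  ∀ Θ : Set (Fin n → ℝ), Norming K Θ → ∀ x ∈ K, ∀ ξ ∈ polar K, ∀ (α : ℝ) (u : Fin n → ℝ),
    α ≤ 0 → (∀ θ ∈ Θ, α + |θ ⬝ᵥ u| ≤ φ (θ ⬝ᵥ x)) →
    ∀ A : Finset (Fin n → ℝ), (∀ a ∈ A, a ∈ Θ) →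
      ∃ y : Fin n → ℝ, (∀ a ∈ A, |a ⬝ᵥ y| ≤ φ (a ⬝ᵥ x)) ∧ α + ξ ⬝ᵥ u ≤ ξ ⬝ᵥ y

/-- the tangent-cone interpolation property -/
def MProp {n : ℕ} (V W : Finset (Fin n → ℝ)) : Prop :=
  ∀ v ∈ W, ∀ d u ξ : Fin n → ℝ, (∀ θ ∈ V, θ ⬝ᵥ v = 1 → 0 ≤ θ ⬝ᵥ d) →
    (∀ θ ∈ V, θ ⬝ᵥ v = 1 → |θ ⬝ᵥ u| ≤ θ ⬝ᵥ d + 1) → (∀ w ∈ W, ξ ⬝ᵥ w ≤ 1) →
    ∃ y : Fin n → ℝ, (∀ θ ∈ V, θ ⬝ᵥ v = 1 → |θ ⬝ᵥ y| ≤ θ ⬝ᵥ d) ∧ ξ ⬝ᵥ u - 1 ≤ ξ ⬝ᵥ y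

/-- one half of the structure of a dual pair of polytopes `conv V`, `conv W` -/
structure Half {n : ℕ} (V W : Finset (Fin n → ℝ)) : Prop where
  neg : ∀ θ ∈ V, -θ ∈ V
  pm : ∀ θ ∈ V, ∀ w ∈ W, θ ⬝ᵥ w = 1 ∨ θ ⬝ᵥ w = -1
  hull : ∀ ξ : Fin n → ℝ, (∀ w ∈ W, ξ ⬝ᵥ w ≤ 1) → ξ ∈ convexHull ℝ (V : Set (Fin n → ℝ))
  sep : ∀ ξ : Fin n → ℝ, (∀ w ∈ W, ξ ⬝ᵥ w = 0) → ξ = 0
  mprop : MProp V W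

/-- `polar W` splits as a product -/
def Decomp {n : ℕ} (W : Finset (Fin n → ℝ)) : Prop :=
  ∃ X₁ X₂ : Submodule ℝ (Fin n → ℝ), IsCompl X₁ X₂ ∧ X₁ ≠ ⊥ ∧ X₂ ≠ ⊥ ∧
    ∀ w ∈ W, (∀ x ∈ X₁, x ⬝ᵥ w = 0) ∨ (∀ x ∈ X₂, x ⬝ᵥ w = 0)

/-! ### projections and atoms (combinatorial part); vectors are viewed as functions on
`W₀ = {w ∈ W | θ ⬝ᵥ w = 1}` -/

/-- `e` takes only the values `0, 1` on `W₀` -/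
def Pr {n : ℕ} (W : Finset (Fin n → ℝ)) (θ e : Fin n → ℝ) : Prop :=
  ∀ w ∈ W, θ ⬝ᵥ w = 1 → e ⬝ᵥ w = 0 ∨ e ⬝ᵥ w = 1

/-- the support of `e` on `W₀` lies in `{f = 1}` -/
def Sub {n : ℕ} (W : Finset (Fin n → ℝ)) (θ e f : Fin n → ℝ) : Prop :=
  ∀ w ∈ W, θ ⬝ᵥ w = 1 → e ⬝ᵥ w = 1 → f ⬝ᵥ w = 1

/-- the sets `{e = 1}` and `{f = 1}` meet in `W₀` -/
def Meet {n : ℕ} (W : Finset (Fin n → ℝ)) (θ e f : Fin n → ℝ) : Prop :=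
  ∃ w ∈ W, θ ⬝ᵥ w = 1 ∧ e ⬝ᵥ w = 1 ∧ f ⬝ᵥ w = 1

/-- minimal nonzero projection -/
def Atom {n : ℕ} (W : Finset (Fin n → ℝ)) (θ a : Fin n → ℝ) : Prop :=
  Pr W θ a ∧ a ≠ 0 ∧ ∀ e, Pr W θ e → Sub W θ e a → e = 0 ∨ e = a

end Vale.Agent.P248
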