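import Vale.Agent.P248.Basic

/-!
TASK P248-Asym.  The boundary function phi s = Tf (π (1-s)/2), Tf θ = κ Σ sin((2k+1)θ)/(2k+1)².
Hints. Continuity: continuous_tsum. Evenness: sin((2k+1)(π-θ)) = sin((2k+1)θ). phi (1-τ) = Tf(πτ/2).
Asymptotics: put S(θ) = Σ sin((2k+1)θ)/(2k+1)², for 0 < θ ≤ 1 let N = ⌊1/θ⌋₊ ≥ 1 and
H(θ) = Σ_{k<N} 1/(2k+1).  For fixed lam ≥ 0:
 |Σ_{k<N} sin((2k+1) lam θ)/(2k+1)² - lam θ H| ≤ Σ_{k<N} (2k+1) lam³ θ³/6 = N² lam³ θ³/6 ≤ lam³ θ/6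
 (x - x³/6 ≤ sin x ≤ x for x ≥ 0), and the tail is ≤ Σ_{k≥N} 1/(2k+1)² ≤ 1/(2N) ≤ θ.
So |S(lam θ) - lam θ H(θ)| ≤ C θ.  H(θ) → ∞ as θ → 0+ (harmonic series), hence
S(lam θ)/S(θ) → lam;  H(θ) ≤ 1 + log N ≤ 1 + log(1/θ), hence S(θ)/√θ → 0.
-/

open MeasureTheory Filter Topology Set
open scoped Real ComplexConjugate

namespace Vale.Agent.P248

noncomputable def asymS (x : ℝ) : ℝ :=
  ∑' k : ℕ, Real.sin ((2 * (k : ℝ) + 1) * x) / (2 * (k : ℝ) + 1) ^ 2

noncomputable def asymH (N : ℕ) : ℝ := ∑ k ∈ Finset.range N, 1 / (2 * (k : ℝ) + 1)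

theorem asym_norm_le (k : ℕ) (x : ℝ) :
    ‖Real.sin ((2 * (k : ℝ) + 1) * x) / (2 * (k : ℝ) + 1) ^ 2‖ ≤ 1 / (2 * (k : ℝ) + 1) ^ 2 := by
  rw [Real.norm_eq_abs, abs_div, abs_of_pos (by positivity : (0 : ℝ) < (2 * (k : ℝ) + 1) ^ 2)]
  gcongr
  exact Real.abs_sin_le_one _

theorem asym_tail_range (N : ℕ) (hN : 1 ≤ N) (M : ℕ) :
    ∑ k ∈ Finset.range M, 1 / (2 * ((k + N : ℕ) : ℝ) + 1) ^ 2 ≤
      1 / (4 * (N : ℝ)) - 1 / (4 * ((M + N : ℕ) : ℝ)) := by
  induction M with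
  | zero => simp
  | succ M ih =>
    rw [Finset.sum_range_succ]
    have h0 : (1 : ℝ) ≤ ((M + N : ℕ) : ℝ) := by exact_mod_cast (by omega : 1 ≤ M + N)
    have h1 : ((M + 1 + N : ℕ) : ℝ) = ((M + N : ℕ) : ℝ) + 1 := by push_cast; ring
    rw [h1]
    generalize ((M + N : ℕ) : ℝ) = y at h0 ih ⊢
    have h2 : 1 / (2 * y + 1) ^ 2 ≤ 1 / (4 * y) - 1 / (4 * (y + 1)) := by
      rw [div_sub_div _ _ (by positivity) (by positivity),
        div_le_div_iff₀ (by positivity) (by positivity)]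
      nlinarith
    linarith

theorem asym_tail_le (N : ℕ) (hN : 1 ≤ N) (M : ℕ) :
    ∑ k ∈ Finset.range M, 1 / (2 * ((k + N : ℕ) : ℝ) + 1) ^ 2 ≤ 1 / (4 * (N : ℝ)) :=
  (asym_tail_range N hN M).trans (sub_le_self _ (by positivity))

theorem asym_summable : Summable fun k : ℕ => 1 / (2 * (k : ℝ) + 1) ^ 2 :=
  (summable_nat_add_iff 1).1
    (summable_of_sum_range_le (fun _ => by positivity) (asym_tail_le 1 le_rfl))

theorem asym_approx {x : ℝ} (hx : 0 ≤ x) {N : ℕ} (hN : 1 ≤ N) :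
    |asymS x - x * asymH N| ≤ N ^ 2 * x ^ 3 / 6 + 1 / (4 * (N : ℝ)) := by
  have hs : Summable fun k : ℕ => Real.sin ((2 * (k : ℝ) + 1) * x) / (2 * (k : ℝ) + 1) ^ 2 :=
    asym_summable.of_norm_bounded fun k => asym_norm_le k x
  have h1 := tsum_of_norm_bounded ((summable_nat_add_iff N).2 asym_summable).hasSum
    fun k => asym_norm_le (k + N) x
  have h2 := h1.trans (Real.tsum_le_of_sum_range_le (fun _ => by positivity) (asym_tail_le N hN))
  have h3 : ∀ M : ℕ, |∑ k ∈ Finset.range M, Real.sin ((2 * (k : ℝ) + 1) * x) /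
      (2 * (k : ℝ) + 1) ^ 2 - x * asymH M| ≤ M ^ 2 * x ^ 3 / 6 := by
    intro M
    induction M with
    | zero => simp [asymH]
    | succ M ih =>
      have hM : (0 : ℝ) < 2 * (M : ℝ) + 1 := by positivity
      have h4 := Real.sin_le (mul_nonneg hM.le hx)
      have h5 := Real.sin_ge_sub_cube (mul_nonneg hM.le hx)
      have h6 : |Real.sin ((2 * (M : ℝ) + 1) * x) / (2 * (M : ℝ) + 1) ^ 2 -
          x * (1 / (2 * (M : ℝ) + 1))| ≤ (2 * (M : ℝ) + 1) * x ^ 3 / 6 := by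
        have h7 : Real.sin ((2 * (M : ℝ) + 1) * x) / (2 * (M : ℝ) + 1) ^ 2 -
            x * (1 / (2 * (M : ℝ) + 1)) =
            (Real.sin ((2 * (M : ℝ) + 1) * x) - (2 * (M : ℝ) + 1) * x) / (2 * (M : ℝ) + 1) ^ 2 := by
          field_simp
        rw [h7, abs_div, abs_of_pos (pow_pos hM 2), div_le_iff₀ (pow_pos hM 2), abs_sub_comm,
          abs_of_nonneg (sub_nonneg.2 h4)]
        calc _ ≤ ((2 * (M : ℝ) + 1) * x) ^ 3 / 6 := by linarith
          _ = _ := by ring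
      rw [asymH, Finset.sum_range_succ, Finset.sum_range_succ, ← asymH, mul_add, add_sub_add_comm]
      refine (abs_add_le _ _).trans ((add_le_add ih h6).trans (le_of_eq ?_))
      push_cast
      ring
  rw [asymS, ← hs.sum_add_tsum_nat_add N, add_sub_right_comm]
  exact (abs_add_le _ _).trans (add_le_add (h3 N) h2)

theorem asym_H_tendsto : Tendsto (fun θ : ℝ => asymH ⌊θ⁻¹⌋₊) (𝓝[>] 0) atTop := by
  refine Tendsto.comp (g := asymH) ?_ (tendsto_nat_floor_atTop.comp tendsto_inv_nhdsGT_zero)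
  refine tendsto_atTop_mono (fun N => ?_)
    (Real.tendsto_sum_range_one_div_nat_succ_atTop.atTop_div_const two_pos)
  rw [Finset.sum_div, asymH]
  refine Finset.sum_le_sum fun k _ => ?_
  rw [div_div]
  exact one_div_le_one_div_of_le (by positivity) (by linarith)

theorem asym_ratio {lam : ℝ} (hl : 0 ≤ lam) :
    Tendsto (fun θ : ℝ => asymS (lam * θ) / (θ * asymH ⌊θ⁻¹⌋₊)) (𝓝[>] 0) (𝓝 lam) := by
  rw [tendsto_iff_norm_sub_tendsto_zero]
  refine squeeze_zero' (Eventually.of_forall fun _ => norm_nonneg _) ?_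
    (asym_H_tendsto.const_div_atTop (lam ^ 3 / 6 + 1))
  filter_upwards [Ioc_mem_nhdsGT one_pos, asym_H_tendsto.eventually_gt_atTop 0] with θ hθ hH
  have h0 := hθ.1
  have h1 : (1 : ℝ) ≤ θ⁻¹ := (one_le_inv₀ h0).2 hθ.2
  have hN : 1 ≤ ⌊θ⁻¹⌋₊ := Nat.le_floor (by exact_mod_cast h1)
  have h2 := asym_approx (mul_nonneg hl h0.le) hN
  have h3 : (⌊θ⁻¹⌋₊ : ℝ) * θ ≤ 1 := by
    rw [← le_div_iff₀ h0, one_div]
    exact Nat.floor_le (by positivity)
  have h4 : 1 < ((⌊θ⁻¹⌋₊ : ℝ) + 1) * θ := by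
    rw [← div_lt_iff₀ h0, one_div]
    exact Nat.lt_floor_add_one _
  have hN' : (1 : ℝ) ≤ ⌊θ⁻¹⌋₊ := by exact_mod_cast hN
  generalize (⌊θ⁻¹⌋₊ : ℝ) = y at h2 h3 h4 hN'
  generalize asymH ⌊θ⁻¹⌋₊ = H at h2 hH
  have h5 : asymS (lam * θ) / (θ * H) - lam = (asymS (lam * θ) - lam * θ * H) / (θ * H) := by
    field_simp
  have h6 : 1 / (4 * y) ≤ θ := by
    rw [div_le_iff₀ (by positivity)]
    nlinarith
  have h7 : y ^ 2 * (lam * θ) ^ 3 / 6 ≤ lam ^ 3 / 6 * θ := by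
    calc _ = (y * θ) ^ 2 * (lam ^ 3 / 6 * θ) := by ring
      _ ≤ 1 ^ 2 * (lam ^ 3 / 6 * θ) := by gcongr
      _ = _ := by ring
  rw [Real.norm_eq_abs, h5, abs_div, abs_of_pos (mul_pos h0 hH), div_le_div_iff₀ (mul_pos h0 hH) hH,
    ← mul_assoc]
  gcongr
  linarith

theorem asym_sqrt : Tendsto (fun θ : ℝ => asymS θ / √θ) (𝓝[>] 0) (𝓝 0) := by
  have h1 : Tendsto (fun θ : ℝ => √θ * asymH ⌊θ⁻¹⌋₊) (𝓝[>] 0) (𝓝 0) := by
    have h2 : Tendsto (fun θ : ℝ => √θ) (𝓝[>] 0) (𝓝 0) := by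
      simpa using (Real.continuous_sqrt.tendsto 0).mono_left nhdsWithin_le_nhds
    have h3 := h2.sub (tendsto_log_mul_rpow_nhdsGT_zero (r := 1 / 2) (by norm_num))
    rw [sub_zero] at h3
    refine squeeze_zero' (Eventually.of_forall fun θ => mul_nonneg (Real.sqrt_nonneg _)
      (Finset.sum_nonneg fun _ _ => by positivity)) ?_ h3
    filter_upwards [Ioc_mem_nhdsGT one_pos] with θ hθ
    have h0 := hθ.1
    have h4 : (1 : ℝ) ≤ θ⁻¹ := (one_le_inv₀ h0).2 hθ.2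
    have hN : 1 ≤ ⌊θ⁻¹⌋₊ := Nat.le_floor (by exact_mod_cast h4)
    have h5 : asymH ⌊θ⁻¹⌋₊ ≤ 1 - Real.log θ := by
      refine le_trans ?_ ((harmonic_le_one_add_log ⌊θ⁻¹⌋₊).trans ?_)
      · rw [asymH, harmonic]
        push_cast
        refine Finset.sum_le_sum fun k _ => ?_
        rw [← one_div]
        exact one_div_le_one_div_of_le (by positivity) (by linarith [(k.cast_nonneg : (0 : ℝ) ≤ k)])
      · rw [sub_eq_add_neg, ← Real.log_inv]
        gcongr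
        exact Nat.floor_le (by positivity)
    rw [← Real.sqrt_eq_rpow]
    calc _ ≤ √θ * (1 - Real.log θ) := by gcongr
      _ = _ := by ring
  have h2 := (asym_ratio zero_le_one).mul h1
  rw [mul_zero] at h2
  refine h2.congr' ?_
  filter_upwards [self_mem_nhdsWithin, asym_H_tendsto.eventually_gt_atTop 0] with θ hθ hH
  have h0 : 0 < θ := hθ
  have h3 : 0 < √θ := Real.sqrt_pos.2 h0
  rw [one_mul]
  generalize asymH ⌊θ⁻¹⌋₊ = H at hH
  field_simp
  rw [Real.sq_sqrt h0.le]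

theorem asym_scale : Tendsto (fun τ : ℝ => π * τ / 2) (𝓝[>] 0) (𝓝[>] 0) := by
  refine tendsto_nhdsWithin_iff.2 ⟨?_, ?_⟩
  · have : Continuous fun τ : ℝ => π * τ / 2 := by fun_prop
    simpa using (this.tendsto 0).mono_left nhdsWithin_le_nhds
  · filter_upwards [self_mem_nhdsWithin] with τ hτ
    have h0 : 0 < τ := hτ
    exact (by positivity : 0 < π * τ / 2)

theorem asym_phi (s : ℝ) : phi s = kap * asymS (π * (1 - s) / 2) := rfl

theorem continuous_phi : Continuous phi := by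
  have h : Continuous asymS :=
    continuous_tsum (fun k => by fun_prop) asym_summable asym_norm_le
  simp only [funext asym_phi]
  fun_prop

theorem phi_even (s : ℝ) : phi (-s) = phi s := by
  rw [asym_phi, asym_phi, asymS, asymS]
  congr 1
  refine tsum_congr fun k => ?_
  have h1 : (2 * (k : ℝ) + 1) * (π * (1 - -s) / 2) =
      ((2 * k + 1 : ℕ) : ℝ) * π - (2 * (k : ℝ) + 1) * (π * (1 - s) / 2) := by
    push_cast
    ring
  rw [h1, Real.sin_nat_mul_pi_sub, pow_succ, pow_mul]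
  simp

theorem phi_one : phi 1 = 0 := by
  simp [asym_phi, asymS]

theorem phi_sqrt : Tendsto (fun τ => phi (1 - τ) / √τ) (𝓝[>] 0) (𝓝 0) := by
  have h := (asym_sqrt.comp asym_scale).const_mul (kap * √(π / 2))
  rw [mul_zero] at h
  refine h.congr fun τ => ?_
  have h1 : 0 < √(π / 2) := Real.sqrt_pos.2 (by positivity)
  rw [asym_phi, sub_sub_cancel, Function.comp_apply, show π * τ / 2 = π / 2 * τ by ring,
    Real.sqrt_mul (by positivity)]
  field_simp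

theorem phi_ratio (δ : ℝ) (hδ : 0 ≤ δ) :
    Tendsto (fun τ => phi (1 - τ * δ) / phi (1 - τ)) (𝓝[>] 0) (𝓝 δ) := by
  have h := ((asym_ratio hδ).div (asym_ratio zero_le_one) one_ne_zero).comp asym_scale
  rw [div_one] at h
  refine h.congr' ?_
  filter_upwards [self_mem_nhdsWithin,
    (asym_H_tendsto.comp asym_scale).eventually_gt_atTop 0] with τ hτ hH
  have h0 : 0 < τ := hτ
  rw [Function.comp_apply] at hH
  have h1 : kap ≠ 0 := by
    unfold kap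
    positivity
  rw [asym_phi, asym_phi, sub_sub_cancel, sub_sub_cancel, mul_div_mul_left _ _ h1,
    Function.comp_apply, Pi.div_apply, div_div_div_cancel_right₀ (mul_pos (by positivity) hH).ne',
    one_mul, show π * (τ * δ) / 2 = δ * (π * τ / 2) by ring]

end Vale.Agent.P248
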