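import Vale.Agent.P248.Basic

/-!
TASK P248-Bodies.  Standard facts on polars, linear images, products and l¹-sums of symmetric bodies.
Hints. polar_polar: geometric_hahn_banach_point_closed; every continuous linear functional on
Fin n → ℝ is a dot product (LinearMap.pi_apply_eq_sum_univ).  zero_mem_interior: midpoint of an interior
point x and -x (Convex.combo_interior_self_mem_interior or similar).
polar_image: S = (Tᵀ)⁻¹, via matrices: LinearMap.toMatrix', Matrix.dotProduct_mulVec, Matrix.toLin',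
LinearMap.det; volumes by MeasureTheory.Measure.addHaar_image_linearMap.
prodSet is the image of A ×ˢ B under the homeomorphism/linear equiv Fin.appendEquiv / Fin.appendHomeomorph /
Fin.append with Fin.sum_univ_add for dot products.  sumSet is compact: IsCompact.convexHull holds in finite
dimension? otherwise convexJoin / convexHull_union of two convex sets (Convex.convexHull_union /
mem_sumSet below) shows it is a continuous image of A × B × [0,1].
polar_prodSet follows from polar_sumSet and the bipolar theorem.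
-/

open MeasureTheory Filter Topology Set
open scoped Real ComplexConjugate Pointwise

namespace Vale.Agent.P248

variable {n k l : ℕ}

theorem polar_polar {C : Set (Fin n → ℝ)} (hc : IsClosed C) (hv : Convex ℝ C) (h0 : (0 : Fin n → ℝ) ∈ C) :
    polar (polar C) = C := by
  refine Subset.antisymm (fun x hx => ?_) fun x hx y hy => ?_
  · by_contra h
    obtain ⟨f, u, h1, h2⟩ := geometric_hahn_banach_point_closed hv hc h
    have hu : u < 0 := by simpa using h2 0 h0
    have e : ∀ b : Fin n → ℝ,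
        (fun i => f (fun j => if i = j then 1 else 0) / u) ⬝ᵥ b = f b / u := by
      intro b
      have := LinearMap.pi_apply_eq_sum_univ (f : (Fin n → ℝ) →ₗ[ℝ] ℝ) b
      simp only [ContinuousLinearMap.coe_coe, smul_eq_mul] at this
      rw [this, Finset.sum_div]
      exact Finset.sum_congr rfl fun i _ => by ring
    have h3 := hx (fun i => f (fun j => if i = j then 1 else 0) / u) fun b hb => by
      rw [e, div_le_one_of_neg hu]
      exact (h2 b hb).le
    rw [dotProduct_comm, e, div_le_one_of_neg hu] at h3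
    linarith
  · rw [dotProduct_comm]
    exact hy x hx

theorem bodies_convex_half (y : Fin n → ℝ) : Convex ℝ {x : Fin n → ℝ | y ⬝ᵥ x ≤ 1} := by
  intro a ha b hb s t hs ht hst
  simp only [mem_ofPred_eq, dotProduct_add, dotProduct_smul, smul_eq_mul] at ha hb ⊢
  nlinarith

theorem polar_convexHull (C : Set (Fin n → ℝ)) : polar (convexHull ℝ C) = polar C := by
  refine Subset.antisymm (fun y hy x hx => hy x (subset_convexHull ℝ C hx)) fun y hy x hx => ?_
  exact convexHull_min (t := {x | y ⬝ᵥ x ≤ 1}) hy (bodies_convex_half y) hx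

theorem Body.zero_mem_interior {K : Set (Fin n → ℝ)} (hK : Body K) :
    (0 : Fin n → ℝ) ∈ interior K := by
  obtain ⟨x, hx⟩ := hK.inter
  have := hK.convex.combo_interior_self_mem_interior hx (hK.symm x (interior_subset hx))
    (a := 1 / 2) (b := 1 / 2) (by norm_num) (by norm_num) (by norm_num)
  simpa using this

theorem Body.zero_mem {K : Set (Fin n → ℝ)} (hK : Body K) : (0 : Fin n → ℝ) ∈ K :=
  interior_subset hK.zero_mem_interior

theorem Body.abs_le {K : Set (Fin n → ℝ)} (hK : Body K) {x y : Fin n → ℝ} (hx : x ∈ K)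
    (hy : y ∈ polar K) : |y ⬝ᵥ x| ≤ 1 := by
  have h1 := hy x hx
  have h2 := hy (-x) (hK.symm x hx)
  rw [dotProduct_neg] at h2
  exact _root_.abs_le.2 ⟨by linarith, h1⟩

theorem Body.polar_body {K : Set (Fin n → ℝ)} (hK : Body K) : Body (polar K) := by
  have hcl : IsClosed (polar K) := by
    have : polar K = ⋂ x ∈ K, {y : Fin n → ℝ | y ⬝ᵥ x ≤ 1} := by
      ext y; simp [polar]
    rw [this]
    exact isClosed_biInter fun x _ => isClosed_le (by fun_prop) continuous_const
  refine ⟨?_, ?_, ?_, ?_⟩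
  · obtain ⟨r, hr, hb⟩ := Metric.mem_nhds_iff.1 (mem_interior_iff_mem_nhds.1 hK.zero_mem_interior)
    refine Metric.isCompact_of_isClosed_isBounded hcl ?_
    refine (Metric.isBounded_closedBall (x := (0 : Fin n → ℝ)) (r := 2 / r)).subset fun y hy => ?_
    rw [mem_closedBall_zero_iff, pi_norm_le_iff_of_nonneg (by positivity)]
    intro i
    have h1 : (Pi.single i (r / 2) : Fin n → ℝ) ∈ K := hb (by
      rw [mem_ball_zero_iff, Pi.norm_single, Real.norm_eq_abs, abs_of_pos (by positivity)]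
      linarith)
    have h2 := hK.abs_le h1 hy
    rw [dotProduct_single, abs_mul, abs_of_pos (by positivity : 0 < r / 2)] at h2
    rw [Real.norm_eq_abs, le_div_iff₀ hr]
    linarith
  · intro a ha b hb s t hs ht hst x hx
    have h1 := ha x hx
    have h2 := hb x hx
    simp only [add_dotProduct, smul_dotProduct, smul_eq_mul]
    nlinarith
  · obtain ⟨R, hR, hb⟩ := hK.compact.isBounded.exists_pos_norm_le
    refine ⟨0, mem_interior_iff_mem_nhds.2 (Metric.mem_nhds_iff.2
      ⟨1 / ((n + 1) * R), by positivity, fun y hy x hx => ?_⟩)⟩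
    rw [mem_ball_zero_iff, lt_div_iff₀ (by positivity)] at hy
    have h1 : y ⬝ᵥ x ≤ ∑ _i : Fin n, ‖y‖ * R := by
      refine Finset.sum_le_sum fun i _ => (le_abs_self _).trans ?_
      rw [abs_mul]
      exact mul_le_mul (norm_le_pi_norm y i) ((norm_le_pi_norm x i).trans (hb x hx))
        (abs_nonneg _) (norm_nonneg _)
    simp only [Finset.sum_const, Finset.card_univ, Fintype.card_fin, nsmul_eq_mul] at h1
    have h2 : 0 ≤ ‖y‖ * R := by positivity
    nlinarith
  · intro y hy x hx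
    have := hy (-x) (hK.symm x hx)
    rwa [dotProduct_neg, ← neg_dotProduct] at this

theorem Body.bipolar {K : Set (Fin n → ℝ)} (hK : Body K) : polar (polar K) = K :=
  polar_polar hK.compact.isClosed hK.convex hK.zero_mem

theorem Body.volume_pos {K : Set (Fin n → ℝ)} (hK : Body K) : 0 < volume.real K := by
  exact ENNReal.toReal_pos (Measure.measure_pos_of_nonempty_interior volume hK.inter).ne'
    hK.compact.measure_lt_top.ne

theorem Body.vp_polar {K : Set (Fin n → ℝ)} (hK : Body K) : vp (polar K) = vp K := by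
  unfold vp; rw [hK.bipolar, mul_comm]

theorem Body.image {K : Set (Fin n → ℝ)} (hK : Body K) (T : (Fin n → ℝ) ≃ₗ[ℝ] (Fin n → ℝ)) :
    Body (T '' K) := by
  refine ⟨hK.compact.image T.toContinuousLinearEquiv.continuous,
    hK.convex.linear_image (T : (Fin n → ℝ) →ₗ[ℝ] (Fin n → ℝ)), ?_, ?_⟩
  · have := T.toContinuousLinearEquiv.toHomeomorph.image_interior K
    have h2 : (interior (T.toContinuousLinearEquiv.toHomeomorph '' K)).Nonempty := by
      rw [← this]; exact hK.inter.image _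
    exact h2
  · rintro _ ⟨x, hx, rfl⟩
    exact ⟨-x, hK.symm x hx, map_neg T x⟩

theorem polar_image (T : (Fin n → ℝ) ≃ₗ[ℝ] (Fin n → ℝ)) :
    ∃ S : (Fin n → ℝ) ≃ₗ[ℝ] (Fin n → ℝ), (∀ K : Set (Fin n → ℝ), polar (T '' K) = S '' polar K) ∧
      LinearMap.det (S : (Fin n → ℝ) →ₗ[ℝ] (Fin n → ℝ)) *
        LinearMap.det (T : (Fin n → ℝ) →ₗ[ℝ] (Fin n → ℝ)) = 1 := by
  set M := LinearMap.toMatrix' (T : (Fin n → ℝ) →ₗ[ℝ] (Fin n → ℝ)) with hM
  set N := LinearMap.toMatrix' (T.symm : (Fin n → ℝ) →ₗ[ℝ] (Fin n → ℝ)) with hN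
  have h1 : M * N = 1 := by
    rw [hM, hN, ← LinearMap.toMatrix'_comp]; simp
  have h2 : N * M = 1 := by
    rw [hM, hN, ← LinearMap.toMatrix'_comp]; simp
  have h3 : M.transpose * N.transpose = 1 := by rw [← Matrix.transpose_mul, h2, Matrix.transpose_one]
  have h4 : N.transpose * M.transpose = 1 := by rw [← Matrix.transpose_mul, h1, Matrix.transpose_one]
  let S : (Fin n → ℝ) ≃ₗ[ℝ] (Fin n → ℝ) := Matrix.toLin'OfInv h3 h4
  have hS : ∀ y, S y = N.transpose.mulVec y := fun y => rfl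
  have key : ∀ y x, S y ⬝ᵥ T x = y ⬝ᵥ x := by
    intro y x
    have e : N.mulVec (T x) = x := by
      rw [hN, LinearMap.toMatrix'_mulVec]; simp
    rw [hS, Matrix.mulVec_transpose, ← Matrix.dotProduct_mulVec, e]
  refine ⟨S, fun K => ?_, ?_⟩
  · ext z
    constructor
    · intro hz
      refine ⟨S.symm z, fun x hx => ?_, S.apply_symm_apply z⟩
      rw [← key, S.apply_symm_apply]
      exact hz _ ⟨x, hx, rfl⟩
    · rintro ⟨y, hy, rfl⟩ _ ⟨x, hx, rfl⟩
      rw [key]
      exact hy x hx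
  · have e : (S : (Fin n → ℝ) →ₗ[ℝ] (Fin n → ℝ)) = Matrix.toLin' N.transpose := by
      ext y i; rfl
    rw [e, LinearMap.det_toLin', Matrix.det_transpose, hN, LinearMap.det_toMatrix']
    exact T.det_symm_mul_det

theorem vp_image (T : (Fin n → ℝ) ≃ₗ[ℝ] (Fin n → ℝ)) (K : Set (Fin n → ℝ)) :
    vp (T '' K) = vp K := by
  obtain ⟨S, h1, h2⟩ := polar_image T
  have e : ∀ (U : (Fin n → ℝ) ≃ₗ[ℝ] (Fin n → ℝ)) (A : Set (Fin n → ℝ)), volume.real (U '' A) =
      |LinearMap.det (U : (Fin n → ℝ) →ₗ[ℝ] (Fin n → ℝ))| * volume.real A := by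
    intro U A
    have := Measure.addHaar_image_linearMap volume (U : (Fin n → ℝ) →ₗ[ℝ] (Fin n → ℝ)) A
    simp only [LinearEquiv.coe_coe] at this
    simp only [Measure.real]
    rw [this, ENNReal.toReal_mul, ENNReal.toReal_ofReal (abs_nonneg _)]
  unfold vp
  rw [h1, e, e]
  have h3 := congrArg abs h2
  rw [abs_mul, abs_one] at h3
  linear_combination (volume.real K * volume.real (polar K)) * h3

theorem append_dotProduct (x x' : Fin k → ℝ) (y y' : Fin l → ℝ) :
    Fin.append x y ⬝ᵥ Fin.append x' y' = x ⬝ᵥ x' + y ⬝ᵥ y' := by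
  simp [dotProduct, Fin.sum_univ_add]

/-- `Fin.append` as a linear equivalence -/
def bodiesApp (k l : ℕ) : ((Fin k → ℝ) × (Fin l → ℝ)) ≃ₗ[ℝ] (Fin (k + l) → ℝ) where
  toFun p := Fin.append p.1 p.2
  map_add' p q := by
    funext i
    refine Fin.addCases (fun j => ?_) (fun j => ?_) i <;> simp
  map_smul' c p := by
    funext i
    refine Fin.addCases (fun j => ?_) (fun j => ?_) i <;> simp
  invFun z := (fun i => z (Fin.castAdd l i), fun i => z (Fin.natAdd k i))
  left_inv p := by simp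
  right_inv z := by
    funext i
    refine Fin.addCases (fun j => ?_) (fun j => ?_) i <;> simp

theorem bodies_prodSet (A : Set (Fin k → ℝ)) (B : Set (Fin l → ℝ)) :
    prodSet A B = bodiesApp k l '' (A ×ˢ B) := by
  ext z
  constructor
  · rintro ⟨x, hx, y, hy, rfl⟩; exact ⟨(x, y), ⟨hx, hy⟩, rfl⟩
  · rintro ⟨⟨x, y⟩, ⟨hx, hy⟩, rfl⟩; exact ⟨x, hx, y, hy, rfl⟩

theorem mem_sumSet {A : Set (Fin k → ℝ)} {B : Set (Fin l → ℝ)} (hA : Body A) (hB : Body B)
    (z : Fin (k + l) → ℝ) : z ∈ sumSet A B ↔ ∃ x ∈ A, ∃ y ∈ B, ∃ t : ℝ, 0 ≤ t ∧ t ≤ 1 ∧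
      z = Fin.append (t • x) ((1 - t) • y) := by
  have e1 : {z : Fin (k + l) → ℝ | ∃ x ∈ A, z = Fin.append x 0} =
      bodiesApp k l '' (A ×ˢ {0}) := by
    ext z
    constructor
    · rintro ⟨x, hx, rfl⟩; exact ⟨(x, 0), ⟨hx, rfl⟩, rfl⟩
    · rintro ⟨⟨x, y⟩, ⟨hx, hy⟩, rfl⟩
      obtain rfl : y = 0 := hy
      exact ⟨x, hx, rfl⟩
  have e2 : {z : Fin (k + l) → ℝ | ∃ y ∈ B, z = Fin.append 0 y} =
      bodiesApp k l '' ({0} ×ˢ B) := by
    ext z
    constructor
    · rintro ⟨y, hy, rfl⟩; exact ⟨(0, y), ⟨rfl, hy⟩, rfl⟩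
    · rintro ⟨⟨x, y⟩, ⟨hx, hy⟩, rfl⟩
      obtain rfl : x = 0 := hx
      exact ⟨y, hy, rfl⟩
  have c1 : Convex ℝ {z : Fin (k + l) → ℝ | ∃ x ∈ A, z = Fin.append x 0} := by
    rw [e1]
    exact (hA.convex.prod (convex_singleton 0)).linear_image (bodiesApp k l).toLinearMap
  have c2 : Convex ℝ {z : Fin (k + l) → ℝ | ∃ y ∈ B, z = Fin.append 0 y} := by
    rw [e2]
    exact ((convex_singleton 0).prod hB.convex).linear_image (bodiesApp k l).toLinearMap
  have e3 : ∀ (x : Fin k → ℝ) (y : Fin l → ℝ) (a b : ℝ),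
      a • Fin.append x 0 + b • Fin.append 0 y = Fin.append (a • x) (b • y) := by
    intro x y a b
    funext i
    refine Fin.addCases (fun j => ?_) (fun j => ?_) i <;> simp
  unfold sumSet
  rw [c1.convexHull_union c2 ⟨_, 0, hA.zero_mem, rfl⟩ ⟨_, 0, hB.zero_mem, rfl⟩, mem_convexJoin]
  constructor
  · rintro ⟨_, ⟨x, hx, rfl⟩, _, ⟨y, hy, rfl⟩, a, b, ha, hb, hab, rfl⟩
    refine ⟨x, hx, y, hy, a, ha, by linarith, ?_⟩
    rw [e3, show 1 - a = b by linarith]
  · rintro ⟨x, hx, y, hy, t, h0, h1, rfl⟩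
    exact ⟨_, ⟨x, hx, rfl⟩, _, ⟨y, hy, rfl⟩, t, 1 - t, h0, by linarith, by ring, e3 x y t (1 - t)⟩

theorem Body.prod_body {A : Set (Fin k → ℝ)} {B : Set (Fin l → ℝ)} (hA : Body A) (hB : Body B) :
    Body (prodSet A B) := by
  rw [bodies_prodSet]
  refine ⟨(hA.compact.prod hB.compact).image (bodiesApp k l).toContinuousLinearEquiv.continuous,
    (hA.convex.prod hB.convex).linear_image (bodiesApp k l).toLinearMap, ?_, ?_⟩
  · have := (bodiesApp k l).toContinuousLinearEquiv.toHomeomorph.image_interior (A ×ˢ B)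
    have h2 : (interior ((bodiesApp k l).toContinuousLinearEquiv.toHomeomorph ''
        (A ×ˢ B))).Nonempty := by
      rw [← this, interior_prod_eq]; exact (hA.inter.prod hB.inter).image _
    exact h2
  · rintro _ ⟨p, hp, rfl⟩
    exact ⟨-p, ⟨hA.symm _ hp.1, hB.symm _ hp.2⟩, map_neg (bodiesApp k l) p⟩

theorem bodies_polar_sumSet {A : Set (Fin k → ℝ)} {B : Set (Fin l → ℝ)} :
    polar (sumSet A B) = prodSet (polar A) (polar B) := by
  unfold sumSet
  rw [polar_convexHull]
  ext z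
  constructor
  · intro hz
    obtain ⟨⟨x, y⟩, rfl⟩ := (bodiesApp k l).surjective z
    refine ⟨x, fun a ha => ?_, y, fun b hb => ?_, rfl⟩
    · have : Fin.append x y ⬝ᵥ Fin.append a 0 ≤ 1 := hz _ (Or.inl ⟨a, ha, rfl⟩)
      simpa [append_dotProduct] using this
    · have : Fin.append x y ⬝ᵥ Fin.append 0 b ≤ 1 := hz _ (Or.inr ⟨b, hb, rfl⟩)
      simpa [append_dotProduct] using this
  · rintro ⟨x, hx, y, hy, rfl⟩ _ (⟨a, ha, rfl⟩ | ⟨b, hb, rfl⟩)
    · simpa [append_dotProduct] using hx a ha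
    · simpa [append_dotProduct] using hy b hb

theorem Body.sum_body {A : Set (Fin k → ℝ)} {B : Set (Fin l → ℝ)} (hA : Body A) (hB : Body B) :
    Body (sumSet A B) := by
  have hc : IsCompact (sumSet A B) := by
    have e : sumSet A B = (fun p : (Fin k → ℝ) × (Fin l → ℝ) × ℝ =>
        (bodiesApp k l).toContinuousLinearEquiv (p.2.2 • p.1, (1 - p.2.2) • p.2.1)) ''
          (A ×ˢ B ×ˢ Icc 0 1) := by
      ext z
      rw [mem_sumSet hA hB]
      constructor
      · rintro ⟨x, hx, y, hy, t, h0, h1, rfl⟩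
        exact ⟨(x, y, t), ⟨hx, hy, h0, h1⟩, rfl⟩
      · rintro ⟨⟨x, y, t⟩, ⟨hx, hy, h0, h1⟩, rfl⟩
        exact ⟨x, hx, y, hy, t, h0, h1, rfl⟩
    rw [e]
    exact (hA.compact.prod (hB.compact.prod isCompact_Icc)).image (by fun_prop)
  have h0 : (0 : Fin (k + l) → ℝ) ∈ sumSet A B :=
    (mem_sumSet hA hB 0).2 ⟨0, hA.zero_mem, 0, hB.zero_mem, 0, le_rfl, zero_le_one, by
      funext i
      refine Fin.addCases (fun j => ?_) (fun j => ?_) i <;> simp⟩
  rw [← polar_polar hc.isClosed (convex_convexHull ℝ _) h0, bodies_polar_sumSet]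
  exact (hA.polar_body.prod_body hB.polar_body).polar_body

theorem polar_sumSet {A : Set (Fin k → ℝ)} {B : Set (Fin l → ℝ)} :
    polar (sumSet A B) = prodSet (polar A) (polar B) := by
  exact bodies_polar_sumSet

theorem polar_prodSet {A : Set (Fin k → ℝ)} {B : Set (Fin l → ℝ)} (hA : Body A) (hB : Body B) :
    polar (prodSet A B) = sumSet (polar A) (polar B) := by
  rw [← (hA.polar_body.sum_body hB.polar_body).bipolar, polar_sumSet, hA.bipolar, hB.bipolar]

end Vale.Agent.P248
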