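import Vale.Agent.P248.Basic

/-!
TASK P248-Comb1.  Basics on projections and atoms.  h1 : Half V W, h2 : Half W V, θ ∈ V, W₀ = {w ∈ W | θ ⬝ᵥ w = 1};
W = W₀ ∪ -W₀ (h1.pm, h2.neg).  A vector e is the function w ↦ e ⬝ᵥ w on W₀.
* mem_of_pm: ξ = Σ λ_i θ_i (h1.hull, Finset.mem_convexHull / Finset.mem_convexHull'), choose i with λ_i > 0; for every w,
  since ξ ⬝ᵥ w = ±1 is extremal among convex combinations of values ±1, θ_i ⬝ᵥ w = ξ ⬝ᵥ w; h1.sep gives ξ = θ_i.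
* exists_atom, mem_span_atoms: strong induction on the card of {w ∈ W | θ w = 1, e w = 1}: if e ≠ 0 is not an atom there is
  Pr f, Sub f e, f ≠ 0, f ≠ e; then e - f is Pr, Sub (e-f) e, and both supports are smaller.  Every vector x is a multiple of an
  element of polar W ⊆ convexHull V, every η ∈ V is θ - 2e with e = (θ-η)/2 Pr, and θ is Pr.
* atom_mul: for M large g = M a + f is ≥ 0 on W₀, vanishes off supp a; for N large θ - (2/N) g ∈ polar W, so it is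
  Σ λ_i (θ - 2 e_i), g = N Σ λ_i e_i with Pr e_i; for λ_i > 0, Sub e_i a, so e_i ∈ {0, a}; hence g ∈ span {a}.
* hprime: V_v = {η ∈ V | η ⬝ᵥ v = 1}.  h_i = Σ_{w ∈ W, w = 1 on E_i} (v - w)/2; on V_v, γ ⬝ᵥ h_i = number of such w with γ ⬝ᵥ w = -1
  (a sum of 0/1 terms); h_i vanishes on E_i.  If the second alternative fails then γ ⬝ᵥ (h₀+h₁) ≥ 1 on V_v.  Put d = h₀+h₁-v,
  u = h₀-h₁, g_i = Σ_{η ∈ E_i} η / card E_i, N = max(1, max_{w∈W} (g₁-g₀) ⬝ᵥ w), ξ = (g₁-g₀)/N.  u = d+1 on E₁, u = -(d+1) on E₀.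
  h1.mprop gives y, |y| ≤ d on V_v, ξ ⬝ᵥ u - 1 ≤ ξ ⬝ᵥ y.  With D = g₁ ⬝ᵥ d + g₀ ⬝ᵥ d: (D+2)/N - 1 ≤ D/N so N ≥ 2, so some w has
  (g₁-g₀) ⬝ᵥ w ≥ 2, forcing w = 1 on E₁ and -1 on E₀.
* lemmaI: hprime with v = w₀, E₀ = {θ-2p₁, θ-2p₂}, E₁ = {θ-2q₁, θ-2q₂} (pr_iff); γ' = (θ-γ)/2; use both w and -w.
* lemmaV: lemmaI with (q₁,q₂) = (q,0).
* decomp_of: X_i = span S_i; X₁ ⊓ X₂ = ⊥ by h1.sep.
-/

open Set

namespace Vale.Agent.P248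

variable {n : ℕ} {V W : Finset (Fin n → ℝ)} {θ : Fin n → ℝ}

theorem comb1_face (h1 : Half V W) {ξ w y : Fin n → ℝ} {l : (Fin n → ℝ) → ℝ}
    (hl0 : ∀ y ∈ V, 0 ≤ l y) (hl1 : ∑ y ∈ V, l y = 1) (hl : ∑ y ∈ V, l y • y = ξ) (hw : w ∈ W)
    (h : ξ ⬝ᵥ w = 1 ∨ ξ ⬝ᵥ w = -1) (hy : y ∈ V) (hly : l y ≠ 0) : y ⬝ᵥ w = ξ ⬝ᵥ w := by
  have h2 : ∑ z ∈ V, l z * (1 - ξ ⬝ᵥ w * z ⬝ᵥ w) = 0 := by
    have h3 : ∑ z ∈ V, l z * z ⬝ᵥ w = ξ ⬝ᵥ w := by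
      rw [← hl, sum_dotProduct]
      simp only [smul_dotProduct, smul_eq_mul]
    have h4 : ∑ z ∈ V, l z * (1 - ξ ⬝ᵥ w * z ⬝ᵥ w) =
        ∑ z ∈ V, l z - ξ ⬝ᵥ w * ∑ z ∈ V, l z * z ⬝ᵥ w := by
      rw [Finset.mul_sum, ← Finset.sum_sub_distrib]
      exact Finset.sum_congr rfl fun z _ => by ring
    rw [h4, h3, hl1]
    rcases h with h | h <;> rw [h] <;> norm_num
  have h5 := (Finset.sum_eq_zero_iff_of_nonneg fun z hz => mul_nonneg (hl0 z hz) (by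
    rcases h with h | h <;> rcases h1.pm z hz w hw with h' | h' <;> rw [h, h'] <;>
      norm_num)).1 h2 y hy
  have h6 := (mul_eq_zero.1 h5).resolve_left hly
  rcases h with h | h <;> rw [h] at h6 ⊢ <;> linarith

theorem Half.mem_of_pm (h1 : Half V W) {ξ : Fin n → ℝ}
    (h : ∀ w ∈ W, ξ ⬝ᵥ w = 1 ∨ ξ ⬝ᵥ w = -1) : ξ ∈ V := by
  obtain ⟨l, hl0, hl1, hl⟩ := Finset.mem_convexHull'.1
    (h1.hull ξ fun w hw => by rcases h w hw with h | h <;> rw [h] <;> norm_num)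
  obtain ⟨y, hy, hly⟩ : ∃ y ∈ V, l y ≠ 0 := by
    by_contra hc
    push Not at hc
    rw [Finset.sum_eq_zero hc] at hl1
    exact zero_ne_one hl1
  have : ξ - y = 0 := h1.sep _ fun w hw => by
    rw [sub_dotProduct, comb1_face h1 hl0 hl1 hl hw (h w hw) hy hly, sub_self]
  rwa [sub_eq_zero.1 this]

theorem Half.nonempty (h1 : Half V W) : V.Nonempty := by
  have := h1.hull 0 fun w _ => by simp
  exact Finset.coe_nonempty.1 (convexHull_nonempty_iff.1 ⟨_, this⟩)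

theorem ext0 (h1 : Half V W) (h2 : Half W V) (hθ : θ ∈ V) {e f : Fin n → ℝ}
    (h : ∀ w ∈ W, θ ⬝ᵥ w = 1 → e ⬝ᵥ w = f ⬝ᵥ w) : e = f := by
  refine sub_eq_zero.1 (h1.sep _ fun w hw => ?_)
  rw [sub_dotProduct, sub_eq_zero]
  rcases h1.pm θ hθ w hw with h3 | h3
  · exact h w hw h3
  · have := h (-w) (h2.neg w hw) (by rw [dotProduct_neg, h3, neg_neg])
    rwa [dotProduct_neg, dotProduct_neg, neg_inj] at this

theorem exists_one (h1 : Half V W) (h2 : Half W V) (hθ : θ ∈ V) {e : Fin n → ℝ}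
    (he : Pr W θ e) (h0 : e ≠ 0) : ∃ w ∈ W, θ ⬝ᵥ w = 1 ∧ e ⬝ᵥ w = 1 := by
  by_contra hc
  push Not at hc
  exact h0 (ext0 h1 h2 hθ fun w hw h => by
    rw [zero_dotProduct]
    exact (he w hw h).resolve_right (hc w hw h))

theorem pr_iff (h1 : Half V W) (h2 : Half W V) (hθ : θ ∈ V) (e : Fin n → ℝ) :
    Pr W θ e ↔ θ - (2 : ℝ) • e ∈ V := by
  constructor
  · intro he
    refine h1.mem_of_pm fun w hw => ?_
    rw [sub_dotProduct, smul_dotProduct, smul_eq_mul]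
    rcases h1.pm θ hθ w hw with h3 | h3
    · rcases he w hw h3 with h | h <;> rw [h3, h] <;> norm_num
    · have := he (-w) (h2.neg w hw) (by rw [dotProduct_neg, h3, neg_neg])
      rw [dotProduct_neg] at this
      rcases this with h | h
      · right; linarith
      · left; linarith
  · intro h w hw h3
    have := h1.pm _ h w hw
    rw [sub_dotProduct, smul_dotProduct, smul_eq_mul, h3] at this
    rcases this with h | h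
    · left; linarith
    · right; linarith

theorem pr_half (h1 : Half V W) {η : Fin n → ℝ} (hη : η ∈ V) :
    Pr W θ ((1 / 2 : ℝ) • (θ - η)) := by
  intro w hw h3
  rw [smul_dotProduct, sub_dotProduct, smul_eq_mul, h3]
  rcases h1.pm η hη w hw with h | h <;> rw [h] <;> norm_num

/-- the support of a projection -/
noncomputable def comb1_supp (W : Finset (Fin n → ℝ)) (θ e : Fin n → ℝ) : Finset (Fin n → ℝ) :=
  W.filter fun w => θ ⬝ᵥ w = 1 ∧ e ⬝ᵥ w = 1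

theorem comb1_lt {e f w : Fin n → ℝ} (h : Sub W θ f e) (hw : w ∈ W) (h1 : θ ⬝ᵥ w = 1)
    (h2 : e ⬝ᵥ w = 1) (h3 : f ⬝ᵥ w ≠ 1) : (comb1_supp W θ f).card < (comb1_supp W θ e).card := by
  refine Finset.card_lt_card ⟨fun x hx => ?_, fun hc => h3 ?_⟩
  · rw [comb1_supp, Finset.mem_filter] at hx ⊢
    exact ⟨hx.1, hx.2.1, h x hx.1 hx.2.1 hx.2.2⟩
  · exact (Finset.mem_filter.1 (hc (Finset.mem_filter.2 ⟨hw, h1, h2⟩))).2.2

theorem comb1_split (h1 : Half V W) (h2 : Half W V) (hθ : θ ∈ V) {e : Fin n → ℝ}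
    (he : Pr W θ e) (h0 : e ≠ 0) (ha : ¬ Atom W θ e) :
    ∃ f g, Pr W θ f ∧ Pr W θ g ∧ e = f + g ∧ Sub W θ f e ∧ Sub W θ g e ∧
      (comb1_supp W θ f).card < (comb1_supp W θ e).card ∧
      (comb1_supp W θ g).card < (comb1_supp W θ e).card := by
  simp only [Atom, not_and, not_forall, not_or] at ha
  obtain ⟨f, hf, sf, f0, fe⟩ := ha he h0
  have hg : Pr W θ (e - f) := fun w hw h => by
    rw [sub_dotProduct]
    rcases hf w hw h with h3 | h3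
    · rw [h3, sub_zero]; exact he w hw h
    · rw [h3, sf w hw h h3, sub_self]; exact Or.inl rfl
  have sg : Sub W θ (e - f) e := fun w hw h h3 => by
    rw [sub_dotProduct] at h3
    rcases he w hw h with h4 | h4
    · rcases hf w hw h with h5 | h5 <;> linarith
    · exact h4
  refine ⟨f, e - f, hf, hg, by abel, sf, sg, ?_, ?_⟩
  · obtain ⟨w, hw, h3, h4⟩ := exists_one h1 h2 hθ hg (sub_ne_zero.2 (Ne.symm fe))
    have h5 := sg w hw h3 h4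
    refine comb1_lt sf hw h3 h5 fun h6 => ?_
    rw [sub_dotProduct] at h4
    linarith
  · obtain ⟨w, hw, h3, h4⟩ := exists_one h1 h2 hθ hf f0
    have h5 := sf w hw h3 h4
    refine comb1_lt sg hw h3 h5 fun h6 => ?_
    rw [sub_dotProduct] at h6
    linarith

theorem exists_atom (h1 : Half V W) (h2 : Half W V) (hθ : θ ∈ V) {e w : Fin n → ℝ}
    (he : Pr W θ e) (hw : w ∈ W) (hθw : θ ⬝ᵥ w = 1) (hew : e ⬝ᵥ w = 1) :
    ∃ a, Atom W θ a ∧ Sub W θ a e ∧ a ⬝ᵥ w = 1 := by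
  classical
  induction h : (comb1_supp W θ e).card using Nat.strong_induction_on generalizing e with
  | _ k ih =>
    by_cases ha : Atom W θ e
    · exact ⟨e, ha, fun _ _ _ h => h, hew⟩
    · have h0 : e ≠ 0 := by
        rintro rfl
        simp at hew
      obtain ⟨f, g, hf, hg, hfg, sf, sg, cf, cg⟩ := comb1_split h1 h2 hθ he h0 ha
      rcases hf w hw hθw with h3 | h3
      · obtain ⟨a, a1, a2, a3⟩ := ih _ (h ▸ cg) hg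
          (by rw [hfg, add_dotProduct, h3, zero_add] at hew; exact hew) rfl
        exact ⟨a, a1, fun w hw h1 h2 => sg w hw h1 (a2 w hw h1 h2), a3⟩
      · obtain ⟨a, a1, a2, a3⟩ := ih _ (h ▸ cf) hf h3 rfl
        exact ⟨a, a1, fun w hw h1 h2 => sf w hw h1 (a2 w hw h1 h2), a3⟩

theorem span_V (h1 : Half V W) : Submodule.span ℝ (V : Set (Fin n → ℝ)) = ⊤ := by
  refine top_le_iff.1 fun x _ => ?_
  have hs : 0 ≤ ∑ w ∈ W, |x ⬝ᵥ w| := Finset.sum_nonneg fun _ _ => abs_nonneg _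
  have hc : 0 < 1 + ∑ w ∈ W, |x ⬝ᵥ w| := by linarith
  have h := h1.hull ((1 + ∑ w ∈ W, |x ⬝ᵥ w|)⁻¹ • x) fun w hw => by
    rw [smul_dotProduct, smul_eq_mul, inv_mul_le_iff₀ hc]
    have := Finset.single_le_sum (f := fun w => |x ⬝ᵥ w|) (fun _ _ => abs_nonneg _) hw
    linarith [le_abs_self (x ⬝ᵥ w)]
  have h' := convexHull_min Submodule.subset_span (Submodule.span ℝ _).convex h
  exact (Submodule.smul_mem_iff _ (inv_ne_zero hc.ne')).1 h'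

theorem comb1_mem_span (h1 : Half V W) (h2 : Half W V) (hθ : θ ∈ V) {e : Fin n → ℝ}
    (he : Pr W θ e) : e ∈ Submodule.span ℝ {a | Atom W θ a} := by
  induction h : (comb1_supp W θ e).card using Nat.strong_induction_on generalizing e with
  | _ k ih =>
    by_cases ha : Atom W θ e
    · exact Submodule.subset_span ha
    · by_cases h0 : e = 0
      · rw [h0]; exact zero_mem _
      · obtain ⟨f, g, hf, hg, hfg, -, -, cf, cg⟩ := comb1_split h1 h2 hθ he h0 ha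
        rw [hfg]
        exact add_mem (ih _ (h ▸ cf) hf rfl) (ih _ (h ▸ cg) hg rfl)

theorem span_atoms (h1 : Half V W) (h2 : Half W V) (hθ : θ ∈ V) :
    Submodule.span ℝ {a | Atom W θ a} = ⊤ := by
  refine top_le_iff.1 ?_
  rw [← span_V h1, Submodule.span_le]
  intro η hη
  have e : η = θ - (2 : ℝ) • ((1 / 2 : ℝ) • (θ - η)) := by
    rw [smul_smul]; norm_num
  rw [e]
  exact sub_mem (comb1_mem_span h1 h2 hθ fun w _ h => Or.inr h)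
    (Submodule.smul_mem _ _ (comb1_mem_span h1 h2 hθ (pr_half h1 hη)))

theorem finite_atoms (h1 : Half V W) (h2 : Half W V) (hθ : θ ∈ V) :
    {a | Atom W θ a}.Finite := by
  refine (V.finite_toSet.image fun η => (1 / 2 : ℝ) • (θ - η)).subset fun a ha => ?_
  refine ⟨_, (pr_iff h1 h2 hθ a).1 ha.1, ?_⟩
  simp only [sub_sub_cancel, smul_smul]
  norm_num

theorem atom_mul (h1 : Half V W) (h2 : Half W V) (hθ : θ ∈ V) {a f : Fin n → ℝ}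
    (ha : Atom W θ a) (hf : ∀ w ∈ W, θ ⬝ᵥ w = 1 → a ⬝ᵥ w = 0 → f ⬝ᵥ w = 0) :
    ∃ c : ℝ, f = c • a := by
  set M := ∑ w ∈ W, |f ⬝ᵥ w| with hM
  have hM0 : 0 ≤ M := Finset.sum_nonneg fun _ _ => abs_nonneg _
  have hb : ∀ w ∈ W, |f ⬝ᵥ w| ≤ M := fun w hw =>
    Finset.single_le_sum (f := fun w => |f ⬝ᵥ w|) (fun _ _ => abs_nonneg _) hw
  have hN : 0 < 2 * M + 1 := by linarith
  have hg : ∀ w ∈ W, θ ⬝ᵥ w = 1 → 0 ≤ (M • a + f) ⬝ᵥ w ∧ (M • a + f) ⬝ᵥ w ≤ 2 * M + 1 := by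
    intro w hw h
    rw [add_dotProduct, smul_dotProduct, smul_eq_mul]
    rcases ha.1 w hw h with h3 | h3
    · rw [h3, hf w hw h h3]
      constructor <;> linarith
    · rw [h3]
      have := abs_le.1 (hb w hw)
      constructor <;> linarith
  obtain ⟨l, hl0, hl1, hl⟩ := Finset.mem_convexHull'.1
    (h1.hull (θ - (2 / (2 * M + 1)) • (M • a + f)) fun w hw => by
      rw [sub_dotProduct, smul_dotProduct, smul_eq_mul]
      rcases h1.pm θ hθ w hw with h3 | h3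
      · have := mul_nonneg (div_pos two_pos hN).le (hg w hw h3).1
        linarith
      · have h4 := (hg (-w) (h2.neg w hw) (by rw [dotProduct_neg, h3, neg_neg])).2
        rw [dotProduct_neg] at h4
        have h5 := mul_le_mul_of_nonneg_left h4 (div_pos two_pos hN).le
        rw [div_mul_cancel₀ _ hN.ne'] at h5
        linarith)
  have h6 : ∑ y ∈ V, l y • (θ - y) ∈ Submodule.span ℝ {a} := by
    refine Submodule.sum_mem _ fun y hy => ?_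
    by_cases hly : l y = 0
    · rw [hly, zero_smul]; exact zero_mem _
    refine Submodule.smul_mem _ _ ?_
    have hs : Sub W θ ((1 / 2 : ℝ) • (θ - y)) a := fun w hw h h3 => by
      refine (ha.1 w hw h).resolve_left fun h4 => ?_
      have h5 : (θ - (2 / (2 * M + 1)) • (M • a + f)) ⬝ᵥ w = 1 := by
        rw [sub_dotProduct, smul_dotProduct, add_dotProduct, smul_dotProduct, h4, hf w hw h h4, h]
        simp
      have h7 := comb1_face h1 hl0 hl1 hl hw (Or.inl h5) hy hly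
      rw [smul_dotProduct, sub_dotProduct, h7, h5, h] at h3
      simp at h3
    refine (Submodule.smul_mem_iff _ (by norm_num : (1 / 2 : ℝ) ≠ 0)).1 ?_
    rcases ha.2.2 _ (pr_half h1 hy) hs with h | h <;> rw [h]
    · exact zero_mem _
    · exact Submodule.mem_span_singleton_self a
  simp only [smul_sub, Finset.sum_sub_distrib, ← Finset.sum_smul, hl1, hl, one_smul,
    sub_sub_cancel] at h6
  have h7 := (Submodule.smul_mem_iff _ (div_pos two_pos hN).ne').1 h6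
  have h8 : f ∈ Submodule.span ℝ {a} :=
    (add_mem_cancel_left (Submodule.smul_mem _ _ (Submodule.mem_span_singleton_self a))).1 h7
  obtain ⟨c, hc⟩ := Submodule.mem_span_singleton.1 h8
  exact ⟨c, hc.symm⟩

/-- barycenter of a finite set -/
noncomputable def comb1_avg (E : Finset (Fin n → ℝ)) : Fin n → ℝ := (E.card : ℝ)⁻¹ • ∑ η ∈ E, η

theorem comb1_avg_le {E : Finset (Fin n → ℝ)} (hE : E.Nonempty) {x : Fin n → ℝ} {c : ℝ}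
    (h : ∀ η ∈ E, η ⬝ᵥ x ≤ c) : comb1_avg E ⬝ᵥ x ≤ c := by
  have hc : (0 : ℝ) < E.card := by exact_mod_cast hE.card_pos
  rw [comb1_avg, smul_dotProduct, sum_dotProduct, smul_eq_mul, inv_mul_le_iff₀ hc]
  simpa using Finset.sum_le_sum h

theorem comb1_avg_lt {E : Finset (Fin n → ℝ)} {x η : Fin n → ℝ} {c : ℝ}
    (h : ∀ η ∈ E, η ⬝ᵥ x ≤ c) (hη : η ∈ E) (h' : η ⬝ᵥ x < c) : comb1_avg E ⬝ᵥ x < c := by
  have hc : (0 : ℝ) < E.card := by exact_mod_cast Finset.card_pos.2 ⟨η, hη⟩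
  rw [comb1_avg, smul_dotProduct, sum_dotProduct, smul_eq_mul, inv_mul_lt_iff₀ hc]
  simpa using Finset.sum_lt_sum h ⟨η, hη, h'⟩

theorem hprime (h1 : Half V W) {v : Fin n → ℝ} (hv : v ∈ W) (E₀ E₁ : Finset (Fin n → ℝ))
    (hn₀ : E₀.Nonempty) (hn₁ : E₁.Nonempty) (hE₀ : ∀ η ∈ E₀, η ∈ V ∧ η ⬝ᵥ v = 1)
    (hE₁ : ∀ η ∈ E₁, η ∈ V ∧ η ⬝ᵥ v = 1) :
    (∃ w ∈ W, (∀ η ∈ E₁, η ⬝ᵥ w = 1) ∧ ∀ η ∈ E₀, η ⬝ᵥ w = -1) ∨
    ∃ γ ∈ V, γ ⬝ᵥ v = 1 ∧ (∀ w ∈ W, (∀ η ∈ E₀, η ⬝ᵥ w = 1) → γ ⬝ᵥ w = 1) ∧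
      ∀ w ∈ W, (∀ η ∈ E₁, η ⬝ᵥ w = 1) → γ ⬝ᵥ w = 1 := by
  classical
  by_contra hc
  rw [not_or] at hc
  obtain ⟨hA, hB⟩ := hc
  let hh : Finset (Fin n → ℝ) → Fin n → ℝ := fun E =>
    ∑ w ∈ W.filter (fun w => ∀ η ∈ E, η ⬝ᵥ w = 1), (1 / 2 : ℝ) • (v - w)
  have hdot : ∀ E γ, γ ⬝ᵥ v = 1 → γ ⬝ᵥ hh E =
      ∑ w ∈ W.filter (fun w => ∀ η ∈ E, η ⬝ᵥ w = 1), (1 / 2 : ℝ) * (1 - γ ⬝ᵥ w) := by
    intro E γ h
    simp only [hh, dotProduct_sum, dotProduct_smul, dotProduct_sub, smul_eq_mul, h]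
  have hterm : ∀ γ ∈ V, ∀ w ∈ W, 0 ≤ (1 / 2 : ℝ) * (1 - γ ⬝ᵥ w) := fun γ hγ w hw => by
    rcases h1.pm γ hγ w hw with h | h <;> rw [h] <;> norm_num
  have hnn : ∀ E, ∀ γ ∈ V, γ ⬝ᵥ v = 1 → 0 ≤ γ ⬝ᵥ hh E := fun E γ hγ h => by
    rw [hdot E γ h]
    exact Finset.sum_nonneg fun w hw => hterm γ hγ w (Finset.mem_filter.1 hw).1
  have hz : ∀ E, ∀ η ∈ E, η ⬝ᵥ v = 1 → η ⬝ᵥ hh E = 0 := fun E η hη h => by
    rw [hdot E η h]
    exact Finset.sum_eq_zero fun w hw => by rw [(Finset.mem_filter.1 hw).2 η hη]; norm_num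
  have hone : ∀ E, ∀ γ ∈ V, γ ⬝ᵥ v = 1 →
      ¬ (∀ w ∈ W, (∀ η ∈ E, η ⬝ᵥ w = 1) → γ ⬝ᵥ w = 1) → 1 ≤ γ ⬝ᵥ hh E := fun E γ hγ h hn => by
    push Not at hn
    obtain ⟨w, hw, h3, h4⟩ := hn
    rw [hdot E γ h]
    refine le_trans ?_ (Finset.single_le_sum (f := fun w => (1 / 2 : ℝ) * (1 - γ ⬝ᵥ w))
      (fun w hw => hterm γ hγ w (Finset.mem_filter.1 hw).1) (Finset.mem_filter.2 ⟨hw, h3⟩))
    rw [(h1.pm γ hγ w hw).resolve_left h4]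
    norm_num
  have hsum : ∀ γ ∈ V, γ ⬝ᵥ v = 1 → 1 ≤ γ ⬝ᵥ hh E₀ + γ ⬝ᵥ hh E₁ := fun γ hγ h => by
    by_cases h3 : ∀ w ∈ W, (∀ η ∈ E₀, η ⬝ᵥ w = 1) → γ ⬝ᵥ w = 1
    · have := hone E₁ γ hγ h fun h4 => hB ⟨γ, hγ, h, h3, h4⟩
      linarith [hnn E₀ γ hγ h]
    · linarith [hone E₀ γ hγ h h3, hnn E₁ γ hγ h]
  obtain ⟨w₀, hw₀, hmax⟩ := W.exists_max_image
    (fun w => (comb1_avg E₁ - comb1_avg E₀) ⬝ᵥ w) ⟨v, hv⟩
  have hlt : (comb1_avg E₁ - comb1_avg E₀) ⬝ᵥ w₀ < 2 := by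
    have a1 : ∀ η ∈ E₁, η ⬝ᵥ w₀ ≤ 1 := fun η hη => by
      rcases h1.pm η (hE₁ η hη).1 w₀ hw₀ with h | h <;> rw [h] <;> norm_num
    have a0 : ∀ η ∈ E₀, η ⬝ᵥ (-w₀) ≤ 1 := fun η hη => by
      rw [dotProduct_neg]
      rcases h1.pm η (hE₀ η hη).1 w₀ hw₀ with h | h <;> rw [h] <;> norm_num
    have b1 := comb1_avg_le hn₁ a1
    have b0 := comb1_avg_le hn₀ a0
    rw [sub_dotProduct]
    rw [dotProduct_neg] at b0
    by_cases h3 : ∀ η ∈ E₁, η ⬝ᵥ w₀ = 1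
    · have h4 : ¬ ∀ η ∈ E₀, η ⬝ᵥ w₀ = -1 := fun h4 => hA ⟨w₀, hw₀, h3, h4⟩
      push Not at h4
      obtain ⟨η, hη, h5⟩ := h4
      have := comb1_avg_lt a0 hη (by
        rw [dotProduct_neg, (h1.pm η (hE₀ η hη).1 w₀ hw₀).resolve_right h5]; norm_num)
      rw [dotProduct_neg] at this
      linarith
    · push Not at h3
      obtain ⟨η, hη, h5⟩ := h3
      have := comb1_avg_lt a1 hη (by
        rw [(h1.pm η (hE₁ η hη).1 w₀ hw₀).resolve_left h5]; norm_num)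
      linarith
  set N := max 1 ((comb1_avg E₁ - comb1_avg E₀) ⬝ᵥ w₀) with hN
  have hN1 : 1 ≤ N := le_max_left _ _
  have hN0 : 0 < N := by linarith
  have hN2 : N < 2 := max_lt (by norm_num) hlt
  obtain ⟨y, hy1, hy2⟩ := h1.mprop v hv (hh E₀ + hh E₁ - v) (hh E₀ - hh E₁)
    (N⁻¹ • (comb1_avg E₁ - comb1_avg E₀))
    (fun γ hγ h => by
      rw [dotProduct_sub, dotProduct_add, h]
      linarith [hsum γ hγ h])
    (fun γ hγ h => by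
      rw [dotProduct_sub, dotProduct_sub, dotProduct_add, h, abs_le]
      constructor <;> linarith [hnn E₀ γ hγ h, hnn E₁ γ hγ h])
    (fun w hw => by
      rw [smul_dotProduct, smul_eq_mul, inv_mul_le_iff₀ hN0, mul_one]
      exact (hmax w hw).trans (le_max_right _ _))
  have c1 : comb1_avg E₁ ⬝ᵥ (y - (hh E₀ - hh E₁)) ≤ -1 := comb1_avg_le hn₁ fun η hη => by
    have h3 := (abs_le.1 (hy1 η (hE₁ η hη).1 (hE₁ η hη).2)).2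
    rw [dotProduct_sub, dotProduct_add, (hE₁ η hη).2] at h3
    rw [dotProduct_sub, dotProduct_sub]
    linarith [hz E₁ η hη (hE₁ η hη).2]
  have c0 : comb1_avg E₀ ⬝ᵥ ((hh E₀ - hh E₁) - y) ≤ -1 := comb1_avg_le hn₀ fun η hη => by
    have h3 := (abs_le.1 (hy1 η (hE₀ η hη).1 (hE₀ η hη).2)).1
    rw [dotProduct_sub, dotProduct_add, (hE₀ η hη).2] at h3
    rw [dotProduct_sub, dotProduct_sub]
    linarith [hz E₀ η hη (hE₀ η hη).2]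
  rw [dotProduct_sub] at c0 c1
  rw [smul_dotProduct, smul_dotProduct, smul_eq_mul, smul_eq_mul, sub_dotProduct, sub_dotProduct,
    sub_le_iff_le_add, inv_mul_le_iff₀ hN0, mul_add, mul_inv_cancel_left₀ hN0.ne'] at hy2
  linarith

theorem lemmaI (h1 : Half V W) (h2 : Half W V) (hθ : θ ∈ V) {p₁ p₂ q₁ q₂ w₀ : Fin n → ℝ}
    (hp₁ : Pr W θ p₁) (hp₂ : Pr W θ p₂) (hq₁ : Pr W θ q₁) (hq₂ : Pr W θ q₂)
    (hw : w₀ ∈ W) (hθw : θ ⬝ᵥ w₀ = 1) (z₁ : p₁ ⬝ᵥ w₀ = 0) (z₂ : p₂ ⬝ᵥ w₀ = 0)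
    (z₃ : q₁ ⬝ᵥ w₀ = 0) (z₄ : q₂ ⬝ᵥ w₀ = 0)
    (hno₁ : ∀ w ∈ W, θ ⬝ᵥ w = 1 → p₁ ⬝ᵥ w = 1 → p₂ ⬝ᵥ w = 1 → q₁ ⬝ᵥ w = 0 → q₂ ⬝ᵥ w = 0 → False)
    (hno₂ : ∀ w ∈ W, θ ⬝ᵥ w = 1 → p₁ ⬝ᵥ w = 0 → p₂ ⬝ᵥ w = 0 → q₁ ⬝ᵥ w = 1 → q₂ ⬝ᵥ w = 1 → False) :
    ∃ γ, Pr W θ γ ∧ (∀ w ∈ W, θ ⬝ᵥ w = 1 → p₁ ⬝ᵥ w = p₂ ⬝ᵥ w → γ ⬝ᵥ w = p₁ ⬝ᵥ w) ∧
      ∀ w ∈ W, θ ⬝ᵥ w = 1 → q₁ ⬝ᵥ w = q₂ ⬝ᵥ w → γ ⬝ᵥ w = q₁ ⬝ᵥ w := by
  classical
  have key : ∀ (p w : Fin n → ℝ), (θ - (2 : ℝ) • p) ⬝ᵥ w = θ ⬝ᵥ w - 2 * p ⬝ᵥ w := fun p w => by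
    rw [sub_dotProduct, smul_dotProduct, smul_eq_mul]
  have hE : ∀ {r₁ r₂ : Fin n → ℝ}, Pr W θ r₁ → Pr W θ r₂ → r₁ ⬝ᵥ w₀ = 0 → r₂ ⬝ᵥ w₀ = 0 →
      ∀ η ∈ ({θ - (2 : ℝ) • r₁, θ - (2 : ℝ) • r₂} : Finset (Fin n → ℝ)),
        η ∈ V ∧ η ⬝ᵥ w₀ = 1 := by
    intro r₁ r₂ a1 a2 b1 b2 η hη
    simp only [Finset.mem_insert, Finset.mem_singleton] at hη
    rcases hη with rfl | rfl
    · exact ⟨(pr_iff h1 h2 hθ _).1 a1, by rw [key, hθw, b1]; norm_num⟩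
    · exact ⟨(pr_iff h1 h2 hθ _).1 a2, by rw [key, hθw, b2]; norm_num⟩
  rcases hprime h1 hw {θ - (2 : ℝ) • p₁, θ - (2 : ℝ) • p₂} {θ - (2 : ℝ) • q₁, θ - (2 : ℝ) • q₂}
    (Finset.insert_nonempty _ _) (Finset.insert_nonempty _ _) (hE hp₁ hp₂ z₁ z₂)
    (hE hq₁ hq₂ z₃ z₄) with ⟨w, hw', a1, a0⟩ | ⟨γ, hγ, -, a0, a1⟩
  · simp only [Finset.mem_insert, Finset.mem_singleton, forall_eq_or_imp, forall_eq, key] at a0 a1
    exfalso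
    rcases h1.pm θ hθ w hw' with h | h
    · exact hno₁ w hw' h (by linarith) (by linarith) (by linarith) (by linarith)
    · refine hno₂ (-w) (h2.neg w hw') ?_ ?_ ?_ ?_ ?_ <;> rw [dotProduct_neg] <;> linarith
  · have hfin : ∀ {r₁ r₂ : Fin n → ℝ}, Pr W θ r₁ →
        (∀ w ∈ W, (∀ η ∈ ({θ - (2 : ℝ) • r₁, θ - (2 : ℝ) • r₂} : Finset (Fin n → ℝ)),
          η ⬝ᵥ w = 1) → γ ⬝ᵥ w = 1) → ∀ w ∈ W, θ ⬝ᵥ w = 1 → r₁ ⬝ᵥ w = r₂ ⬝ᵥ w →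
          ((1 / 2 : ℝ) • (θ - γ)) ⬝ᵥ w = r₁ ⬝ᵥ w := by
      intro r₁ r₂ hr a w hw' h h'
      simp only [Finset.mem_insert, Finset.mem_singleton, forall_eq_or_imp, forall_eq, key] at a
      rw [smul_dotProduct, sub_dotProduct, smul_eq_mul]
      rcases hr w hw' h with h3 | h3
      · have := a w hw' ⟨by linarith, by linarith⟩
        linarith
      · have := a (-w) (h2.neg w hw') (by
          simp only [dotProduct_neg]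
          exact ⟨by linarith, by linarith⟩)
        rw [dotProduct_neg] at this
        linarith
    exact ⟨_, pr_half h1 hγ, hfin hp₁ a0, hfin hq₁ a1⟩

/-- if p₁ ∧ p₂ ≤ q with a common zero then there is γ with p₁ ∧ p₂ ≤ γ ≤ (p₁ ∨ p₂) ∧ q -/
theorem lemmaV (h1 : Half V W) (h2 : Half W V) (hθ : θ ∈ V) {p₁ p₂ q w₀ : Fin n → ℝ}
    (hp₁ : Pr W θ p₁) (hp₂ : Pr W θ p₂) (hq : Pr W θ q)
    (hw : w₀ ∈ W) (hθw : θ ⬝ᵥ w₀ = 1) (z₁ : p₁ ⬝ᵥ w₀ = 0) (z₂ : p₂ ⬝ᵥ w₀ = 0) (z₃ : q ⬝ᵥ w₀ = 0)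
    (hle : ∀ w ∈ W, θ ⬝ᵥ w = 1 → p₁ ⬝ᵥ w = 1 → p₂ ⬝ᵥ w = 1 → q ⬝ᵥ w = 1) :
    ∃ γ, Pr W θ γ ∧ (∀ w ∈ W, θ ⬝ᵥ w = 1 → p₁ ⬝ᵥ w = 1 → p₂ ⬝ᵥ w = 1 → γ ⬝ᵥ w = 1) ∧
      ∀ w ∈ W, θ ⬝ᵥ w = 1 → γ ⬝ᵥ w = 1 → (p₁ ⬝ᵥ w = 1 ∨ p₂ ⬝ᵥ w = 1) ∧ q ⬝ᵥ w = 1 := by
  obtain ⟨γ, hγ, a, b⟩ := lemmaI h1 h2 hθ hp₁ hp₂ hq (q₂ := 0)
    (fun w _ _ => Or.inl (zero_dotProduct w)) hw hθw z₁ z₂ z₃ (zero_dotProduct _)
    (fun w hw' h c1 c2 c3 _ => by linarith [hle w hw' h c1 c2])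
    (fun w _ _ _ _ _ c => by simp at c)
  refine ⟨γ, hγ, fun w hw' h c1 c2 => by rw [a w hw' h (c1.trans c2.symm), c1],
    fun w hw' h c => ⟨?_, ?_⟩⟩
  · rcases hp₁ w hw' h with c1 | c1
    · rcases hp₂ w hw' h with c2 | c2
      · linarith [a w hw' h (c1.trans c2.symm)]
      · exact Or.inr c2
    · exact Or.inl c1
  · rcases hq w hw' h with c1 | c1
    · linarith [b w hw' h (by rw [c1, zero_dotProduct])]
    · exact c1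

theorem decomp_of (h1 : Half V W) (h2 : Half W V) (hθ : θ ∈ V) (S₁ S₂ : Set (Fin n → ℝ))
    (hspan : Submodule.span ℝ (S₁ ∪ S₂) = ⊤) (hS₁ : ∃ a ∈ S₁, a ≠ 0) (hS₂ : ∃ b ∈ S₂, b ≠ 0)
    (h : ∀ w ∈ W, θ ⬝ᵥ w = 1 → (∀ a ∈ S₁, a ⬝ᵥ w = 0) ∨ ∀ b ∈ S₂, b ⬝ᵥ w = 0) : Decomp W := by
  have hsp : ∀ (S : Set (Fin n → ℝ)) (w : Fin n → ℝ), (∀ a ∈ S, a ⬝ᵥ w = 0) →
      ∀ x ∈ Submodule.span ℝ S, x ⬝ᵥ w = 0 := by
    intro S w hS x hx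
    induction hx using Submodule.span_induction with
    | mem x hx => exact hS x hx
    | zero => exact zero_dotProduct w
    | add x y _ _ hx hy => rw [add_dotProduct, hx, hy, add_zero]
    | smul c x _ hx => rw [smul_dotProduct, hx, smul_zero]
  have hW : ∀ w ∈ W, (∀ x ∈ Submodule.span ℝ S₁, x ⬝ᵥ w = 0) ∨
      ∀ x ∈ Submodule.span ℝ S₂, x ⬝ᵥ w = 0 := by
    intro w hw
    rcases h1.pm θ hθ w hw with h3 | h3
    · exact (h w hw h3).imp (hsp _ _) (hsp _ _)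
    · have := h (-w) (h2.neg w hw) (by rw [dotProduct_neg, h3, neg_neg])
      simp only [dotProduct_neg, neg_eq_zero] at this
      exact this.imp (hsp _ _) (hsp _ _)
  have hne : ∀ S : Set (Fin n → ℝ), (∃ a ∈ S, a ≠ 0) → Submodule.span ℝ S ≠ ⊥ := by
    rintro S ⟨a, ha, h0⟩ hb
    exact h0 (Submodule.span_eq_bot.1 hb a ha)
  refine ⟨_, _, ⟨?_, ?_⟩, hne _ hS₁, hne _ hS₂, hW⟩
  · rw [Submodule.disjoint_def]
    intro x x1 x2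
    exact h1.sep x fun w hw => (hW w hw).elim (fun h => h x x1) fun h => h x x2
  · rw [codisjoint_iff, ← Submodule.span_union, hspan]

end Vale.Agent.P248
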