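import Vale.Agent.P248.Comb1

/-!
TASK P248-Comb2.  Uses only the statements of Comb1.lean.  Write 1 = θ, a ~ b for Meet W θ a b, a ⊥ b for its negation.
* seinsche (pure graph theory, induction on card S; the hypothesis is invariant under R ↦ ¬R via the path c,a,d,b).
  Remove x ∈ S, S' = S \ {x}.  If S' is a singleton, trivial.  By induction and the symmetry R ↔ ¬R (prove the step for a general R)
  S' = S₁ ⊔ S₂ with no R across.  If x is R-related to all of S': split {x} | S'.  If x has no R-neighbour in S₁ (or S₂): put x on the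
  other side.  Otherwise x has neighbours in both and a non-neighbour, wlog in S₁.  M = non-neighbours of x in S₁.  An edge m ~ u with m ∈ M,
  u ∈ S₁ \ M would give the induced path m, u, x, w (w ∈ S₂ neighbour of x).  So M | rest has no R across.
* no_P4 (atoms a ~ b ~ c ~ d, a ⊥ c, a ⊥ d, b ⊥ d is impossible): c ≠ d, so there is w₀ with d = 1, c = 0 (else Sub d c); there a = b = 0.
  lemmaV(b, c; θ-a-d) at w₀ gives ρ with b∧c ≤ ρ ≤ (b∨c)∧(1-a-d).  ρ' = b+c-ρ is Pr, ρ' ≤ b∨c, a∧b ≤ ρ', ρ' w₀ = 0.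
  lemmaV(a, b; ρ') at w₀ gives γ, a∧b ≤ γ ≤ (a∨b)∧ρ' ≤ b, γ ≠ 0, so γ = b, so b ≤ ρ', so c - ρ = ρ' - b is Pr and Sub c, so ρ = c or ρ = 0;
  ρ = c contradicts c ~ d, ρ = 0 contradicts b ~ c.
* exists_atom_pair: there are at least two atoms (span_atoms, n ≥ 2, finite_atoms).  Seinsche gives atoms = S₁ ⊔ S₂.
  If no Meet across: decomp_of gives Decomp W.  Otherwise all cross pairs meet, so orthogonal atoms lie in the same class.
  Suppose no atom c has θ - c an atom.  Choose a ∈ S₁, a' ∈ S₂ minimising the card of {w ∈ W₀ | a = a' = 1}.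
  No atom c is ⊥ to both a and a'; hence (exists_atom, exists_one) every Pr e ≠ 0 with e ⊥ a meets a', and every Pr e ≠ 0 with e ⊥ a' meets a;
  more generally if Pr e, Pr f are nonzero, e ⊥ a, f ⊥ a' then e ~ f (atoms below e are in S₁, below f in S₂).
  θ - a ≠ 0 (else Sub a' a gives a' = a) is Pr and not an atom, so θ - a = R0 + R2 with R0, R2 nonzero orthogonal Pr; likewise θ - a' = C0 + C2.
  So W₀ is a 3×3 table of cells, rows a, R0, R2, columns a', C0, C2; R0∧C0 and R2∧C2 are nonempty.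
  lemmaI with (p₁,p₂) = (R2, a'+C2), (q₁,q₂) = (a+R2, C2), w₀ ∈ R0∧C0 gives Pr γ with γ = 1 on R2∧a', R2∧C2, a∧C2 and γ = 0 on a∧C0, R0∧C0, R0∧a'.
  π = a+R2+C2-γ is Pr with table  a: [1-γ, 1, 1], R0: [0, 0, 1-γ], R2: [0, 1-γ, 1];
  π' = θ+a-a'-π is Pr with table  a: [γ, 1, 1], R0: [0, 1, γ], R2: [0, γ, 0].
  If γ = 1 on all of a∧a': θ-a'-π is Pr, nonzero (R0∧C0), ⊥ a and ⊥ a', contradiction.
  If γ = 0 on all of a∧a': θ-a'-π' is Pr, nonzero (R2∧C2), ⊥ a and ⊥ a', contradiction.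
  Otherwise pick w₁, w₂ ∈ a∧a' with γ w₁ = 0, γ w₂ = 1, an atom c ≤ π containing w₁ and an atom c' ≤ θ-π containing w₂.  c ⊥ c' so same class.
  If S₁: c∧a' ⊆ (a∧a') \ {w₂}, smaller cross pair (c,a').  If S₂: a∧c' ⊆ (a∧a') \ {w₁}, smaller cross pair (a,c').
-/

open Set

namespace Vale.Agent.P248

variable {n : ℕ} {V W : Finset (Fin n → ℝ)} {θ : Fin n → ℝ}

theorem comb2_core {α : Type} [DecidableEq α] (R : α → α → Prop) (hR : ∀ a b, R a b → R b a)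
    (x : α) (S₁ S₂ : Finset α) (hx₁ : x ∉ S₁) (hx₂ : x ∉ S₂) (n₂ : S₂.Nonempty)
    (hd : Disjoint S₁ S₂) (hno : ∀ a ∈ S₁, ∀ b ∈ S₂, ¬ R a b)
    (hP : ∀ a ∈ insert x (S₁ ∪ S₂), ∀ b ∈ insert x (S₁ ∪ S₂), ∀ c ∈ insert x (S₁ ∪ S₂),
      ∀ d ∈ insert x (S₁ ∪ S₂), R a b → R b c → R c d → ¬ R a c → ¬ R a d → ¬ R b d → False)
    (m : α) (hm : m ∈ S₁) (hxm : ¬ R x m) :
    ∃ T₁ T₂ : Finset α, T₁.Nonempty ∧ T₂.Nonempty ∧ Disjoint T₁ T₂ ∧
      T₁ ∪ T₂ = insert x (S₁ ∪ S₂) ∧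
      ((∀ a ∈ T₁, ∀ b ∈ T₂, R a b) ∨ ∀ a ∈ T₁, ∀ b ∈ T₂, ¬ R a b) := by
  classical
  by_cases hu : ∃ u ∈ S₂, R x u
  · obtain ⟨u, hu, hxu⟩ := hu
    refine ⟨S₁.filter fun y => ¬ R x y, insert x (S₁ ∪ S₂) \ S₁.filter fun y => ¬ R x y,
      ⟨m, Finset.mem_filter.2 ⟨hm, hxm⟩⟩, ⟨x, by simp [hx₁]⟩, Finset.disjoint_sdiff, ?_, Or.inr ?_⟩
    · refine Finset.union_sdiff_of_subset fun y hy => ?_
      simp [(Finset.mem_filter.1 hy).1]
    · intro a ha b hb hab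
      obtain ⟨ha1, ha2⟩ := Finset.mem_filter.1 ha
      obtain ⟨hb1, hb2⟩ := Finset.mem_sdiff.1 hb
      rcases Finset.mem_insert.1 hb1 with h | h
      · exact ha2 (hR _ _ (h ▸ hab))
      rcases Finset.mem_union.1 h with h | h
      · have hxb : R x b := by
          by_contra hc
          exact hb2 (Finset.mem_filter.2 ⟨h, hc⟩)
        exact hP a (by simp [ha1]) b hb1 x (by simp) u (by simp [hu]) hab (hR _ _ hxb) hxu
          (fun h' => ha2 (hR _ _ h')) (hno a ha1 u hu) (hno b h u hu)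
      · exact hno a ha1 b h hab
  · push Not at hu
    refine ⟨insert x S₁, S₂, Finset.insert_nonempty _ _, n₂,
      Finset.disjoint_insert_left.2 ⟨hx₂, hd⟩, Finset.insert_union _ _ _, Or.inr ?_⟩
    intro a ha b hb
    rcases Finset.mem_insert.1 ha with h | h
    · exact h ▸ hu b hb
    · exact hno a h b hb

theorem comb2_step {α : Type} [DecidableEq α] (R : α → α → Prop) (hR : ∀ a b, R a b → R b a)
    (x : α) (S₁ S₂ : Finset α) (hx : x ∉ S₁ ∪ S₂) (n₁ : S₁.Nonempty) (n₂ : S₂.Nonempty)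
    (hd : Disjoint S₁ S₂) (hno : ∀ a ∈ S₁, ∀ b ∈ S₂, ¬ R a b)
    (hP : ∀ a ∈ insert x (S₁ ∪ S₂), ∀ b ∈ insert x (S₁ ∪ S₂), ∀ c ∈ insert x (S₁ ∪ S₂),
      ∀ d ∈ insert x (S₁ ∪ S₂), R a b → R b c → R c d → ¬ R a c → ¬ R a d → ¬ R b d → False) :
    ∃ T₁ T₂ : Finset α, T₁.Nonempty ∧ T₂.Nonempty ∧ Disjoint T₁ T₂ ∧
      T₁ ∪ T₂ = insert x (S₁ ∪ S₂) ∧
      ((∀ a ∈ T₁, ∀ b ∈ T₂, R a b) ∨ ∀ a ∈ T₁, ∀ b ∈ T₂, ¬ R a b) := by
  have hx₁ : x ∉ S₁ := fun h => hx (Finset.mem_union_left _ h)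
  have hx₂ : x ∉ S₂ := fun h => hx (Finset.mem_union_right _ h)
  by_cases hall : ∀ y ∈ S₁ ∪ S₂, R x y
  · refine ⟨{x}, S₁ ∪ S₂, Finset.singleton_nonempty _, n₁.mono Finset.subset_union_left,
      Finset.disjoint_singleton_left.2 hx, (Finset.insert_eq _ _).symm, Or.inl ?_⟩
    intro a ha b hb
    exact Finset.mem_singleton.1 ha ▸ hall b hb
  · push Not at hall
    obtain ⟨m, hm, hxm⟩ := hall
    rcases Finset.mem_union.1 hm with h | h
    · exact comb2_core R hR x S₁ S₂ hx₁ hx₂ n₂ hd hno hP m h hxm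
    · rw [Finset.union_comm] at hP ⊢
      exact comb2_core R hR x S₂ S₁ hx₂ hx₁ n₁ hd.symm
        (fun a ha b hb hab => hno b hb a ha (hR _ _ hab)) hP m h hxm

theorem seinsche {α : Type} [DecidableEq α] (R : α → α → Prop) (hR : ∀ a b, R a b → R b a)
    (S : Finset α) (h2 : 2 ≤ S.card)
    (hP : ∀ a ∈ S, ∀ b ∈ S, ∀ c ∈ S, ∀ d ∈ S,
      R a b → R b c → R c d → ¬ R a c → ¬ R a d → ¬ R b d → False) :
    ∃ S₁ S₂ : Finset α, S₁.Nonempty ∧ S₂.Nonempty ∧ Disjoint S₁ S₂ ∧ S₁ ∪ S₂ = S ∧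
      ((∀ a ∈ S₁, ∀ b ∈ S₂, R a b) ∨ ∀ a ∈ S₁, ∀ b ∈ S₂, ¬ R a b) := by
  induction S using Finset.induction_on with
  | empty => simp at h2
  | insert x S hx ih =>
    rw [Finset.card_insert_of_notMem hx] at h2
    by_cases h1 : S.card = 1
    · obtain ⟨y, rfl⟩ := Finset.card_eq_one.1 h1
      refine ⟨{x}, {y}, Finset.singleton_nonempty _, Finset.singleton_nonempty _,
        Finset.disjoint_singleton_left.2 hx, (Finset.insert_eq _ _).symm, ?_⟩
      by_cases h : R x y <;> simp [h]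
    · obtain ⟨S₁, S₂, n₁, n₂, hd, rfl, h⟩ := ih (by omega) fun a ha b hb c hc d hd =>
        hP a (Finset.mem_insert_of_mem ha) b (Finset.mem_insert_of_mem hb) c
          (Finset.mem_insert_of_mem hc) d (Finset.mem_insert_of_mem hd)
      rcases h with h | h
      · obtain ⟨T₁, T₂, m₁, m₂, md, mu, mh⟩ := comb2_step (fun a b => ¬ R a b)
          (fun a b h h' => h (hR _ _ h')) x S₁ S₂ hx n₁ n₂ hd (fun a ha b hb => not_not.2 (h a ha b hb))
          (fun a ha b hb c hc d hd ab bc cd ac ad bd =>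
            hP c hc a ha d hd b hb (hR _ _ (not_not.1 ac)) (not_not.1 ad) (hR _ _ (not_not.1 bd))
              cd (fun h => bc (hR _ _ h)) ab)
        refine ⟨T₁, T₂, m₁, m₂, md, mu, ?_⟩
        rcases mh with mh | mh
        · exact Or.inr mh
        · exact Or.inl fun a ha b hb => not_not.1 (mh a ha b hb)
      · exact comb2_step R hR x S₁ S₂ hx n₁ n₂ hd h hP

theorem comb2_meet_symm {a b : Fin n → ℝ} (h : Meet W θ a b) : Meet W θ b a := by
  obtain ⟨w, h1, h2, h3, h4⟩ := h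
  exact ⟨w, h1, h2, h4, h3⟩

theorem comb2_zero {a b w : Fin n → ℝ} (ha : Pr W θ a) (h : ¬ Meet W θ a b) (hw : w ∈ W)
    (hθw : θ ⬝ᵥ w = 1) (hb : b ⬝ᵥ w = 1) : a ⬝ᵥ w = 0 :=
  (ha w hw hθw).resolve_right fun h1 => h ⟨w, hw, hθw, h1, hb⟩

theorem comb2_not_sub {e f : Fin n → ℝ} (hf : Pr W θ f) (h : ¬ Sub W θ e f) :
    ∃ w ∈ W, θ ⬝ᵥ w = 1 ∧ e ⬝ᵥ w = 1 ∧ f ⬝ᵥ w = 0 := by
  by_contra hn
  exact h fun w hw hθw he => (hf w hw hθw).resolve_left fun h0 => hn ⟨w, hw, hθw, he, h0⟩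

theorem no_P4 (h1 : Half V W) (h2 : Half W V) (hθ : θ ∈ V) {a b c d : Fin n → ℝ}
    (ha : Atom W θ a) (hb : Atom W θ b) (hc : Atom W θ c) (hd : Atom W θ d)
    (hab : Meet W θ a b) (hbc : Meet W θ b c) (hcd : Meet W θ c d)
    (hac : ¬ Meet W θ a c) (had : ¬ Meet W θ a d) (hbd : ¬ Meet W θ b d) : False := by
  have hca : ¬ Meet W θ c a := fun h => hac (comb2_meet_symm h)
  have hda : ¬ Meet W θ d a := fun h => had (comb2_meet_symm h)
  have hdb : ¬ Meet W θ d b := fun h => hbd (comb2_meet_symm h)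
  obtain ⟨w₀, hw, hθw, dw, cw⟩ := comb2_not_sub (e := d) hc.1 fun h => by
    rcases hc.2.2 d hd.1 h with h | h
    · exact hd.2.1 h
    · exact hbd (h ▸ hbc)
  have aw := comb2_zero ha.1 had hw hθw dw
  have bw := comb2_zero hb.1 hbd hw hθw dw
  obtain ⟨ρ, ρp, ρ1, ρ2⟩ := lemmaV h1 h2 hθ (q := θ - a - d) hb.1 hc.1 (fun w hw hθw => by
      simp only [sub_dotProduct]
      rcases hd.1 w hw hθw with h | h
      · rcases ha.1 w hw hθw with h' | h'
        · right; linarith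
        · left; linarith
      · left; linarith [comb2_zero ha.1 had hw hθw h]) hw hθw bw cw
    (by simp only [sub_dotProduct]; linarith) (fun w hw hθw bw cw => by
      simp only [sub_dotProduct]
      linarith [comb2_zero ha.1 hac hw hθw cw, comb2_zero hd.1 hdb hw hθw bw])
  simp only [sub_dotProduct] at ρ2
  have ρ0 : ∀ w ∈ W, θ ⬝ᵥ w = 1 → b ⬝ᵥ w = 0 → c ⬝ᵥ w = 0 → ρ ⬝ᵥ w = 0 := fun w hw hθw bw cw =>
    (ρp w hw hθw).resolve_right fun h => by
      rcases (ρ2 w hw hθw h).1 with h' | h' <;> linarith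
  have ρ'p : Pr W θ (b + c - ρ) := fun w hw hθw => by
    simp only [sub_dotProduct, add_dotProduct]
    rcases hb.1 w hw hθw with bw | bw <;> rcases hc.1 w hw hθw with cw | cw
    · left; linarith [ρ0 w hw hθw bw cw]
    · rcases ρp w hw hθw with h | h
      · right; linarith
      · left; linarith
    · rcases ρp w hw hθw with h | h
      · right; linarith
      · left; linarith
    · right; linarith [ρ1 w hw hθw bw cw]
  obtain ⟨γ, γp, γ1, γ2⟩ := lemmaV h1 h2 hθ ha.1 hb.1 ρ'p hw hθw aw bw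
    (by simp only [sub_dotProduct, add_dotProduct]; linarith [ρ0 w₀ hw hθw bw cw])
    (fun w hw hθw aw bw => by
      simp only [sub_dotProduct, add_dotProduct]
      have := comb2_zero hc.1 hca hw hθw aw
      have := comb2_zero hd.1 hda hw hθw aw
      rcases ρp w hw hθw with h | h
      · linarith
      · linarith [(ρ2 w hw hθw h).2])
  simp only [sub_dotProduct, add_dotProduct] at γ2
  have γb : γ = b := by
    refine (hb.2.2 γ γp fun w hw hθw h => ?_).resolve_left fun h0 => ?_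
    · refine (hb.1 w hw hθw).resolve_left fun bw => ?_
      obtain ⟨k1, k2⟩ := γ2 w hw hθw h
      rcases k1 with k1 | k1
      · have := comb2_zero hc.1 hca hw hθw k1
        rcases ρp w hw hθw with h | h <;> linarith
      · linarith
    · obtain ⟨w, hw, hθw, aw, bw⟩ := hab
      have := γ1 w hw hθw aw bw
      rw [h0, zero_dotProduct] at this
      norm_num at this
  subst γb
  rcases hc.2.2 (c - ρ) (fun w hw hθw => by
      rcases hb.1 w hw hθw with bw | bw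
      · have := ρ'p w hw hθw
        simp only [sub_dotProduct, add_dotProduct, bw, zero_add] at this ⊢
        exact this
      · left
        simp only [sub_dotProduct]
        linarith [(γ2 w hw hθw bw).2]) (fun w hw hθw h => by
      simp only [sub_dotProduct] at h
      rcases hc.1 w hw hθw with cw | cw <;> rcases ρp w hw hθw with k | k <;> linarith) with h | h
  · obtain ⟨w, hw, hθw, cw, dw⟩ := hcd
    have e : ρ = c := (sub_eq_zero.1 h).symm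
    have := (ρ2 w hw hθw (e ▸ cw)).2
    linarith [comb2_zero ha.1 had hw hθw dw]
  · obtain ⟨w, hw, hθw, bw, cw⟩ := hbc
    have e : ρ = 0 := sub_eq_self.1 h
    have := ρ1 w hw hθw bw cw
    rw [e, zero_dotProduct] at this
    norm_num at this

theorem comb2_table {A R0 R2 A' C0 C2 g : ℝ} (hA : A = 0 ∨ A = 1) (hR0 : R0 = 0 ∨ R0 = 1)
    (hR2 : R2 = 0 ∨ R2 = 1) (hA' : A' = 0 ∨ A' = 1) (hC0 : C0 = 0 ∨ C0 = 1)
    (hC2 : C2 = 0 ∨ C2 = 1) (hg : g = 0 ∨ g = 1) (hr : A + R0 + R2 = 1) (hc : A' + C0 + C2 = 1)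
    (g1 : R2 = A' + C2 → g = R2) (g2 : A + R2 = C2 → g = A + R2) :
    (A + R2 + C2 - g = 0 ∨ A + R2 + C2 - g = 1) ∧
    ((A = 1 → A' = 1 → g = 1) → (1 - A' - (A + R2 + C2 - g) = 0 ∨ 1 - A' - (A + R2 + C2 - g) = 1) ∧
      (1 - A' - (A + R2 + C2 - g) = 1 → A = 0 ∧ A' = 0) ∧
      (R0 = 1 → C0 = 1 → 1 - A' - (A + R2 + C2 - g) = 1)) ∧
    ((A = 1 → A' = 1 → g = 0) → (R2 + C2 - g = 0 ∨ R2 + C2 - g = 1) ∧
      (R2 + C2 - g = 1 → A = 0 ∧ A' = 0) ∧ (R2 = 1 → C2 = 1 → R2 + C2 - g = 1)) ∧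
    (A = 1 → A' = 1 → A + R2 + C2 - g = 1 - g) := by
  rcases hA with rfl | rfl <;> rcases hR0 with rfl | rfl <;> rcases hR2 with rfl | rfl <;>
    (try (exfalso; linarith)) <;>
    rcases hA' with rfl | rfl <;> rcases hC0 with rfl | rfl <;> rcases hC2 with rfl | rfl <;>
    (try (exfalso; linarith)) <;> rcases hg with rfl | rfl <;>
    first | (norm_num; done) | (norm_num at g1; done) | (norm_num at g2; done)

theorem comb2_split (h1 : Half V W) (h2 : Half W V) (hθ : θ ∈ V) {a : Fin n → ℝ}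
    (ha : Pr W θ a) (h0 : θ - a ≠ 0) (hn : ¬ Atom W θ (θ - a)) :
    ∃ R0 R2, Pr W θ R0 ∧ Pr W θ R2 ∧ R0 ≠ 0 ∧ R2 ≠ 0 ∧
      ∀ w ∈ W, θ ⬝ᵥ w = 1 → a ⬝ᵥ w + R0 ⬝ᵥ w + R2 ⬝ᵥ w = 1 := by
  have hp : Pr W θ (θ - a) := fun w hw hθw => by
    simp only [sub_dotProduct]
    rcases ha w hw hθw with h | h
    · right; linarith
    · left; linarith
  have : ¬ ∀ e, Pr W θ e → Sub W θ e (θ - a) → e = 0 ∨ e = θ - a := fun h => hn ⟨hp, h0, h⟩
  push Not at this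
  obtain ⟨e, he, hs, e0, e1⟩ := this
  refine ⟨e, θ - a - e, he, fun w hw hθw => ?_, e0, fun h => e1 (sub_eq_zero.1 h).symm,
    fun w hw hθw => ?_⟩
  · rw [sub_dotProduct]
    rcases he w hw hθw with h | h
    · rw [h, sub_zero]; exact hp w hw hθw
    · left; rw [hs w hw hθw h, h, sub_self]
  · simp only [sub_dotProduct]; linarith

theorem exists_atom_pair (hn : 2 ≤ n) (h1 : Half V W) (h2 : Half W V) (hθ : θ ∈ V)
    (hD : ¬ Decomp W) : ∃ c, Atom W θ c ∧ Atom W θ (θ - c) := by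
  classical
  by_contra hno
  push Not at hno
  set S := (finite_atoms h1 h2 hθ).toFinset with hS
  have hmem : ∀ a, a ∈ S ↔ Atom W θ a := fun a => by simp [hS]
  have hcoe : (S : Set (Fin n → ℝ)) = {a | Atom W θ a} := by ext a; simp [hS]
  have hcard : 2 ≤ S.card := by
    have h := finrank_span_finset_le_card (R := ℝ) S
    rw [Set.finrank, hcoe, span_atoms h1 h2 hθ] at h
    simp at h
    omega
  obtain ⟨S₁, S₂, n₁, n₂, hd, hu, hc⟩ := seinsche (Meet W θ) (fun _ _ => comb2_meet_symm) S hcard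
    fun a ha b hb c hc d hd => no_P4 h1 h2 hθ ((hmem a).1 ha) ((hmem b).1 hb) ((hmem c).1 hc)
      ((hmem d).1 hd)
  have m₁ : ∀ a ∈ S₁, Atom W θ a := fun a h => (hmem a).1 (hu ▸ Finset.mem_union_left _ h)
  have m₂ : ∀ a ∈ S₂, Atom W θ a := fun a h => (hmem a).1 (hu ▸ Finset.mem_union_right _ h)
  have mu : ∀ a, Atom W θ a → a ∈ S₁ ∨ a ∈ S₂ := fun a h =>
    Finset.mem_union.1 (hu.symm ▸ (hmem a).2 h)
  rcases hc with hc | hc
  swap
  · refine hD (decomp_of h1 h2 hθ S₁ S₂ (by rw [← Finset.coe_union, hu, hcoe, span_atoms h1 h2 hθ])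
      (n₁.elim fun a h => ⟨a, h, (m₁ a h).2.1⟩) (n₂.elim fun a h => ⟨a, h, (m₂ a h).2.1⟩)
      fun w hw hθw => ?_)
    by_contra hh
    push Not at hh
    obtain ⟨⟨a, ha, a0⟩, b, hb, b0⟩ := hh
    exact hc a ha b hb ⟨w, hw, hθw, ((m₁ a ha).1 w hw hθw).resolve_left a0,
      ((m₂ b hb).1 w hw hθw).resolve_left b0⟩
  obtain ⟨⟨a, a'⟩, hp, hmin⟩ := Finset.exists_min_image (S₁ ×ˢ S₂)
    (fun p => (W.filter fun w => θ ⬝ᵥ w = 1 ∧ p.1 ⬝ᵥ w = 1 ∧ p.2 ⬝ᵥ w = 1).card)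
    (n₁.product n₂)
  obtain ⟨ha, ha'⟩ := Finset.mem_product.1 hp
  simp only at ha ha' hmin
  have A := m₁ a ha
  have A' := m₂ a' ha'
  have gen : ∀ e f, Pr W θ e → Pr W θ f → e ≠ 0 → f ≠ 0 →
      (∀ w ∈ W, θ ⬝ᵥ w = 1 → e ⬝ᵥ w = 1 → a ⬝ᵥ w = 0) →
      (∀ w ∈ W, θ ⬝ᵥ w = 1 → f ⬝ᵥ w = 1 → a' ⬝ᵥ w = 0) → Meet W θ e f := by
    intro e f he hf e0 f0 hea hfa
    obtain ⟨w, hw, hθw, ew⟩ := exists_one h1 h2 hθ he e0
    obtain ⟨c, hca, cs, -⟩ := exists_atom h1 h2 hθ he hw hθw ew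
    obtain ⟨w', hw', hθw', fw⟩ := exists_one h1 h2 hθ hf f0
    obtain ⟨c', hca', cs', -⟩ := exists_atom h1 h2 hθ hf hw' hθw' fw
    have c1 : c ∈ S₁ := (mu c hca).resolve_right fun h => by
      obtain ⟨x, hx, hθx, k1, k2⟩ := hc a ha c h
      linarith [hea x hx hθx (cs x hx hθx k2)]
    have c2 : c' ∈ S₂ := (mu c' hca').resolve_left fun h => by
      obtain ⟨x, hx, hθx, k1, k2⟩ := hc c' h a' ha'
      linarith [hfa x hx hθx (cs' x hx hθx k1)]
    obtain ⟨x, hx, hθx, k1, k2⟩ := hc c c1 c' c2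
    exact ⟨x, hx, hθx, cs x hx hθx k1, cs' x hx hθx k2⟩
  have hne : a ≠ a' := fun h => Finset.disjoint_left.1 hd ha (h ▸ ha')
  have nz : ∀ b b', Atom W θ b → Atom W θ b' → b ≠ b' → θ - b ≠ 0 := fun b b' B B' hbb h0 => by
    have e : θ = b := sub_eq_zero.1 h0
    rcases B.2.2 b' B'.1 (fun w _ hθw _ => e ▸ hθw) with h | h
    · exact B'.2.1 h
    · exact hbb h.symm
  obtain ⟨R0, R2, pR0, pR2, zR0, zR2, hr⟩ := comb2_split h1 h2 hθ A.1 (nz a a' A A' hne) (hno a A)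
  obtain ⟨C0, C2, pC0, pC2, zC0, zC2, hcc⟩ :=
    comb2_split h1 h2 hθ A'.1 (nz a' a A' A hne.symm) (hno a' A')
  have nn : ∀ e, Pr W θ e → ∀ w ∈ W, θ ⬝ᵥ w = 1 → 0 ≤ e ⬝ᵥ w := fun e he w hw hθw => by
    rcases he w hw hθw with h | h <;> linarith
  obtain ⟨w₀, hw₀, hθw₀, r0, c0⟩ := gen R0 C0 pR0 pC0 zR0 zC0
    (fun w hw hθw h => by linarith [hr w hw hθw, nn _ A.1 w hw hθw, nn _ pR2 w hw hθw])
    (fun w hw hθw h => by linarith [hcc w hw hθw, nn _ A'.1 w hw hθw, nn _ pC2 w hw hθw])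
  obtain ⟨w₂, hw₂, hθw₂, r2, c2⟩ := gen R2 C2 pR2 pC2 zR2 zC2
    (fun w hw hθw h => by linarith [hr w hw hθw, nn _ A.1 w hw hθw, nn _ pR0 w hw hθw])
    (fun w hw hθw h => by linarith [hcc w hw hθw, nn _ A'.1 w hw hθw, nn _ pC0 w hw hθw])
  have k1 := hr w₀ hw₀ hθw₀
  have k2 := hcc w₀ hw₀ hθw₀
  have k3 := nn _ A.1 w₀ hw₀ hθw₀
  have k4 := nn _ pR2 w₀ hw₀ hθw₀
  have k5 := nn _ A'.1 w₀ hw₀ hθw₀
  have k6 := nn _ pC2 w₀ hw₀ hθw₀
  obtain ⟨γ, γp, γ1, γ2⟩ := lemmaI h1 h2 hθ (p₁ := R2) (p₂ := a' + C2) (q₁ := a + R2) (q₂ := C2)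
    pR2 (fun w hw hθw => by
      rw [add_dotProduct]
      rcases pC0 w hw hθw with h | h
      · right; linarith [hcc w hw hθw]
      · left; linarith [hcc w hw hθw]) (fun w hw hθw => by
      rw [add_dotProduct]
      rcases pR0 w hw hθw with h | h
      · right; linarith [hr w hw hθw]
      · left; linarith [hr w hw hθw]) pC2 hw₀ hθw₀ (by linarith)
    (by rw [add_dotProduct]; linarith) (by rw [add_dotProduct]; linarith) (by linarith)
    (fun w hw hθw e1 _ e3 _ => by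
      rw [add_dotProduct] at e3; linarith [nn _ A.1 w hw hθw])
    (fun w hw hθw _ e2 _ e4 => by
      rw [add_dotProduct] at e2; linarith [nn _ A'.1 w hw hθw])
  simp only [add_dotProduct] at γ1 γ2
  have T := fun w hw hθw => comb2_table (A.1 w hw hθw) (pR0 w hw hθw) (pR2 w hw hθw) (A'.1 w hw hθw)
    (pC0 w hw hθw) (pC2 w hw hθw) (γp w hw hθw) (hr w hw hθw) (hcc w hw hθw) (γ1 w hw hθw)
    (γ2 w hw hθw)
  have none : ∀ e, Pr W θ e → (∀ w ∈ W, θ ⬝ᵥ w = 1 → e ⬝ᵥ w = 1 → a ⬝ᵥ w = 0 ∧ a' ⬝ᵥ w = 0) →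
      ∀ w, e ⬝ᵥ w = 1 → ¬ (∀ x ∈ S₁, ∀ y ∈ S₂, Meet W θ x y) := by
    intro e he h w ew hc
    have e0 : e ≠ 0 := fun h0 => by rw [h0, zero_dotProduct] at ew; norm_num at ew
    obtain ⟨w, hw, hθw, ew⟩ := exists_one h1 h2 hθ he e0
    obtain ⟨c, hca, cs, -⟩ := exists_atom h1 h2 hθ he hw hθw ew
    rcases mu c hca with k | k
    · obtain ⟨x, hx, hθx, k1, k2⟩ := hc c k a' ha'
      linarith [(h x hx hθx (cs x hx hθx k1)).2]
    · obtain ⟨x, hx, hθx, k1, k2⟩ := hc a ha c k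
      linarith [(h x hx hθx (cs x hx hθx k2)).1]
  by_cases g1 : ∀ w ∈ W, θ ⬝ᵥ w = 1 → a ⬝ᵥ w = 1 → a' ⬝ᵥ w = 1 → γ ⬝ᵥ w = 1
  · refine none (θ - a' - (a + R2 + C2 - γ)) (fun w hw hθw => ?_) (fun w hw hθw => ?_) w₀ ?_ hc
    · simpa only [sub_dotProduct, add_dotProduct, hθw] using ((T w hw hθw).2.1 (g1 w hw hθw)).1
    · simpa only [sub_dotProduct, add_dotProduct, hθw] using ((T w hw hθw).2.1 (g1 w hw hθw)).2.1
    · simpa only [sub_dotProduct, add_dotProduct, hθw₀] using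
        ((T w₀ hw₀ hθw₀).2.1 (g1 w₀ hw₀ hθw₀)).2.2 r0 c0
  by_cases g0 : ∀ w ∈ W, θ ⬝ᵥ w = 1 → a ⬝ᵥ w = 1 → a' ⬝ᵥ w = 1 → γ ⬝ᵥ w = 0
  · refine none (R2 + C2 - γ) (fun w hw hθw => ?_) (fun w hw hθw => ?_) w₂ ?_ hc
    · simpa only [sub_dotProduct, add_dotProduct] using ((T w hw hθw).2.2.1 (g0 w hw hθw)).1
    · simpa only [sub_dotProduct, add_dotProduct] using ((T w hw hθw).2.2.1 (g0 w hw hθw)).2.1
    · simpa only [sub_dotProduct, add_dotProduct] using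
        ((T w₂ hw₂ hθw₂).2.2.1 (g0 w₂ hw₂ hθw₂)).2.2 r2 c2
  push Not at g1 g0
  obtain ⟨x, hx, hθx, ax, a'x, gx⟩ := g1
  obtain ⟨y, hy, hθy, ay, a'y, gy⟩ := g0
  have gx' := (γp x hx hθx).resolve_right gx
  have gy' := (γp y hy hθy).resolve_left gy
  have πp : Pr W θ (a + R2 + C2 - γ) := fun w hw hθw => by
    simpa only [sub_dotProduct, add_dotProduct] using (T w hw hθw).1
  have π'p : Pr W θ (θ - (a + R2 + C2 - γ)) := fun w hw hθw => by
    rw [sub_dotProduct]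
    rcases πp w hw hθw with h | h
    · right; linarith
    · left; linarith
  have πx : (a + R2 + C2 - γ) ⬝ᵥ x = 1 := by
    simp only [sub_dotProduct, add_dotProduct]
    linarith [(T x hx hθx).2.2.2 ax a'x]
  have πy : (θ - (a + R2 + C2 - γ)) ⬝ᵥ y = 1 := by
    simp only [sub_dotProduct, add_dotProduct]
    linarith [(T y hy hθy).2.2.2 ay a'y]
  obtain ⟨c, hca, cs, cx⟩ := exists_atom h1 h2 hθ πp hx hθx πx
  obtain ⟨c', hca', cs', cy⟩ := exists_atom h1 h2 hθ π'p hy hθy πy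
  have orth : ¬ Meet W θ c c' := by
    rintro ⟨w, hw, hθw, e1, e2⟩
    have := cs' w hw hθw e2
    rw [sub_dotProduct, cs w hw hθw e1] at this
    linarith
  rcases mu c hca with k | k
  · have := hmin (c, a') (Finset.mem_product.2 ⟨k, ha'⟩)
    refine absurd this (not_le.2 (Finset.card_lt_card ⟨fun w hw => ?_, fun hs => ?_⟩))
    · obtain ⟨hw, hθw, e1, e2⟩ := Finset.mem_filter.1 hw
      refine Finset.mem_filter.2 ⟨hw, hθw, ?_, e2⟩
      have p := cs w hw hθw e1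
      simp only [sub_dotProduct, add_dotProduct] at p e2
      refine (A.1 w hw hθw).resolve_left fun a0 => ?_
      have q1 := γ1 w hw hθw
      have q2 := hcc w hw hθw
      have q3 := nn _ pC0 w hw hθw
      have q4 := nn _ pC2 w hw hθw
      rcases pR2 w hw hθw with h | h
      · linarith [nn _ γp w hw hθw]
      · linarith [q1 (by linarith)]
    · have := (Finset.mem_filter.1 (hs (Finset.mem_filter.2 ⟨hy, hθy, ay, a'y⟩))).2.2.1
      exact orth ⟨y, hy, hθy, this, cy⟩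
  · have k' : c' ∈ S₂ := (mu c' hca').resolve_left fun h => orth (comb2_meet_symm (hc c' h c k))
    have := hmin (a, c') (Finset.mem_product.2 ⟨ha, k'⟩)
    refine absurd this (not_le.2 (Finset.card_lt_card ⟨fun w hw => ?_, fun hs => ?_⟩))
    · obtain ⟨hw, hθw, e1, e2⟩ := Finset.mem_filter.1 hw
      refine Finset.mem_filter.2 ⟨hw, hθw, e1, ?_⟩
      have p := cs' w hw hθw e2
      simp only [sub_dotProduct, add_dotProduct] at p e1
      refine (A'.1 w hw hθw).resolve_left fun a0 => ?_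
      have q1 := γ2 w hw hθw
      have q1' := γ1 w hw hθw
      have q2 := hr w hw hθw
      have q3 := nn _ pR0 w hw hθw
      have q4 := nn _ pR2 w hw hθw
      rcases pC2 w hw hθw with h | h
      · linarith [q1' (by linarith)]
      · linarith [q1 (by linarith)]
    · have := (Finset.mem_filter.1 (hs (Finset.mem_filter.2 ⟨hx, hθx, ax, a'x⟩))).2.2.2
      exact orth ⟨x, hx, hθx, cx, this⟩

end Vale.Agent.P248
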