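import Mathlib

namespace Vale.Agent.P248

/-- The polar body `K° = {y | ⟨y, x⟩ ≤ 1 for all x ∈ K}` (standard inner product on `ℝⁿ`). -/
def polar {n : ℕ} (K : Set (Fin n → ℝ)) : Set (Fin n → ℝ) :=
  {y | ∀ x ∈ K, dotProduct y x ≤ 1}

/-- The Cartesian product `A × B ⊆ ℝᵏ × ℝˡ = ℝ^(k+l)`. -/
def prodSet {k l : ℕ} (A : Set (Fin k → ℝ)) (B : Set (Fin l → ℝ)) : Set (Fin (k + l) → ℝ) :=
  {z | ∃ x ∈ A, ∃ y ∈ B, z = Fin.append x y}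

/-- The convex hull of `(A × {0}) ∪ ({0} × B)` in `ℝ^(k+l)`. -/
def sumSet {k l : ℕ} (A : Set (Fin k → ℝ)) (B : Set (Fin l → ℝ)) : Set (Fin (k + l) → ℝ) :=
  convexHull ℝ ({z | ∃ x ∈ A, z = Fin.append x 0} ∪ {z | ∃ y ∈ B, z = Fin.append 0 y})

/-- Hanner polytopes, defined recursively. -/
inductive IsHanner : (n : ℕ) → Set (Fin n → ℝ) → Prop
  | segment (a : ℝ) (ha : 0 < a) : IsHanner 1 {x | -a ≤ x 0 ∧ x 0 ≤ a}
  | prod {k l : ℕ} {A : Set (Fin k → ℝ)} {B : Set (Fin l → ℝ)} :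
      IsHanner k A → IsHanner l B → IsHanner (k + l) (prodSet A B)
  | sum {k l : ℕ} {A : Set (Fin k → ℝ)} {B : Set (Fin l → ℝ)} :
      IsHanner k A → IsHanner l B → IsHanner (k + l) (sumSet A B)

end Vale.Agent.P248
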