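import Vale.Agent.P248.Psi
import Vale.Agent.P248.Asym

/-!
TASK P248-Est.  The key planar estimate.  Use only IsInv and the statements of Psi.lean (and
continuous_phi, isOpen_dom).
Fix p ≥ 2, s with |s| < 1, write w(t) = Φ(s + i t), D(t) = dPsi(w t) (Re D ≥ κ/2 so D ≠ 0),
e(t) = ‖deriv (Φ^p)(s + i t)‖² = p² |w|^(2p-2)/|D|², continuous on (-phi s, phi s).
Define b s t = ∫ τ in 0..t, e τ.  Then HasDerivAt by FTC; e(t) > 0 unless w = 0, i.e. unless s + i t = Psi 0 = 0,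
so b s is strictly increasing (intervalIntegral.integral_pos, or derivative > 0 on both sides of 0 plus
continuity).  e(-t) = e(t) (map_conj, dPsi_conj) so b s is odd, and ‖Φ(s - i t)‖ = ‖Φ(s + i t)‖;
so it suffices to bound b s t for t ≥ 0.
w'(t) = i/D.  g(t) = |w|^(2p) = (normSq w)^p has g' = 2p |w|^(2p-2) Re(conj w * i/D) = 2 p κ Y |w|^(2p-2)/|D|²
where Y = (Aw w).im, because conj w * i / D = i conj(w D)/|D|² = i κ conj(Aw w)/|D|² (mul_dPsi).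
v(t) = Im w has v' = Re D/|D|², v(0) = 0, v ≥ 0 for t ≥ 0 (im_nonneg), and Y ≥ 0 there (Aw_im_nonneg).
Since (π/4) p g' = e * (4/π) Y  (κ = 8/π²):  if Y ≥ Y₀ := π/(4(1+ε)) then (1+ε)(π/4) p g' ≥ e.
Let c = 2/tan(2Y₀) > 0, m = c (p-1)/2, C = (π/4) p ε and h(t) = (1+ε)(π/4) p g(t) - C exp(-m v(t)),
h' = (1+ε)(π/4) p g' + C m exp(-m v) Re D/|D|², both terms ≥ 0.
If Y < Y₀ then (Aw_im_small) c v ≤ 1 - |w|², so |w|² ≤ 1 - c v ≤ exp(-c v), |w|^(p-1) ≤ exp(-m v), and it is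
enough to have p² |w|^(p-1) ≤ C m Re D, which follows from |w|^(p-1) ≤ η Re D, η = π ε c/16 (p ≥ 2).
For this: take ρ from re_dPsi_large (1/η).  If w is ρ-close to ±1 done (|w| ≤ 1).  Otherwise, from
0 ≤ c v ≤ 1 - |w|² one gets |w| ≤ r < 1 with r depending only on ρ, c (if |w|² ≥ 1 - σ then v ≤ σ/c,
u² ≥ 1 - σ - σ²/c², |w ∓ 1|² = |w|² + 1 - 2|u| ≤ 2 - 2u² ... small), and r^(p-1) ≤ η κ/2 for p ≥ p₀.
Hence (h - b s)' ≥ 0 on [0, phi s), so b s t ≤ h(t) - h(0) ≤ (1+ε)(π/4) p g(t) + C.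
-/

open MeasureTheory Filter Topology Set
open scoped Real ComplexConjugate

namespace Vale.Agent.P248

theorem est_key {c η : ℝ} (hc : 0 < c) (hη : 0 < η) : ∃ p₀ : ℕ, ∀ n : ℕ, p₀ ≤ n → ∀ w : ℂ,
    ‖w‖ < 1 → 0 ≤ w.im → c * w.im ≤ 1 - ‖w‖ ^ 2 → ‖w‖ ^ n ≤ η * (dPsi w).re := by
  obtain ⟨ρ, hρ, hM⟩ := re_dPsi_large (1 / η)
  have hk := kap_pos
  have hσ : 0 < c * ρ ^ 2 / (4 * (c + 1)) := by positivity
  obtain ⟨p₀, hp₀⟩ := exists_pow_lt_of_lt_one (x := η * (kap / 2))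
    (y := 1 - c * ρ ^ 2 / (4 * (c + 1))) (by positivity) (by linarith)
  refine ⟨p₀, fun n hn w hw hv hcv => ?_⟩
  by_cases hcl : ‖w - 1‖ < ρ ∨ ‖w + 1‖ < ρ
  · have h1 := hM w hw hcl
    have h2 : ‖w‖ ^ n ≤ 1 := pow_le_one₀ (norm_nonneg _) hw.le
    have h3 : η * (1 / η) ≤ η * (dPsi w).re := mul_le_mul_of_nonneg_left h1 hη.le
    rw [mul_one_div_cancel hη.ne'] at h3
    exact h2.trans h3
  · rw [not_or, not_lt, not_lt] at hcl
    have hN : ‖w‖ ^ 2 = w.re ^ 2 + w.im ^ 2 := by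
      rw [Complex.sq_norm, Complex.normSq_apply]; ring
    have h1 : ρ ^ 2 ≤ (w.re - 1) ^ 2 + w.im ^ 2 := by
      have := pow_le_pow_left₀ hρ.le hcl.1 2
      rw [Complex.sq_norm, Complex.normSq_apply] at this
      simp only [Complex.sub_re, Complex.one_re, Complex.sub_im, Complex.one_im, sub_zero] at this
      linarith
    have h2 : ρ ^ 2 ≤ (w.re + 1) ^ 2 + w.im ^ 2 := by
      have := pow_le_pow_left₀ hρ.le hcl.2 2
      rw [Complex.sq_norm, Complex.normSq_apply] at this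
      simp only [Complex.add_re, Complex.one_re, Complex.add_im, Complex.one_im, add_zero] at this
      linarith
    have h0 := norm_nonneg w
    have hN1 : ‖w‖ ^ 2 ≤ 1 := pow_le_one₀ h0 hw.le
    have hu1 : |w.re| ≤ 1 := (Complex.abs_re_le_norm w).trans hw.le
    have hv1 : w.im ≤ 1 := (le_abs_self _).trans ((Complex.abs_im_le_norm w).trans hw.le)
    have hu2 : |w.re| ≤ 1 - ρ ^ 2 / 2 := abs_le.2 ⟨by nlinarith, by nlinarith⟩
    have hu3 : w.re ^ 2 ≤ 1 - ρ ^ 2 / 2 := by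
      rw [← sq_abs]
      nlinarith [abs_nonneg w.re]
    have hv2 : w.im ^ 2 ≤ w.im := by nlinarith
    have h3 : c * ρ ^ 2 / 2 ≤ (c + 1) * (1 - ‖w‖ ^ 2) := by nlinarith
    have h4 : c * ρ ^ 2 / (4 * (c + 1)) ≤ (1 - ‖w‖ ^ 2) / 2 := by
      rw [div_le_iff₀ (by positivity)]
      linarith
    have h5 : ‖w‖ ≤ 1 - c * ρ ^ 2 / (4 * (c + 1)) := by nlinarith [sq_nonneg (1 - ‖w‖)]
    calc ‖w‖ ^ n ≤ ‖w‖ ^ p₀ := pow_le_pow_of_le_one h0 hw.le hn
      _ ≤ (1 - c * ρ ^ 2 / (4 * (c + 1))) ^ p₀ := pow_le_pow_left₀ h0 h5 _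
      _ ≤ η * (kap / 2) := hp₀.le
      _ ≤ η * (dPsi w).re := mul_le_mul_of_nonneg_left (re_dPsi_ge hw) hη.le

theorem est_point {ε : ℝ} (hε : 0 < ε) : ∃ c : ℝ, 0 < c ∧ ∃ p₀ : ℕ, ∀ n : ℕ, p₀ ≤ n →
    ∀ w : ℂ, ‖w‖ < 1 → 0 ≤ w.im →
    ((n : ℝ) + 1) ^ 2 * (‖w‖ ^ 2) ^ n ≤
      (1 + ε) * (π / 4) * (n + 1) * ((n + 1) * (‖w‖ ^ 2) ^ n * (2 * (kap * (Aw w).im))) +
        π / 4 * (n + 1) * ε * (Real.exp (-(c * n / 2) * w.im) * (c * n / 2 * (dPsi w).re)) := by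
  have hπ := Real.pi_pos
  have hk := kap_pos
  have hY0 : 0 < π / (4 * (1 + ε)) := by positivity
  have hY1 : π / (4 * (1 + ε)) < π / 4 :=
    div_lt_div_of_pos_left hπ (by norm_num) (by linarith)
  have htan : 0 < Real.tan (2 * (π / (4 * (1 + ε)))) :=
    Real.tan_pos_of_pos_of_lt_pi_div_two (by positivity) (by linarith)
  obtain ⟨c, hcdef⟩ : ∃ c : ℝ, c = 2 / Real.tan (2 * (π / (4 * (1 + ε)))) := ⟨_, rfl⟩
  have hc : 0 < c := by rw [hcdef]; positivity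
  obtain ⟨p₀, hp₀⟩ := est_key hc (η := π * ε * c / 16) (by positivity)
  refine ⟨c, hc, max p₀ 1, fun n hn w hw hv => ?_⟩
  have hD : 0 ≤ (dPsi w).re := le_trans (by positivity) (re_dPsi_ge hw)
  have hY := Aw_im_nonneg hw hv
  by_cases hcase : (Aw w).im < π / (4 * (1 + ε))
  · refine le_add_of_nonneg_of_le (by positivity) ?_
    have h1 := Aw_im_small hw hY0 hY1 hcase
    have h2 : c * w.im ≤ 1 - ‖w‖ ^ 2 := by
      rw [hcdef, div_mul_eq_mul_div, div_le_iff₀ htan]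
      linarith
    have h3 := hp₀ n (le_of_max_le_left hn) w hw hv h2
    have h4 : ‖w‖ ^ 2 ≤ Real.exp (-(c / 2) * w.im) ^ 2 := by
      rw [← Real.exp_nat_mul]
      have := Real.add_one_le_exp ((2 : ℕ) * (-(c / 2) * w.im))
      push_cast at this ⊢
      linarith
    have h5 : ‖w‖ ≤ Real.exp (-(c / 2) * w.im) :=
      (pow_le_pow_iff_left₀ (norm_nonneg _) (Real.exp_pos _).le two_ne_zero).1 h4
    have h6 : ‖w‖ ^ n ≤ Real.exp (-(c * n / 2) * w.im) := by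
      refine (pow_le_pow_left₀ (norm_nonneg _) h5 n).trans (le_of_eq ?_)
      rw [← Real.exp_nat_mul]
      congr 1
      ring
    have hn1 : (1 : ℝ) ≤ n := by exact_mod_cast le_of_max_le_right hn
    have h7 : (‖w‖ ^ 2) ^ n ≤ Real.exp (-(c * n / 2) * w.im) * (π * ε * c / 16 * (dPsi w).re) := by
      rw [← pow_mul, two_mul, pow_add]
      exact mul_le_mul h6 h3 (by positivity) (Real.exp_pos _).le
    have h8 : ((n : ℝ) + 1) ^ 2 ≤ (n + 1) * (2 * n) := by nlinarith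
    calc ((n : ℝ) + 1) ^ 2 * (‖w‖ ^ 2) ^ n
        ≤ ((n + 1) * (2 * n)) *
          (Real.exp (-(c * n / 2) * w.im) * (π * ε * c / 16 * (dPsi w).re)) :=
          mul_le_mul h8 h7 (by positivity) (by positivity)
      _ = _ := by ring
  · refine le_add_of_le_of_nonneg ?_ (by positivity)
    rw [not_lt, div_le_iff₀ (by positivity)] at hcase
    have h1 : 1 ≤ (1 + ε) * (π / 4) * (2 * (kap * (Aw w).im)) := by
      have h2 : (1 + ε) * (π / 4) * (2 * (kap * (Aw w).im)) = (Aw w).im * (4 * (1 + ε)) / π := by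
        unfold kap
        field_simp
        ring
      rw [h2, le_div_iff₀ hπ]
      linarith
    calc ((n : ℝ) + 1) ^ 2 * (‖w‖ ^ 2) ^ n = ((n : ℝ) + 1) ^ 2 * (‖w‖ ^ 2) ^ n * 1 := by ring
      _ ≤ ((n : ℝ) + 1) ^ 2 * (‖w‖ ^ 2) ^ n * ((1 + ε) * (π / 4) * (2 * (kap * (Aw w).im))) :=
          mul_le_mul_of_nonneg_left h1 (by positivity)
      _ = _ := by ring

theorem est_mem {s t : ℝ} (hs : |s| < 1) (ht : |t| < phi s) :
    (s : ℂ) + (t : ℂ) * Complex.I ∈ dom phi := by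
  constructor <;> simpa

theorem est_dPsi_ne {w : ℂ} (hw : ‖w‖ < 1) : dPsi w ≠ 0 := by
  intro h0
  have h1 := re_dPsi_ge hw
  have h2 := kap_pos
  rw [h0, Complex.zero_re] at h1
  linarith

section line

variable {Φ : ℂ → ℂ} (h : IsInv Φ) {s : ℝ} (hs : |s| < 1)
include h hs

theorem est_hasDerivAt {t : ℝ} (ht : |t| < phi s) :
    HasDerivAt (fun τ : ℝ => Φ ((s : ℂ) + (τ : ℂ) * Complex.I))
      ((dPsi (Φ ((s : ℂ) + (t : ℂ) * Complex.I)))⁻¹ * Complex.I) t := by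
  have h1 : HasDerivAt (fun z : ℂ => (s : ℂ) + z * Complex.I) Complex.I (t : ℂ) := by
    simpa using ((hasDerivAt_id (t : ℂ)).mul_const Complex.I).const_add (s : ℂ)
  exact ((h.hasDeriv _ (est_mem hs ht)).comp (t : ℂ) h1).comp_ofReal

theorem est_deriv (n : ℕ) {t : ℝ} (ht : |t| < phi s) :
    ‖deriv (fun z => Φ z ^ (n + 1)) ((s : ℂ) + (t : ℂ) * Complex.I)‖ ^ 2 =
      ((n : ℝ) + 1) ^ 2 * (‖Φ ((s : ℂ) + (t : ℂ) * Complex.I)‖ ^ 2) ^ n *
        (‖dPsi (Φ ((s : ℂ) + (t : ℂ) * Complex.I))‖ ^ 2)⁻¹ := by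
  have h1 := ((h.hasDeriv _ (est_mem hs ht)).fun_pow (n + 1)).deriv
  have h2 : ‖((n + 1 : ℕ) : ℂ)‖ = (n : ℝ) + 1 := by rw [Complex.norm_natCast]; push_cast; rfl
  rw [h1, norm_mul, norm_mul, norm_pow, norm_inv, h2, Nat.add_sub_cancel]
  ring

theorem est_cont (n : ℕ) : ContinuousOn (fun t : ℝ =>
    ‖deriv (fun z => Φ z ^ (n + 1)) ((s : ℂ) + (t : ℂ) * Complex.I)‖ ^ 2) {t | |t| < phi s} := by
  have h1 : ContinuousOn (fun τ : ℝ => Φ ((s : ℂ) + (τ : ℂ) * Complex.I)) {t | |t| < phi s} :=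
    fun t ht => (est_hasDerivAt h hs ht).continuousAt.continuousWithinAt
  have h2 : ContinuousOn (fun τ : ℝ => dPsi (Φ ((s : ℂ) + (τ : ℂ) * Complex.I)))
      {t | |t| < phi s} :=
    continuousOn_dPsi.comp h1 fun t ht => mem_ball_zero_iff.2 (h.lt_one _ (est_mem hs ht))
  refine ContinuousOn.congr ?_ fun t ht => est_deriv h hs n ht
  exact (continuousOn_const.mul ((h1.norm.pow 2).pow n)).mul ((h2.norm.pow 2).inv₀ fun t ht =>
    pow_ne_zero _ (norm_ne_zero_iff.2 (est_dPsi_ne (h.lt_one _ (est_mem hs ht)))))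

theorem est_pos (n : ℕ) {t : ℝ} (ht : |t| < phi s) (ht0 : t ≠ 0) :
    0 < ‖deriv (fun z => Φ z ^ (n + 1)) ((s : ℂ) + (t : ℂ) * Complex.I)‖ ^ 2 := by
  have h1 : Φ ((s : ℂ) + (t : ℂ) * Complex.I) ≠ 0 := by
    intro h0
    have h2 := h.right _ (est_mem hs ht)
    rw [h0, Psi_zero] at h2
    exact ht0 (by simpa using congrArg Complex.im h2.symm)
  have h2 := est_dPsi_ne (h.lt_one _ (est_mem hs ht))
  rw [est_deriv h hs n ht]
  positivity

theorem est_conj {t : ℝ} (ht : |t| < phi s) :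
    Φ ((s : ℂ) + ((-t : ℝ) : ℂ) * Complex.I) = conj (Φ ((s : ℂ) + (t : ℂ) * Complex.I)) := by
  rw [← h.map_conj _ (est_mem hs ht)]
  congr 1
  simp

theorem est_even (n : ℕ) {t : ℝ} (ht : |t| < phi s) :
    ‖deriv (fun z => Φ z ^ (n + 1)) ((s : ℂ) + ((-t : ℝ) : ℂ) * Complex.I)‖ ^ 2 =
      ‖deriv (fun z => Φ z ^ (n + 1)) ((s : ℂ) + (t : ℂ) * Complex.I)‖ ^ 2 := by
  rw [est_deriv h hs n ht, est_deriv h hs n (by rwa [abs_neg]), est_conj h hs ht, dPsi_conj,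
    Complex.norm_conj, Complex.norm_conj]

theorem est_comp {ε c : ℝ} (hε : 0 < ε) (hc : 0 < c) {n : ℕ}
    (hn : ∀ w : ℂ, ‖w‖ < 1 → 0 ≤ w.im → ((n : ℝ) + 1) ^ 2 * (‖w‖ ^ 2) ^ n ≤
      (1 + ε) * (π / 4) * (n + 1) * ((n + 1) * (‖w‖ ^ 2) ^ n * (2 * (kap * (Aw w).im))) +
        π / 4 * (n + 1) * ε * (Real.exp (-(c * n / 2) * w.im) * (c * n / 2 * (dPsi w).re)))
    {B : ℝ → ℝ} (hB0 : B 0 = 0) (hB : ∀ t : ℝ, |t| < phi s → HasDerivAt B
      (‖deriv (fun z => Φ z ^ (n + 1)) ((s : ℂ) + (t : ℂ) * Complex.I)‖ ^ 2) t)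
    {T : ℝ} (hT0 : 0 ≤ T) (hT : |T| < phi s) :
    B T ≤ π / 4 * ((n + 1 : ℕ) : ℝ) *
      ((1 + ε) * ‖Φ ((s : ℂ) + (T : ℂ) * Complex.I) ^ (n + 1)‖ ^ 2 + ε) := by
  have hπ := Real.pi_pos
  have hin : ∀ t ∈ Icc 0 T, |t| < phi s := fun t ht => by
    rw [abs_of_nonneg ht.1]
    exact ht.2.trans_lt ((le_abs_self T).trans_lt hT)
  obtain ⟨W, hW⟩ : ∃ W : ℝ → ℂ, W = fun τ : ℝ => Φ ((s : ℂ) + (τ : ℂ) * Complex.I) := ⟨_, rfl⟩
  have hW' : ∀ τ : ℝ, Φ ((s : ℂ) + (τ : ℂ) * Complex.I) = W τ := fun τ => by rw [hW]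
  have hW1 : ∀ t ∈ Icc 0 T, ‖W t‖ < 1 := fun t ht =>
    hW' t ▸ h.lt_one _ (est_mem hs (hin t ht))
  have hW2 : ∀ t ∈ Icc 0 T, 0 ≤ (W t).im := fun t ht =>
    hW' t ▸ h.im_nonneg _ (est_mem hs (hin t ht)) (by simpa using ht.1)
  have hd : ∀ t ∈ Icc 0 T, ∃ d : ℝ, 0 ≤ d ∧ HasDerivAt (fun τ : ℝ =>
      (1 + ε) * (π / 4) * (n + 1) * (‖W τ‖ ^ 2) ^ (n + 1) -
        π / 4 * (n + 1) * ε * Real.exp (-(c * n / 2) * (W τ).im) - B τ) d t := by
    intro t ht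
    have h1 : HasDerivAt W ((dPsi (W t))⁻¹ * Complex.I) t := by
      have := est_hasDerivAt h hs (hin t ht)
      rwa [← hW, hW'] at this
    have h2 := (h1.norm_sq.fun_pow (n + 1)).const_mul ((1 + ε) * (π / 4) * (n + 1))
    have h3 : HasDerivAt (fun τ => (W τ).im) ((dPsi (W t))⁻¹ * Complex.I).im t :=
      Complex.imCLM.hasFDerivAt.comp_hasDerivAt t h1
    have h4 := ((h3.const_mul (-(c * n / 2))).exp).const_mul (π / 4 * (n + 1) * ε)
    refine ⟨_, ?_, (h2.fun_sub h4).fun_sub (hB t (hin t ht))⟩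
    have h5 : ((dPsi (W t))⁻¹ * Complex.I).im = (dPsi (W t)).re * (‖dPsi (W t)‖ ^ 2)⁻¹ := by
      rw [Complex.mul_I_im, Complex.inv_re, Complex.sq_norm, div_eq_mul_inv]
    have h6 : inner ℝ (W t) ((dPsi (W t))⁻¹ * Complex.I) =
        kap * (Aw (W t)).im * (‖dPsi (W t)‖ ^ 2)⁻¹ := by
      have h7 := congrArg Complex.im (mul_dPsi (hW1 t ht))
      rw [Complex.im_ofReal_mul] at h7
      rw [← h7, Complex.inner, Complex.sq_norm]
      simp only [Complex.mul_re, Complex.mul_im, Complex.I_re, Complex.I_im, Complex.inv_re,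
        Complex.inv_im, Complex.conj_re, Complex.conj_im]
      ring
    rw [est_deriv h hs n (hin t ht), hW', h5, h6, Nat.add_sub_cancel]
    have h8 := mul_le_mul_of_nonneg_right (hn (W t) (hW1 t ht) (hW2 t ht))
      (show 0 ≤ (‖dPsi (W t)‖ ^ 2)⁻¹ by positivity)
    push_cast
    linarith
  have hmono := monotoneOn_of_deriv_nonneg (convex_Icc 0 T)
    (fun t ht => (hd t ht).choose_spec.2.continuousAt.continuousWithinAt)
    (fun t ht =>
      (hd t (interior_subset ht)).choose_spec.2.differentiableAt.differentiableWithinAt)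
    (fun t ht => by
      rw [(hd t (interior_subset ht)).choose_spec.2.deriv]
      exact (hd t (interior_subset ht)).choose_spec.1)
  have h9 := hmono (left_mem_Icc.2 hT0) (right_mem_Icc.2 hT0) hT0
  simp only [hB0] at h9
  have h10 : Real.exp (-(c * n / 2) * (W 0).im) ≤ 1 := by
    rw [Real.exp_le_one_iff]
    have := hW2 0 (left_mem_Icc.2 hT0)
    have h11 : 0 ≤ c * n / 2 * (W 0).im := by positivity
    linarith
  have h12 : π / 4 * (n + 1) * ε * Real.exp (-(c * n / 2) * (W 0).im) ≤ π / 4 * (n + 1) * ε * 1 :=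
    mul_le_mul_of_nonneg_left h10 (by positivity)
  have h13 : 0 ≤ π / 4 * (n + 1) * ε * Real.exp (-(c * n / 2) * (W T).im) := by positivity
  have h14 : 0 ≤ (1 + ε) * (π / 4) * (n + 1) * (‖W 0‖ ^ 2) ^ (n + 1) := by positivity
  have h15 : ‖W T ^ (n + 1)‖ ^ 2 = (‖W T‖ ^ 2) ^ (n + 1) := by rw [norm_pow]; ring
  rw [hW', h15]
  push_cast
  linarith

end line

theorem est_of_isInv {Φ : ℂ → ℂ} (h : IsInv Φ) : EstProp phi Φ := by
  intro ε hε
  obtain ⟨c, hc, p₀, hp₀⟩ := est_point hε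
  refine ⟨p₀ + 1, fun p hp => ?_⟩
  obtain ⟨n, rfl⟩ : ∃ n, p = n + 1 := ⟨p - 1, by omega⟩
  refine ⟨fun s t => ∫ τ in (0 : ℝ)..t,
    ‖deriv (fun z => Φ z ^ (n + 1)) ((s : ℂ) + (τ : ℂ) * Complex.I)‖ ^ 2, fun s hs => ?_⟩
  have hcont := est_cont h hs n
  have hopen : IsOpen {t : ℝ | |t| < phi s} := isOpen_lt continuous_abs continuous_const
  have hsub : ∀ x y : ℝ, |x| < phi s → |y| < phi s → uIcc x y ⊆ {t : ℝ | |t| < phi s} := by
    intro x y hx hy t ht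
    rw [abs_lt] at hx hy
    change |t| < phi s
    rcases mem_uIcc.1 ht with h1 | h1 <;>
      exact abs_lt.2 ⟨by linarith [h1.1, hx.1, hy.1], by linarith [h1.2, hx.2, hy.2]⟩
  have hzero : ∀ x : ℝ, |x| < phi s → |(0 : ℝ)| < phi s := fun x hx => by
    rw [abs_zero]; exact (abs_nonneg x).trans_lt hx
  have hint : ∀ x y : ℝ, |x| < phi s → |y| < phi s → IntervalIntegrable (fun t : ℝ =>
      ‖deriv (fun z => Φ z ^ (n + 1)) ((s : ℂ) + (t : ℂ) * Complex.I)‖ ^ 2) volume x y :=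
    fun x y hx hy => (hcont.mono (hsub x y hx hy)).intervalIntegrable
  obtain ⟨B, hB⟩ : ∃ B : ℝ → ℝ, B = fun t => ∫ τ in (0 : ℝ)..t,
    ‖deriv (fun z => Φ z ^ (n + 1)) ((s : ℂ) + (τ : ℂ) * Complex.I)‖ ^ 2 := ⟨_, rfl⟩
  have hB0 : B 0 = 0 := by rw [hB]; exact intervalIntegral.integral_same
  have hB1 : ∀ t : ℝ, |t| < phi s → HasDerivAt B
      (‖deriv (fun z => Φ z ^ (n + 1)) ((s : ℂ) + (t : ℂ) * Complex.I)‖ ^ 2) t := by
    intro t ht
    rw [hB]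
    exact intervalIntegral.integral_hasDerivAt_right (hint 0 t (hzero t ht) ht)
      (hcont.stronglyMeasurableAtFilter hopen t ht) (hcont.continuousAt (hopen.mem_nhds ht))
  have hB2 : StrictMonoOn B {t : ℝ | |t| < phi s} := by
    intro x hx y hy hxy
    have h1 := intervalIntegral.integral_interval_sub_left (hint 0 y (hzero y hy) hy)
      (hint 0 x (hzero x hx) hx)
    have h2 : Icc x y ⊆ {t : ℝ | |t| < phi s} := Icc_subset_uIcc.trans (hsub x y hx hy)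
    have h3 := intervalIntegral.integral_pos hxy (hcont.mono h2) (fun t _ => by positivity) (by
      by_cases h0 : x = 0
      · exact ⟨y, right_mem_Icc.2 hxy.le, est_pos h hs n hy (by rw [← h0]; exact hxy.ne')⟩
      · exact ⟨x, left_mem_Icc.2 hxy.le, est_pos h hs n hx h0⟩)
    rw [← h1] at h3
    rw [hB]
    exact sub_pos.1 h3
  have hB' : (fun (s : ℝ) (t : ℝ) => ∫ τ in (0 : ℝ)..t,
    ‖deriv (fun z => Φ z ^ (n + 1)) ((s : ℂ) + (τ : ℂ) * Complex.I)‖ ^ 2) s = B := hB.symm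
  rw [hB']
  refine ⟨hB0, hB2, fun t ht => ⟨hB1 t ht, ?_⟩⟩
  have hn := hp₀ n (by omega)
  rcases le_total 0 t with ht0 | ht0
  · rw [abs_of_nonneg (hB0 ▸ hB2.monotoneOn (hzero t ht) ht ht0)]
    exact est_comp h hs hε hc hn hB0 hB1 ht0 ht
  · rw [abs_of_nonpos (hB0 ▸ hB2.monotoneOn ht (hzero t ht) ht0)]
    have h1 := est_comp h hs hε hc hn (B := fun τ => -B (-τ)) (by simp [hB0]) (fun τ hτ => by
      have h2 := ((hB1 (-τ) (by rwa [abs_neg])).comp τ (hasDerivAt_neg τ)).fun_neg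
      rw [est_even h hs n hτ] at h2
      simpa using h2) (T := -t) (by linarith) (by rwa [abs_neg])
    rw [est_conj h hs ht, ← map_pow, Complex.norm_conj] at h1
    simpa only [neg_neg] using h1

end Vale.Agent.P248
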