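import Vale.Agent.P248.Basic

/-!
TASK P248-Mat (second file).  A Fubini-Study type integral over ℂⁿ = ℝⁿ × ℝⁿ.
1/(S+1)^(n+1) = (1/n!) ∫_{t>0} tⁿ exp(-t (S+1)) dt (Real.integral_rpow_mul_exp_neg_mul_Ioi or Gamma integral).
Tonelli; the z-integral factorises (volume_measurePreserving_arrowProdEquivProdArrow or
MeasurableEquiv.arrowProdEquivProdArrow, lintegral_fintype_prod / MeasureTheory.lintegral_fin_nat_prod ...,
or go through Bochner integral_fintype_prod_eq_prod) into n copies of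
∫_{ℝ²} q² |ζ|^(2q-2) exp(-t |ζ|^(2q)) = 2π ∫_{r>0} q² r^(2q-1) exp(-t r^(2q)) dr = π q/t
(lintegral_comp_polarCoord_symm / integral_comp_polarCoord_symm, or integral_fun_norm_addHaar on ℂ).
Then (1/n!) ∫ tⁿ exp(-t) (π q/t)ⁿ dt = (π q)ⁿ/n!.
-/

open MeasureTheory Filter Topology Set
open scoped Real ComplexConjugate

namespace Vale.Agent.P248

namespace FSAux

theorem ofReal_integral_le {X : Type} [MeasurableSpace X] (μ : Measure X) {f : X → ℝ}
    (hf : ∀ x, 0 ≤ f x) : ENNReal.ofReal (∫ x, f x ∂μ) ≤ ∫⁻ x, ENNReal.ofReal (f x) ∂μ := by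
  by_cases h : Integrable f μ
  · exact (ofReal_integral_eq_lintegral_ofReal h (Eventually.of_forall hf)).le
  · rw [integral_undef h, ENNReal.ofReal_zero]
    exact zero_le

/-- the one-variable factor -/
noncomputable def g (q : ℕ) (t : ℝ) (w : ℂ) : ℝ :=
  ‖(q : ℂ) * w ^ (q - 1)‖ ^ 2 * Real.exp (-t * ‖w ^ q‖ ^ 2)

theorem g_nonneg (q : ℕ) (t : ℝ) (w : ℂ) : 0 ≤ g q t w := by
  unfold g; positivity

theorem integral_g {q : ℕ} (hq : 1 ≤ q) {t : ℝ} (ht : 0 < t) : ∫ w, g q t w = π * q / t := by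
  obtain ⟨m, rfl⟩ : ∃ m, q = m + 1 := ⟨q - 1, by omega⟩
  have h := Complex.integral_rpow_mul_exp_neg_mul_rpow (p := ((2 * (m + 1) : ℕ) : ℝ))
    (q := ((2 * m : ℕ) : ℝ)) (b := t) (by exact_mod_cast (by omega : 1 ≤ 2 * (m + 1)))
    (lt_of_lt_of_le (by norm_num) (Nat.cast_nonneg _)) ht
  have hm : (0 : ℝ) < m + 1 := by positivity
  have e1 : (((2 * m : ℕ) : ℝ) + 2) / ((2 * (m + 1) : ℕ) : ℝ) = 1 := by
    push_cast; field_simp
  have e2 : -(((2 * m : ℕ) : ℝ) + 2) / ((2 * (m + 1) : ℕ) : ℝ) = -1 := by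
    rw [neg_div, e1]
  rw [e1, e2, Real.Gamma_one, Real.rpow_neg_one] at h
  simp only [Real.rpow_natCast] at h
  have e3 : ∀ w : ℂ, g (m + 1) t w =
      ((m : ℝ) + 1) ^ 2 * (‖w‖ ^ (2 * m) * Real.exp (-t * ‖w‖ ^ (2 * (m + 1)))) := by
    intro w
    simp only [g, Nat.add_sub_cancel, norm_mul, norm_pow, Complex.norm_natCast, mul_pow,
      ← pow_mul']
    push_cast
    ring
  simp only [e3]
  rw [integral_const_mul, h]
  push_cast
  field_simp

theorem integral_prod_g {n q : ℕ} (hq : 1 ≤ q) {t : ℝ} (ht : 0 < t) :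
    ∫ z : (Fin n → ℝ) × (Fin n → ℝ), ∏ k, g q t ((z.1 k : ℂ) + (z.2 k : ℂ) * Complex.I) =
      (π * q / t) ^ n := by
  rw [← (volume_measurePreserving_arrowProdEquivProdArrow ℝ ℝ (Fin n)).integral_comp']
  have h1 := integral_fintype_prod_volume_eq_pow (ι := Fin n)
    (fun p : ℝ × ℝ => g q t ((p.1 : ℂ) + (p.2 : ℂ) * Complex.I))
  have h2 : ∫ p : ℝ × ℝ, g q t ((p.1 : ℂ) + (p.2 : ℂ) * Complex.I) = π * q / t := by
    rw [← Complex.volume_preserving_equiv_real_prod.integral_comp', ← integral_g hq ht]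
    simp
  rw [h2, Fintype.card_fin] at h1
  exact h1

theorem gamma_int (n : ℕ) {P s : ℝ} (hP : 0 ≤ P) (hs : 0 < s) :
    ENNReal.ofReal (P / s ^ (n + 1)) =
      ∫⁻ t in Ioi (0 : ℝ), ENNReal.ofReal (P / n.factorial * (t ^ n * Real.exp (-(s * t)))) := by
  have h := Real.integral_rpow_mul_exp_neg_mul_Ioi (a := (n : ℝ) + 1) (r := s) (by positivity) hs
  rw [add_sub_cancel_right, Real.Gamma_nat_eq_factorial, ← Nat.cast_succ] at h
  simp only [Real.rpow_natCast] at h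
  have hf : (0 : ℝ) < n.factorial := by exact_mod_cast n.factorial_pos
  have hi : IntegrableOn (fun t : ℝ => t ^ n * Real.exp (-(s * t))) (Ioi 0) :=
    Integrable.of_integral_ne_zero (by rw [h]; positivity)
  rw [← ofReal_integral_eq_lintegral_ofReal (hi.const_mul _), integral_const_mul, h]
  · congr 1
    rw [Nat.succ_eq_add_one, one_div, inv_pow]
    field_simp
  · filter_upwards [ae_restrict_mem measurableSet_Ioi] with t ht
    have : 0 < t := ht
    positivity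

end FSAux

open FSAux in
theorem lintegral_FS {n q : ℕ} (hq : 1 ≤ q) :
    ENNReal.ofReal ((π * q) ^ n / n.factorial) ≤
      ∫⁻ z : (Fin n → ℝ) × (Fin n → ℝ), ENNReal.ofReal
        ((∏ k, ‖(q : ℂ) * ((z.1 k : ℂ) + (z.2 k : ℂ) * Complex.I) ^ (q - 1)‖ ^ 2) /
          (∑ k, ‖((z.1 k : ℂ) + (z.2 k : ℂ) * Complex.I) ^ q‖ ^ 2 + 1) ^ (n + 1)) := by
  have hf : (0 : ℝ) < n.factorial := by exact_mod_cast n.factorial_pos
  have h1 : ∀ z : (Fin n → ℝ) × (Fin n → ℝ), ENNReal.ofReal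
      ((∏ k, ‖(q : ℂ) * ((z.1 k : ℂ) + (z.2 k : ℂ) * Complex.I) ^ (q - 1)‖ ^ 2) /
        (∑ k, ‖((z.1 k : ℂ) + (z.2 k : ℂ) * Complex.I) ^ q‖ ^ 2 + 1) ^ (n + 1)) =
      ∫⁻ t in Ioi (0 : ℝ), ENNReal.ofReal (t ^ n * Real.exp (-t) / n.factorial *
        ∏ k, g q t ((z.1 k : ℂ) + (z.2 k : ℂ) * Complex.I)) := by
    intro z
    rw [gamma_int n (by positivity) (by positivity)]
    refine lintegral_congr fun t => ?_
    congr 1
    simp only [g, Finset.prod_mul_distrib, ← Real.exp_sum, ← Finset.mul_sum]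
    rw [add_mul, one_mul, neg_add, Real.exp_add, neg_mul, mul_comm t]
    ring
  simp only [h1]
  rw [lintegral_lintegral_swap]
  swap
  · refine (ENNReal.continuous_ofReal.comp ?_).measurable.aemeasurable
    simp only [g]
    fun_prop
  have h2 := gamma_int 0 (P := (π * q) ^ n / n.factorial) (s := 1) (by positivity) one_pos
  simp only [one_pow, div_one, Nat.factorial_zero, Nat.cast_one, pow_zero, one_mul] at h2
  rw [h2]
  refine setLIntegral_mono' measurableSet_Ioi fun t ht => ?_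
  have ht' : 0 < t := ht
  refine le_trans (le_of_eq ?_) (ofReal_integral_le _ fun z =>
    mul_nonneg (by positivity) (Finset.prod_nonneg fun k _ => g_nonneg _ _ _))
  rw [integral_const_mul, integral_prod_g hq ht', div_pow]
  congr 1
  field_simp

end Vale.Agent.P248
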