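import Vale.Agent.P248.Psi
import Vale.Agent.P248.Asym

/-!
TASK P248-Image.  Psi maps the unit disc bijectively onto dom phi; the inverse map.
Use only the statements of Psi.lean and Asym.lean.
Hints.
* injOn_Psi: for w₁ ≠ w₂, t ↦ Re(conj(w₂-w₁) Psi(w₁ + t (w₂-w₁))) has derivative |w₂-w₁|² Re dPsi > 0.
* v ↦ Im Psi(u + i v) has derivative Re dPsi > 0 and vanishes at v = 0 (Psi_conj).  This gives the sign
  of Im (im_nonneg) and, with continuity up to the circle (strictMonoOn_of_deriv_pos on [0, v₀]) and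
  Psi_circle at θ = π(1-s)/2 ∈ (0,π), phi_pos.
* Psi '' circle = {ζ : |re ζ| ≤ 1, |im ζ| = phi (re ζ)} (only ⊆ is needed: every point of the circle is
  exp(iθ) or its conjugate with θ ∈ [0,π]; Complex.arg).
* G = Psi '' ball is open (HasStrictDerivAt.map_nhds_eq, dPsi ≠ 0; strict derivative from
  holomorphy, e.g. DifferentiableOn.analyticAt / ContDiffAt.hasStrictDerivAt'), C = Psi '' closedBall is
  compact, C ⊆ G ∪ Psi '' circle.
  G ⊆ dom: max of re on C is attained outside the open set G, so re ≤ 1 on C and < 1 on G; same for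
  -re (Psi_neg). For ζ₀ = s + i t₀ ∈ G the compact slice {t : s + i t ∈ C} has a max t* attained outside G,
  so t₀ < t* ≤ phi s; the lower bound by conjugation.
  dom ⊆ G: IsPreconnected.subset_of_closure_inter_subset applied first to the real segment (-1,1)
  (contains 0 = Psi 0) and then to the vertical segment {s + i t : |t| < phi s}; closure G ⊆ C and
  C ∩ dom ⊆ G.
* Φ := Function.invFunOn Psi (ball 0 1); derivative by HasStrictDerivAt.to_local_left_inverse.
  {ζ ∈ dom, ‖Φ ζ‖ ≤ r} = Psi '' closedBall 0 r.  Last clause: w ↦ phi(re Psi w) - |im Psi w| is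
  uniformly continuous on the closed disc and vanishes on the circle (compare w with w/‖w‖, δ < 1).
-/

open MeasureTheory Filter Topology Set
open scoped Real ComplexConjugate

namespace Vale.Agent.P248

namespace ImageAux

theorem hasDerivAt_line (w d : ℂ) (t : ℝ) (h : ‖w + t * d‖ < 1) :
    HasDerivAt (fun s : ℝ => Psi (w + s * d)) (dPsi (w + t * d) * d) t := by
  have h1 : HasDerivAt (fun z : ℂ => w + z * d) d (t : ℂ) := by
    simpa using ((hasDerivAt_id (t : ℂ)).mul_const d).const_add w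
  exact ((hasDerivAt_Psi h).comp (t : ℂ) h1).comp_ofReal

theorem re_dPsi_pos {w : ℂ} (hw : ‖w‖ < 1) : 0 < (dPsi w).re :=
  lt_of_lt_of_le (half_pos kap_pos) (re_dPsi_ge hw)

theorem dPsi_ne {w : ℂ} (hw : ‖w‖ < 1) : dPsi w ≠ 0 := fun h => by
  have := re_dPsi_pos hw
  rw [h] at this
  simp at this

theorem im_pos {w : ℂ} (hw : ‖w‖ ≤ 1) (h : 0 < w.im) : 0 < (Psi w).im := by
  have hn : ∀ t : ℝ, ‖(w.re : ℂ) + t * Complex.I‖ ^ 2 = w.re ^ 2 + t ^ 2 := fun t => by
    rw [← Complex.normSq_eq_norm_sq, Complex.normSq_add_mul_I]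
  have hw2 : w.re ^ 2 + w.im ^ 2 ≤ 1 := by
    rw [← hn, Complex.re_add_im]
    exact pow_le_one₀ (norm_nonneg _) hw
  have hc : ContinuousOn (fun t : ℝ => (Psi ((w.re : ℂ) + t * Complex.I)).im) (Icc 0 w.im) := by
    refine Complex.continuous_im.comp_continuousOn (continuousOn_Psi.comp (by fun_prop) ?_)
    intro t ht
    rw [mem_closedBall_zero_iff, ← sq_le_one_iff₀ (norm_nonneg _), hn]
    nlinarith [ht.1, ht.2]
  have hlt : ∀ t ∈ Ioo 0 w.im, ‖(w.re : ℂ) + t * Complex.I‖ < 1 := by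
    intro t ht
    rw [← sq_lt_one_iff₀ (norm_nonneg _), hn]
    nlinarith [ht.1, ht.2]
  obtain ⟨c, hc1, hc2⟩ := exists_hasDerivAt_eq_slope
    (fun t : ℝ => (Psi ((w.re : ℂ) + t * Complex.I)).im)
    (fun t => (dPsi ((w.re : ℂ) + t * Complex.I)).re) h hc fun t ht =>
      (Complex.imCLM.hasFDerivAt.comp_hasDerivAt t
        (hasDerivAt_line _ _ t (hlt t ht))).congr_deriv (by simp)
  have h0 : (Psi (w.re : ℂ)).im = 0 := by
    have := Psi_conj (w.re : ℂ)
    rw [Complex.conj_ofReal] at this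
    exact Complex.conj_eq_iff_im.1 this.symm
  have h3 := re_dPsi_pos (hlt c hc1)
  rw [hc2] at h3
  simp only [Complex.re_add_im, Complex.ofReal_zero, zero_mul, add_zero, h0, sub_zero] at h3
  exact (div_pos_iff_of_pos_right h).1 h3

theorem hasStrict {w : ℂ} (hw : ‖w‖ < 1) : HasStrictDerivAt Psi (dPsi w) w := by
  have hb : Metric.ball (0 : ℂ) 1 ∈ 𝓝 w := Metric.isOpen_ball.mem_nhds (by simpa using hw)
  refine hasStrictDerivAt_of_hasDerivAt_of_continuousAt ?_ (continuousOn_dPsi.continuousAt hb)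
  filter_upwards [hb] with z hz
  exact hasDerivAt_Psi (by simpa using hz)

theorem isOpen_G : IsOpen (Psi '' Metric.ball 0 1) := by
  rw [isOpen_iff_mem_nhds]
  rintro _ ⟨w, hw, rfl⟩
  have hw' : ‖w‖ < 1 := by simpa using hw
  rw [← (hasStrict hw').map_nhds_eq (dPsi_ne hw')]
  exact image_mem_map (Metric.isOpen_ball.mem_nhds hw)

theorem isCompact_C : IsCompact (Psi '' Metric.closedBall 0 1) :=
  (isCompact_closedBall 0 1).image_of_continuousOn continuousOn_Psi

/-- a path avoiding the image of the circle cannot leave the image of the disc -/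
theorem stay {γ : ℝ → ℂ} (hγ : Continuous γ) {s : Set ℝ} (hs : IsPreconnected s)
    (hav : ∀ t ∈ s, ∀ w, ‖w‖ = 1 → Psi w ≠ γ t) {t₀ : ℝ} (h0 : t₀ ∈ s)
    (hG : γ t₀ ∈ Psi '' Metric.ball 0 1) : ∀ t ∈ s, γ t ∈ Psi '' Metric.ball 0 1 := by
  have h := (hs.image γ hγ.continuousOn).subset_left_of_subset_union isOpen_G
    isCompact_C.isClosed.isOpen_compl
    (disjoint_compl_right.mono_left (image_mono Metric.ball_subset_closedBall)) ?_
    ⟨γ t₀, mem_image_of_mem _ h0, hG⟩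
  · exact fun t ht => h (mem_image_of_mem _ ht)
  · rintro _ ⟨t, ht, rfl⟩
    by_cases hC : γ t ∈ Psi '' Metric.closedBall 0 1
    · obtain ⟨w, hw, hw'⟩ := hC
      rcases (mem_closedBall_zero_iff.1 hw).lt_or_eq with h1 | h1
      · exact Or.inl ⟨w, by simpa using h1, hw'⟩
      · exact absurd hw' (hav t ht w h1)
    · exact Or.inr hC

theorem exit {ζ : ℂ} (hζ : ζ ∈ Psi '' Metric.ball 0 1) {d : ℂ} (hd : ‖d‖ = 1) :
    ∃ t : ℝ, 0 ≤ t ∧ ∃ w, ‖w‖ = 1 ∧ Psi w = ζ + t * d := by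
  by_contra hcon
  push Not at hcon
  have h := stay (γ := fun t : ℝ => ζ + t * d) (by fun_prop) isPreconnected_Ici
    (fun t ht w hw => hcon t ht w hw) (self_mem_Ici (a := (0 : ℝ))) (by simpa using hζ)
  obtain ⟨R, hR⟩ := isCompact_C.isBounded.exists_norm_le
  have h1 := hR _ (image_mono Metric.ball_subset_closedBall hζ)
  have hR0 : 0 ≤ R := (norm_nonneg _).trans h1
  have h2 := hR _ (image_mono Metric.ball_subset_closedBall
    (h (2 * R + 1) (by simp only [mem_Ici]; linarith)))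
  have h3 := norm_sub_le (ζ + ((2 * R + 1 : ℝ) : ℂ) * d) ζ
  rw [add_sub_cancel_left, norm_mul, hd, Complex.norm_real, Real.norm_of_nonneg (by linarith)]
    at h3
  linarith

end ImageAux

open ImageAux

theorem injOn_Psi : InjOn Psi (Metric.ball 0 1) := by
  intro w₁ h₁ w₂ h₂ heq
  by_contra hne
  have hd : w₂ - w₁ ≠ 0 := sub_ne_zero.2 (Ne.symm hne)
  have hlt : ∀ t ∈ Icc (0 : ℝ) 1, ‖w₁ + t * (w₂ - w₁)‖ < 1 := by
    intro t ht
    have := (convex_ball (0 : ℂ) 1).add_smul_sub_mem h₁ h₂ ht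
    simpa using this
  have hder : ∀ t ∈ Icc (0 : ℝ) 1, HasDerivAt
      (fun s : ℝ => (conj (w₂ - w₁) * Psi (w₁ + s * (w₂ - w₁))).re)
      (‖w₂ - w₁‖ ^ 2 * (dPsi (w₁ + t * (w₂ - w₁))).re) t := by
    intro t ht
    have h := Complex.reCLM.hasFDerivAt.comp_hasDerivAt t
      ((hasDerivAt_line _ _ t (hlt t ht)).const_mul (conj (w₂ - w₁)))
    refine h.congr_deriv ?_
    rw [Complex.reCLM_apply, mul_left_comm, Complex.conj_mul', ← Complex.ofReal_pow,
      Complex.re_mul_ofReal, mul_comm]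
  obtain ⟨c, hc1, hc2⟩ := exists_hasDerivAt_eq_zero one_pos
    (fun t ht => (hder t ht).continuousAt.continuousWithinAt) (by simp [heq])
    fun t ht => hder t (Ioo_subset_Icc_self ht)
  have h3 := re_dPsi_pos (hlt c (Ioo_subset_Icc_self hc1))
  have h4 : 0 < ‖w₂ - w₁‖ := norm_pos_iff.2 hd
  have h5 : 0 < ‖w₂ - w₁‖ ^ 2 * (dPsi (w₁ + c * (w₂ - w₁))).re := by positivity
  exact h5.ne' hc2

theorem phi_pos {s : ℝ} (hs : |s| < 1) : 0 < phi s := by
  obtain ⟨h1, h2⟩ := abs_lt.1 hs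
  have h0 : 0 < π * (1 - s) / 2 := by
    have := Real.pi_pos
    have : 0 < 1 - s := by linarith
    positivity
  have hπ : π * (1 - s) / 2 < π := by nlinarith [Real.pi_pos]
  have h := im_pos (w := Complex.exp ((π * (1 - s) / 2 : ℝ) * Complex.I))
    (by rw [Complex.norm_exp_ofReal_mul_I]) (by
      rw [Complex.exp_ofReal_mul_I_im]; exact Real.sin_pos_of_pos_of_lt_pi h0 hπ)
  rw [Psi_circle h0.le hπ.le] at h
  simpa only [phi, Complex.add_im, Complex.ofReal_im, Complex.mul_im, Complex.ofReal_re, Complex.I_im,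
    Complex.I_re, mul_one, mul_zero, zero_add, add_zero] using h

namespace ImageAux

theorem phi_nonneg {s : ℝ} (hs : |s| ≤ 1) : 0 ≤ phi s := by
  rcases hs.lt_or_eq with h1 | h1
  · exact (phi_pos h1).le
  · rcases abs_eq (by norm_num : (0 : ℝ) ≤ 1) |>.1 h1 with h2 | h2
    · rw [h2, phi_one]
    · rw [h2, phi_even, phi_one]

theorem circle_up {w : ℂ} (hw : ‖w‖ = 1) (h : 0 ≤ w.im) :
    |(Psi w).re| ≤ 1 ∧ |(Psi w).im| = phi (Psi w).re := by
  have h0 : 0 ≤ w.arg := Complex.arg_nonneg_iff.2 h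
  have h1 := Complex.arg_le_pi w
  have h2 := Complex.norm_mul_exp_arg_mul_I w
  rw [hw, Complex.ofReal_one, one_mul] at h2
  have h3 := Psi_circle h0 h1
  rw [h2] at h3
  have hπ := Real.pi_pos
  have hre : (Psi w).re = 1 - 2 * w.arg / π := by
    rw [h3]
    simp only [Complex.add_re, Complex.ofReal_re, Complex.mul_re, Complex.I_re, Complex.ofReal_im,
      mul_zero, zero_mul, sub_zero, add_zero]
  have him : (Psi w).im = Tf w.arg := by
    rw [h3]
    simp only [Complex.add_im, Complex.ofReal_im, Complex.mul_im, Complex.ofReal_re, Complex.I_im,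
      mul_one, zero_mul, zero_add, add_zero]
  have h4 : 0 ≤ 2 * w.arg / π := by positivity
  have h5 : 2 * w.arg / π ≤ 2 := by rw [div_le_iff₀ hπ]; linarith
  have h6 : |(Psi w).re| ≤ 1 := by rw [hre, abs_le]; constructor <;> linarith
  have h7 : phi (Psi w).re = Tf w.arg := by
    rw [hre, phi]
    congr 1
    field_simp
    ring
  exact ⟨h6, by rw [him, ← h7, abs_of_nonneg (phi_nonneg h6)]⟩

theorem circle {w : ℂ} (hw : ‖w‖ = 1) :
    |(Psi w).re| ≤ 1 ∧ |(Psi w).im| = phi (Psi w).re := by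
  rcases le_total 0 w.im with h | h
  · exact circle_up hw h
  · have := circle_up (w := conj w) (by simpa using hw) (by simpa using h)
    simpa [Psi_conj] using this

theorem not_dom {w : ℂ} (hw : ‖w‖ = 1) : Psi w ∉ dom phi := fun h => h.2.ne (circle hw).2

end ImageAux

theorem image_Psi : Psi '' Metric.ball 0 1 = dom phi := by
  apply Subset.antisymm
  · intro ζ hζ
    obtain ⟨r, hr, hb⟩ := Metric.isOpen_iff.1 isOpen_G ζ hζ
    have key : ∀ d : ℂ, ‖d‖ = 1 → ∃ t : ℝ, 0 < t ∧ ∃ w, ‖w‖ = 1 ∧ Psi w = ζ + t * d := by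
      intro d hd
      have h1 : ζ + ((r / 2 : ℝ) : ℂ) * d ∈ Psi '' Metric.ball 0 1 := by
        refine hb ?_
        rw [Metric.mem_ball, dist_eq_norm, add_sub_cancel_left, norm_mul, hd, Complex.norm_real,
          Real.norm_of_nonneg (by linarith)]
        linarith
      obtain ⟨t, ht, w, hw, hw'⟩ := exit h1 hd
      refine ⟨r / 2 + t, by linarith, w, hw, ?_⟩
      rw [hw']
      push_cast
      ring
    obtain ⟨t1, ht1, w1, hw1, e1⟩ := key 1 (by simp)
    obtain ⟨t2, ht2, w2, hw2, e2⟩ := key (-1) (by simp)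
    obtain ⟨t3, ht3, w3, hw3, e3⟩ := key Complex.I (by simp)
    obtain ⟨t4, ht4, w4, hw4, e4⟩ := key (-Complex.I) (by simp)
    have c1 := abs_le.1 (circle hw1).1
    have c2 := abs_le.1 (circle hw2).1
    have c3 := abs_le.1 (circle hw3).2.le
    have c4 := abs_le.1 (circle hw4).2.le
    rw [e1] at c1
    rw [e2] at c2
    rw [e3] at c3
    rw [e4] at c4
    simp at c1 c2 c3 c4
    exact ⟨abs_lt.2 ⟨by linarith, by linarith⟩, abs_lt.2 ⟨by linarith, by linarith⟩⟩
  · intro ζ hζ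
    have h1 : ((ζ.re : ℝ) : ℂ) ∈ Psi '' Metric.ball 0 1 := by
      have := stay (γ := fun t : ℝ => (t : ℂ)) (by fun_prop) (isPreconnected_Ioo (a := -1) (b := 1))
        (fun t ht w hw h => not_dom hw (by
          rw [h]
          have ht' : |t| < 1 := abs_lt.2 ht
          exact ⟨by simpa using ht', by simpa using phi_pos ht'⟩))
        (t₀ := 0) (by simp) ⟨0, by simp, by simp [Psi_zero]⟩
      exact this _ (abs_lt.1 hζ.1)
    have h2 := stay (γ := fun t : ℝ => (ζ.re : ℂ) + t * Complex.I) (by fun_prop)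
      (isPreconnected_Ioo (a := -phi ζ.re) (b := phi ζ.re))
      (fun t ht w hw h => not_dom hw (by
        rw [h]
        exact ⟨by simpa using hζ.1, by simpa using abs_lt.2 ht⟩))
      (t₀ := 0) (by simpa using phi_pos hζ.1) (by simpa using h1) ζ.im (abs_lt.1 hζ.2)
    simpa using h2

theorem exists_isInv : ∃ Φ : ℂ → ℂ, IsInv Φ ∧ Φ 0 = 0 ∧
    (∀ r : ℝ, r < 1 → IsCompact {ζ | ζ ∈ dom phi ∧ ‖Φ ζ‖ ≤ r}) ∧
    (∀ ε : ℝ, 0 < ε → ∃ δ : ℝ, 0 < δ ∧
      ∀ ζ ∈ dom phi, 1 - δ ≤ ‖Φ ζ‖ → phi ζ.re - ε ≤ |ζ.im|) := by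
  set Φ := Function.invFunOn Psi (Metric.ball 0 1) with hΦ
  have hl : ∀ w, ‖w‖ < 1 → Φ (Psi w) = w := fun w hw =>
    injOn_Psi.leftInvOn_invFunOn (by simpa using hw)
  have hs : ∀ ζ ∈ dom phi, ∃ w, ‖w‖ < 1 ∧ Psi w = ζ := by
    intro ζ hζ
    rw [← image_Psi] at hζ
    obtain ⟨w, hw, h⟩ := hζ
    exact ⟨w, by simpa using hw, h⟩
  refine ⟨Φ, ⟨fun ζ hζ => ?_, fun ζ hζ => ?_, fun ζ hζ => ?_, fun ζ hζ => ?_, fun ζ hζ h => ?_⟩,
    ?_, fun r hr => ?_, fun ε hε => ?_⟩
  · obtain ⟨w, hw, rfl⟩ := hs ζ hζ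
    rwa [hl w hw]
  · obtain ⟨w, hw, rfl⟩ := hs ζ hζ
    rw [hl w hw]
  · obtain ⟨w, hw, rfl⟩ := hs ζ hζ
    rw [hl w hw]
    refine ((hasStrict hw).to_local_left_inverse (dPsi_ne hw) ?_).hasDerivAt
    filter_upwards [Metric.isOpen_ball.mem_nhds (mem_ball_zero_iff.2 hw)] with z hz
    exact hl z (by simpa using hz)
  · obtain ⟨w, hw, rfl⟩ := hs ζ hζ
    rw [hl w hw, ← Psi_conj, hl _ (by simpa using hw)]
  · obtain ⟨w, hw, rfl⟩ := hs ζ hζ
    rw [hl w hw]
    by_contra hcon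
    have := im_pos (w := conj w) (by simpa using hw.le) (by simpa using hcon)
    rw [Psi_conj, Complex.conj_im] at this
    linarith
  · have := hl 0 (by simp)
    rwa [Psi_zero] at this
  · have : {ζ | ζ ∈ dom phi ∧ ‖Φ ζ‖ ≤ r} = Psi '' Metric.closedBall 0 r := by
      ext ζ
      constructor
      · rintro ⟨hζ, h⟩
        obtain ⟨w, hw, rfl⟩ := hs ζ hζ
        rw [hl w hw] at h
        exact ⟨w, by simpa using h, rfl⟩
      · rintro ⟨w, hw, rfl⟩
        have hw' : ‖w‖ ≤ r := by simpa using hw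
        refine ⟨?_, by rwa [hl w (hw'.trans_lt hr)]⟩
        rw [← image_Psi]
        exact ⟨w, by simpa using hw'.trans_lt hr, rfl⟩
    rw [this]
    exact (isCompact_closedBall 0 r).image_of_continuousOn
      (continuousOn_Psi.mono (Metric.closedBall_subset_closedBall hr.le))
  · have hc : ContinuousOn (fun w => phi (Psi w).re - |(Psi w).im|) (Metric.closedBall 0 1) :=
      (continuous_phi.comp_continuousOn
        (Complex.continuous_re.comp_continuousOn continuousOn_Psi)).sub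
        (Complex.continuous_im.comp_continuousOn continuousOn_Psi).abs
    obtain ⟨δ, hδ, h⟩ := Metric.uniformContinuousOn_iff.1
      ((isCompact_closedBall 0 1).uniformContinuousOn_of_continuous hc) ε hε
    refine ⟨min (δ / 2) (1 / 2), by positivity, fun ζ hζ hn => ?_⟩
    obtain ⟨w, hw, rfl⟩ := hs ζ hζ
    rw [hl w hw] at hn
    have h1 := min_le_left (δ / 2) (1 / 2)
    have h2 := min_le_right (δ / 2) (1 / 2)
    have hw0 : 0 < ‖w‖ := by linarith
    have hu : ‖((‖w‖⁻¹ : ℝ) : ℂ) * w‖ = 1 := by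
      rw [norm_mul, Complex.norm_real, norm_inv, norm_norm, inv_mul_cancel₀ hw0.ne']
    have hdist : dist w (((‖w‖⁻¹ : ℝ) : ℂ) * w) < δ := by
      have e : w - ((‖w‖⁻¹ : ℝ) : ℂ) * w = ((‖w‖ - 1 : ℝ) : ℂ) * (((‖w‖⁻¹ : ℝ) : ℂ) * w) := by
        have : ((‖w‖ : ℝ) : ℂ) ≠ 0 := by exact_mod_cast hw0.ne'
        push_cast
        field_simp
      rw [dist_eq_norm, e, norm_mul, hu, mul_one, Complex.norm_real, Real.norm_eq_abs, abs_lt]
      constructor <;> linarith
    have h3 := h w (by simpa using hw.le) _ (mem_closedBall_zero_iff.2 hu.le) hdist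
    rw [(circle hu).2, sub_self, Real.dist_eq, sub_zero] at h3
    linarith [(abs_lt.1 h3).2]

end Vale.Agent.P248
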