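import Vale.Agent.P248.Image
import Vale.Agent.P248.Est

open MeasureTheory Filter Topology Set
open scoped Real ComplexConjugate

namespace Vale.Agent.P248

theorem exists_lens : ∃ (φ : ℝ → ℝ) (Φ : ℂ → ℂ), Lens φ Φ := by
  obtain ⟨Φ, h, h0, hp, hb⟩ := exists_isInv
  exact ⟨phi, Φ, ⟨continuous_phi, phi_even, phi_one, fun s hs => phi_pos hs, phi_sqrt, phi_ratio⟩,
    fun ζ hζ => (h.hasDeriv ζ hζ).differentiableAt.differentiableWithinAt, h0, h.lt_one, hp, hb,
    est_of_isInv h⟩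

end Vale.Agent.P248
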