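import Vale.Agent.P248.MassB
import Vale.Agent.P248.FS

/-! Lelong-type mass bound (helper74). -/

open MeasureTheory Filter Topology Set
open scoped Real ComplexConjugate Pointwise

namespace Vale.Agent.P248

variable {n : ℕ} {ι : Type} [Fintype ι]

noncomputable def dat (a : ι → Fin n → ℝ) {U : Set ℂ} (hU : IsOpen U) {Φ : ℂ → ℂ}
    (hΦ : DifferentiableOn ℂ Φ U) (q : ℕ) (σ : ℝ) : Data n (ι ⊕ Fin n) where
  a := Sum.elim a fun k => Pi.single k 1
  U := Sum.elim (fun _ => U) fun _ => univ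
  f := Sum.elim (fun _ w => Φ w ^ (q + 1)) fun _ w => σ * w ^ q
  isOpen := by
    rintro (l | l)
    · exact hU
    · exact isOpen_univ
  holo := by
    rintro (l | l)
    · exact hΦ.pow _
    · exact Differentiable.differentiableOn (by simp only [Sum.elim_inr]; fun_prop)

theorem zeta_single (k : Fin n) (z : EE n) :
    zeta (Pi.single k 1) z = (z.1 k : ℂ) + (z.2 k : ℂ) * Complex.I := by
  simp [zeta]

theorem Mm_sum_zero (α β : ℝ) (F G : Fin n → ℂ) (a : ι → Fin n → ℝ) (e : Fin n → Fin n → ℝ) :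
    Mm α β (Sum.elim (fun _ : ι => 0) F) (Sum.elim (fun _ : ι => 0) G) (Sum.elim a e) =
      Mm α β F G e := by
  ext j k
  simp [Mm, Hm, eta, Fintype.sum_sum_type]

section
variable (a : ι → Fin n → ℝ) {U : Set ℂ} (hU : IsOpen U) {Φ : ℂ → ℂ}
    (hΦ : DifferentiableOn ℂ Φ U) (q : ℕ) (σ : ℝ)

omit [Fintype ι] in
theorem dat_Om (z : EE n) : z ∈ (dat a hU hΦ q σ).Om ↔ ∀ l, zeta (a l) z ∈ U := by
  simp [Data.Om, dat]

theorem dat_psi (z : EE n) : (dat a hU hΦ q σ).psi z =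
    ∑ l, ‖Φ (zeta (a l) z) ^ (q + 1)‖ ^ 2 + ∑ k, ‖σ * zeta (Pi.single k 1) z ^ q‖ ^ 2 := by
  simp only [Data.psi, Data.F, dat, Fintype.sum_sum_type, Sum.elim_inl, Sum.elim_inr]

omit [Fintype ι] in
theorem dat_G (z : EE n) : (dat a hU hΦ q σ).G z =
    Sum.elim (fun l => deriv (fun w => Φ w ^ (q + 1)) (zeta (a l) z))
      fun k => σ * (q * zeta (Pi.single k 1) z ^ (q - 1)) := by
  ext (l | l)
  · rfl
  · exact ((hasDerivAt_pow q _).const_mul (σ : ℂ)).deriv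

theorem dat_compact (hspan : ∀ x : Fin n → ℝ, (∀ l, a l ⬝ᵥ x = 0) → x = 0)
    (hprop : ∀ r : ℝ, r < 1 → IsCompact {ζ | ζ ∈ U ∧ ‖Φ ζ‖ ≤ r}) (r : ℝ) (hr : r < 1) :
    IsCompact ((dat a hU hΦ q σ).C r) := by
  obtain ⟨ρ, hρ0, hρ1, hρ⟩ : ∃ ρ : ℝ, 0 < ρ ∧ ρ < 1 ∧ r < (ρ ^ (q + 1)) ^ 2 := by
    have h1 : Tendsto (fun ρ : ℝ => (ρ ^ (q + 1)) ^ 2) (𝓝[<] 1) (𝓝 ((1 ^ (q + 1)) ^ 2)) :=
      Tendsto.mono_left (Continuous.tendsto (by fun_prop) 1) nhdsWithin_le_nhds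
    have h2 := h1.eventually (lt_mem_nhds (show r < (1 ^ (q + 1)) ^ 2 by simpa using hr))
    obtain ⟨ρ, h3, h4⟩ := (h2.and (Ioo_mem_nhdsLT (show (0 : ℝ) < 1 by norm_num))).exists
    exact ⟨ρ, h4.1, h4.2, h3⟩
  let Z : EE n →ₗ[ℝ] (ι → ℂ) := LinearMap.pi fun l => (zetaL (a l) : EE n →ₗ[ℝ] ℂ)
  have hZ : IsClosedEmbedding Z := by
    apply LinearMap.isClosedEmbedding_of_injective
    rw [LinearMap.ker_eq_bot']
    intro z hz
    have h1 : ∀ l, zeta (a l) z = 0 := fun l => congrFun hz l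
    refine Prod.ext (hspan _ fun l => ?_) (hspan _ fun l => ?_)
    · simpa [zeta] using congrArg Complex.re (h1 l)
    · simpa [zeta] using congrArg Complex.im (h1 l)
  have hK0 := hZ.isCompact_preimage (isCompact_univ_pi fun _ : ι => hprop ρ hρ1)
  set K0 := Z ⁻¹' (univ.pi fun _ : ι => {ζ | ζ ∈ U ∧ ‖Φ ζ‖ ≤ ρ}) with hK0def
  have hmem : ∀ z, z ∈ K0 ↔ ∀ l, zeta (a l) z ∈ U ∧ ‖Φ (zeta (a l) z)‖ ≤ ρ := fun z => by
    simp only [hK0def, mem_preimage, mem_univ_pi]; rfl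
  have hsub : K0 ⊆ (dat a hU hΦ q σ).Om := fun z hz =>
    (dat_Om a hU hΦ q σ z).2 fun l => ((hmem z).1 hz l).1
  have hc : ContinuousOn (dat a hU hΦ q σ).psi K0 := fun z hz =>
    ((dat a hU hΦ q σ).contDiffAt_psi (hsub hz)).continuousAt.continuousWithinAt
  have e : (dat a hU hΦ q σ).C r = K0 ∩ (dat a hU hΦ q σ).psi ⁻¹' Iic r := by
    ext z
    refine ⟨fun hz => ⟨(hmem z).2 fun l => ⟨(dat_Om a hU hΦ q σ z).1 hz.1 l, ?_⟩, hz.2⟩,
      fun hz => ⟨hsub hz.1, hz.2⟩⟩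
    have h1 := hz.2
    rw [dat_psi] at h1
    have h2 : ‖Φ (zeta (a l) z) ^ (q + 1)‖ ^ 2 ≤ ∑ l, ‖Φ (zeta (a l) z) ^ (q + 1)‖ ^ 2 :=
      Finset.single_le_sum (f := fun l => ‖Φ (zeta (a l) z) ^ (q + 1)‖ ^ 2)
        (fun _ _ => sq_nonneg _) (Finset.mem_univ l)
    have h3 : 0 ≤ ∑ k, ‖σ * zeta (Pi.single k 1) z ^ q‖ ^ 2 :=
      Finset.sum_nonneg fun _ _ => sq_nonneg _
    by_contra h4
    have h5 : (ρ ^ (q + 1)) ^ 2 ≤ ‖Φ (zeta (a l) z) ^ (q + 1)‖ ^ 2 := by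
      rw [norm_pow]
      gcongr
      exact (not_le.1 h4).le
    linarith
  rw [e]
  exact hK0.of_isClosed_subset (hc.preimage_isClosed_of_isClosed hK0.isClosed isClosed_Iic)
    inter_subset_left

theorem tendsto_quot (h0 : (0 : ℂ) ∈ U) (hΦ0 : Φ 0 = 0) (hU : IsOpen U)
    (hΦ : DifferentiableOn ℂ Φ U) (ζ : ℂ) :
    Tendsto (fun lam : ℝ => Φ (lam * ζ) / lam) (𝓝[>] 0) (𝓝 (deriv Φ 0 * ζ)) := by
  have h1 : HasDerivAt Φ (deriv Φ 0) (((0 : ℝ) : ℂ) * ζ) := by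
    simpa using (hΦ.differentiableAt (hU.mem_nhds h0)).hasDerivAt
  have h2 : HasDerivAt (fun lam : ℝ => (lam : ℂ) * ζ) ζ 0 := by
    simpa using (Complex.ofRealCLM.hasDerivAt (x := (0 : ℝ))).mul_const ζ
  have h3 : HasDerivAt (fun lam : ℝ => Φ (lam * ζ)) (deriv Φ 0 * ζ) 0 := h1.comp 0 h2
  have h4 := h3.tendsto_slope_zero_right
  refine h4.congr fun t => ?_
  simp [hΦ0, div_eq_inv_mul]

theorem dat_tendsto (h0 : (0 : ℂ) ∈ U) (hΦ0 : Φ 0 = 0) (hq : 1 ≤ q) (hσ : 0 < σ) (z : EE n) :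
    Tendsto (fun lam : ℝ =>
      ((fun l => (dat a hU hΦ q σ).F (lam • z) l / ((σ * lam ^ q : ℝ) : ℂ),
        fun l => lam * (dat a hU hΦ q σ).G (lam • z) l / ((σ * lam ^ q : ℝ) : ℂ)) :
          ((ι ⊕ Fin n) → ℂ) × ((ι ⊕ Fin n) → ℂ))) (𝓝[>] 0)
      (𝓝 (Sum.elim (fun _ => 0) fun k => ((z.1 k : ℂ) + (z.2 k : ℂ) * Complex.I) ^ q,
        Sum.elim (fun _ => 0) fun k =>
          (q : ℂ) * ((z.1 k : ℂ) + (z.2 k : ℂ) * Complex.I) ^ (q - 1))) := by
  have hσ' : (σ : ℂ) ≠ 0 := by exact_mod_cast hσ.ne'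
  have hl : ∀ ζ : ℂ, Tendsto (fun lam : ℝ => (lam : ℂ) * ζ) (𝓝[>] 0) (𝓝 0) := fun ζ => by
    have : Tendsto (fun lam : ℝ => (lam : ℂ) * ζ) (𝓝 0) (𝓝 (((0 : ℝ) : ℂ) * ζ)) :=
      Continuous.tendsto (by fun_prop) 0
    simpa using this.mono_left nhdsWithin_le_nhds
  have hA := hΦ.analyticAt (hU.mem_nhds h0)
  refine Tendsto.prodMk_nhds (tendsto_pi_nhds.2 ?_) (tendsto_pi_nhds.2 ?_)
  · rintro (l | l)
    · have h1 := ((tendsto_quot h0 hΦ0 hU hΦ (zeta (a l) z)).pow q).mul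
        ((hA.continuousAt.tendsto.comp (hl (zeta (a l) z))).div_const σ)
      rw [hΦ0, zero_div, mul_zero] at h1
      refine h1.congr' ?_
      filter_upwards [self_mem_nhdsWithin] with lam hlam
      have : (lam : ℂ) ≠ 0 := by exact_mod_cast (ne_of_gt hlam)
      simp only [Data.F, dat, Sum.elim_inl, zeta_smul, Function.comp]
      push_cast
      rw [div_pow]; field_simp; ring
    · refine tendsto_const_nhds.congr' ?_
      filter_upwards [self_mem_nhdsWithin] with lam hlam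
      have : (lam : ℂ) ≠ 0 := by exact_mod_cast (ne_of_gt hlam)
      simp only [Data.F, dat, Sum.elim_inr, zeta_smul, zeta_single]
      push_cast
      rw [mul_pow]; field_simp
  · rintro (l | l)
    · have h1 := ((((tendsto_quot h0 hΦ0 hU hΦ (zeta (a l) z)).pow q).mul
        ((hA.deriv.continuousAt.tendsto.comp (hl (zeta (a l) z))).div_const σ)).mul
          (hl ((q + 1 : ℕ) : ℂ)))
      rw [mul_zero] at h1
      refine h1.congr' ?_
      filter_upwards [self_mem_nhdsWithin, (hl (zeta (a l) z)).eventually (hU.mem_nhds h0)]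
        with lam hlam hmem
      have : (lam : ℂ) ≠ 0 := by exact_mod_cast (ne_of_gt hlam)
      have h2 := ((hΦ.differentiableAt (hU.mem_nhds hmem)).hasDerivAt.fun_pow (q + 1)).deriv
      simp only [dat_G, Sum.elim_inl, zeta_smul, Function.comp, h2, Nat.add_sub_cancel]
      push_cast
      rw [div_pow]; field_simp
    · refine tendsto_const_nhds.congr' ?_
      filter_upwards [self_mem_nhdsWithin] with lam hlam
      have : (lam : ℂ) ≠ 0 := by exact_mod_cast (ne_of_gt hlam)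
      simp only [dat_G, Sum.elim_inr, zeta_smul, zeta_single]
      obtain ⟨q, rfl⟩ := Nat.exists_eq_add_of_le' hq
      simp only [Nat.add_sub_cancel]
      push_cast
      rw [mul_pow]; field_simp; ring

theorem dat_fatou (hn : 1 ≤ n) (hspan : ∀ x : Fin n → ℝ, (∀ l, a l ⬝ᵥ x = 0) → x = 0)
    (hprop : ∀ r : ℝ, r < 1 → IsCompact {ζ | ζ ∈ U ∧ ‖Φ ζ‖ ≤ r})
    (h0 : (0 : ℂ) ∈ U) (hΦ0 : Φ 0 = 0) (hq : 1 ≤ q) (hσ : 0 < σ) {r₀ r₁ : ℝ} (hr0 : 0 < r₀)
    (h01 : r₀ < r₁) (h1 : r₁ < 1) :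
    ENNReal.ofReal ((π * q) ^ n / n.factorial) ≤ ENNReal.ofReal
      ((1 / r₀) ^ n * ∫ z in (dat a hU hΦ q σ).C r₁, (dat a hU hΦ q σ).Hd z) := by
  set d := dat a hU hΦ q σ with hd
  set lam : ℕ → ℝ := fun m => 1 / ((m : ℝ) + 1) with hlam
  have hl0 : ∀ m, 0 < lam m := fun m => by positivity
  have hlt : Tendsto lam atTop (𝓝[>] 0) :=
    tendsto_nhdsWithin_iff.2 ⟨tendsto_one_div_add_atTop_nhds_zero_nat, Eventually.of_forall hl0⟩
  have hc := fun m => d.cmp_scaled hn hr0 h01 h1 (δ := (σ * lam m ^ q) ^ 2)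
    (by have := hl0 m; positivity) (hl0 m) (dat_compact a hU hΦ q σ hspan hprop)
  have hF := lintegral_liminf_le' (u := atTop) fun m => (hc m).1
  refine (lintegral_FS hq).trans (le_trans (le_of_eq ?_) (hF.trans ?_))
  swap
  · exact liminf_le_of_frequently_le' (Frequently.of_forall fun m => (hc m).2)
  refine lintegral_congr fun z => (Tendsto.liminf_eq ?_).symm
  refine (ENNReal.continuous_ofReal.tendsto _).comp ?_
  have h2 := ((continuous_Mm d.a).tendsto _).comp (dat_tendsto a hU hΦ q σ h0 hΦ0 hq hσ z)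
  have e : d.a = Sum.elim a fun k => Pi.single k 1 := rfl
  simp only [e, Mm_sum_zero, Fintype.sum_sum_type, Sum.elim_inl, Sum.elim_inr, norm_zero] at h2
  rw [zero_pow two_ne_zero, Finset.sum_const_zero, zero_add, det_Mm_diag] at h2
  refine Tendsto.comp (g := fun l : ℝ => l ^ (2 * n) * (d.C r₁).indicator
    (d.M0 ((σ * l ^ q) ^ 2)) (l • z)) (h2.congr' ?_) hlt
  have hz0 : (0 : EE n) ∈ d.Om := (dat_Om a hU hΦ q σ 0).2 fun l => by simpa [zeta] using h0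
  have hpsi0 : d.psi 0 = 0 := by
    have : ∀ b : Fin n → ℝ, zeta b 0 = 0 := fun b => by simp [zeta]
    rw [hd, dat_psi]
    simp [this, hΦ0, zero_pow (show q ≠ 0 by omega)]
  have hsm : Tendsto (fun l : ℝ => l • z) (𝓝[>] 0) (𝓝 0) := by
    have : Tendsto (fun l : ℝ => l • z) (𝓝 0) (𝓝 ((0 : ℝ) • z)) :=
      Continuous.tendsto (by fun_prop) 0
    rw [zero_smul] at this
    exact this.mono_left nhdsWithin_le_nhds
  have hev : ∀ᶠ w in 𝓝 (0 : EE n), w ∈ d.C r₁ :=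
    (d.isOpen_Om.eventually_mem hz0).and
      ((d.contDiffAt_psi hz0).continuousAt.tendsto.eventually
        (ge_mem_nhds (by rw [hpsi0]; linarith)))
  filter_upwards [self_mem_nhdsWithin, hsm.eventually hev] with l hl hmem
  have hl' : 0 < l := hl
  rw [indicator_of_mem hmem]
  have h3 := Mm_scale (d.F (l • z)) (d.G (l • z)) d.a (σ := σ * l ^ q) (lam := l) (by positivity)
  simp only [Function.comp]
  rw [← Fintype.sum_sum_type (fun i => ‖d.F (l • z) i / ((σ * l ^ q : ℝ) : ℂ)‖ ^ 2), ← e, h3,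
    Matrix.det_smul, Fintype.card_fin, ← Complex.ofReal_pow, Complex.re_ofReal_mul, ← pow_mul]
  rfl

theorem dat_limit (hn : 1 ≤ n) (hspan : ∀ x : Fin n → ℝ, (∀ l, a l ⬝ᵥ x = 0) → x = 0)
    (hprop : ∀ r : ℝ, r < 1 → IsCompact {ζ | ζ ∈ U ∧ ‖Φ ζ‖ ≤ r})
    (h0 : (0 : ℂ) ∈ U) (hΦ0 : Φ 0 = 0) (hq : 1 ≤ q) {r₀ r₁ : ℝ} (hr0 : 0 < r₀)
    (h01 : r₀ < r₁) (h1 : r₁ < 1) :
    ENNReal.ofReal ((π * q) ^ n / n.factorial) ≤ ENNReal.ofReal
      ((1 / r₀) ^ n * ∫ z in (dat a hU hΦ q 0).C r₁, (dat a hU hΦ q 0).Hd z) := by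
  have := haarEE n
  set C := (dat a hU hΦ q 0).C r₁ with hC
  have hCc : IsCompact C := dat_compact a hU hΦ q 0 hspan hprop r₁ h1
  have hOm : ∀ σ, C ⊆ (dat a hU hΦ q σ).Om := fun σ z hz =>
    (dat_Om a hU hΦ q σ z).2 ((dat_Om a hU hΦ q 0 z).1 hz.1)
  have hjoint : ContinuousOn (fun p : ℝ × EE n => (dat a hU hΦ q p.1).Hd p.2) (univ ×ˢ C) := by
    have h2 : Continuous fun G : ι ⊕ Fin n → ℂ =>
        (Hm G (Sum.elim a fun k => Pi.single k 1)).det := by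
      refine Continuous.matrix_det (continuous_matrix fun j k => ?_)
      simp only [Hm, Matrix.of_apply]
      fun_prop
    refine h2.comp_continuousOn (f := fun p : ℝ × EE n => (dat a hU hΦ q p.1).G p.2)
      (continuousOn_pi.2 ?_)
    rintro (l | l)
    · intro p hp
      exact (((dat a hU hΦ q 0).contDiffAt_G (hOm 0 hp.2) (Sum.inl l)).continuousAt.comp
        continuousAt_snd).continuousWithinAt
    · simp only [dat_G, Sum.elim_inr]
      have := (contDiff_zeta (Pi.single l (1 : ℝ))).continuous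
      fun_prop
  have hcont : ∀ σ, ContinuousOn (dat a hU hΦ q σ).Hd C := fun σ =>
    (dat a hU hΦ q σ).continuousOn_Hd.mono (hOm σ)
  obtain ⟨B, hB⟩ := ((isCompact_Icc (a := (0 : ℝ)) (b := 1)).prod hCc).exists_bound_of_continuousOn
    (hjoint.mono (prod_mono (subset_univ _) subset_rfl))
  have hlim : Tendsto (fun σ : ℝ => ∫ z in C, (dat a hU hΦ q σ).Hd z) (𝓝[>] 0)
      (𝓝 (∫ z in C, (dat a hU hΦ q 0).Hd z)) := by
    refine tendsto_integral_filter_of_dominated_convergence (fun _ => B)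
      (Eventually.of_forall fun σ => (hcont σ).aestronglyMeasurable hCc.measurableSet) ?_
      (integrableOn_const hCc.measure_lt_top.ne) ?_
    · filter_upwards [Ioo_mem_nhdsGT (show (0 : ℝ) < 1 by norm_num)] with σ hσ
      refine (ae_restrict_iff' hCc.measurableSet).2 (Eventually.of_forall fun z hz => ?_)
      exact hB (σ, z) ⟨⟨hσ.1.le, hσ.2.le⟩, hz⟩
    · refine (ae_restrict_iff' hCc.measurableSet).2 (Eventually.of_forall fun z hz => ?_)
      have h3 : ContinuousOn (fun σ : ℝ => (dat a hU hΦ q σ).Hd z) univ :=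
        hjoint.comp (f := fun σ : ℝ => (σ, z)) (by fun_prop) fun σ _ => ⟨mem_univ _, hz⟩
      exact ((continuousOn_univ.1 h3).tendsto 0).mono_left nhdsWithin_le_nhds
  refine ge_of_tendsto ((ENNReal.continuous_ofReal.tendsto _).comp (hlim.const_mul _)) ?_
  filter_upwards [self_mem_nhdsWithin] with σ hσ
  refine (dat_fatou a hU hΦ q σ hn hspan hprop h0 hΦ0 hq hσ hr0 h01 h1).trans
    (ENNReal.ofReal_le_ofReal (mul_le_mul_of_nonneg_left ?_ (by positivity)))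
  refine setIntegral_mono_set ((hcont σ).integrableOn_compact hCc)
    (Eventually.of_forall fun z => det_Hm_nonneg _ _) (LE.le.eventuallyLE ?_)
  intro z hz
  refine ⟨(dat_Om a hU hΦ q 0 z).2 ((dat_Om a hU hΦ q σ z).1 hz.1), le_trans ?_ hz.2⟩
  rw [dat_psi, dat_psi]
  simp only [Complex.ofReal_zero, zero_mul, norm_zero]
  rw [zero_pow two_ne_zero, Finset.sum_const_zero]
  exact add_le_add_right (Finset.sum_nonneg fun _ _ => sq_nonneg _) _

end

theorem mass {n : ℕ} (hn : 1 ≤ n) {ι : Type} [Fintype ι] (a : ι → Fin n → ℝ)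
    (hspan : ∀ x : Fin n → ℝ, (∀ l, a l ⬝ᵥ x = 0) → x = 0) {U : Set ℂ} (hU : IsOpen U)
    (h0 : (0 : ℂ) ∈ U) {Φ : ℂ → ℂ} (hΦ : DifferentiableOn ℂ Φ U) (hΦ0 : Φ 0 = 0)
    (hprop : ∀ r : ℝ, r < 1 → IsCompact {ζ | ζ ∈ U ∧ ‖Φ ζ‖ ≤ r}) {q : ℕ} (hq : 1 ≤ q) :
    ENNReal.ofReal ((π * q) ^ n / n.factorial) ≤
      ∫⁻ z in {z | (∀ l, zeta (a l) z ∈ U) ∧ ∑ l, ‖Φ (zeta (a l) z) ^ (q + 1)‖ ^ 2 < 1},
        ENNReal.ofReal (Hm (fun l => deriv (fun w => Φ w ^ (q + 1)) (zeta (a l) z)) a).det := by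
  have := haarEE n
  set J := ∫⁻ z in {z | (∀ l, zeta (a l) z ∈ U) ∧ ∑ l, ‖Φ (zeta (a l) z) ^ (q + 1)‖ ^ 2 < 1},
        ENNReal.ofReal (Hm (fun l => deriv (fun w => Φ w ^ (q + 1)) (zeta (a l) z)) a).det with hJ
  have hlim : Tendsto (fun r : ℝ => ENNReal.ofReal ((1 / r) ^ n) * J) (𝓝[<] 1)
      (𝓝 (ENNReal.ofReal ((1 / 1) ^ n) * J)) := by
    refine ENNReal.Tendsto.mul_const ?_ (Or.inl (by simp))
    refine Tendsto.mono_left ?_ nhdsWithin_le_nhds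
    refine (ENNReal.continuous_ofReal.tendsto _).comp (ContinuousAt.tendsto ?_)
    fun_prop (disch := norm_num)
  simp only [div_one, one_pow, ENNReal.ofReal_one, one_mul] at hlim
  refine ge_of_tendsto hlim ?_
  filter_upwards [Ioo_mem_nhdsLT (show (0 : ℝ) < 1 by norm_num)] with r hr
  have h1 : r < (r + 1) / 2 := by linarith [hr.2]
  have h2 : (r + 1) / 2 < 1 := by linarith [hr.2]
  refine (dat_limit a hU hΦ q hn hspan hprop h0 hΦ0 hq hr.1 h1 h2).trans ?_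
  have hCc := dat_compact a hU hΦ q 0 hspan hprop _ h2
  have hr0 := hr.1
  rw [ENNReal.ofReal_mul (by positivity), ofReal_integral_eq_lintegral_ofReal
    (((dat a hU hΦ q 0).continuousOn_Hd.mono fun z hz => hz.1).integrableOn_compact hCc)
    (Eventually.of_forall fun z => det_Hm_nonneg _ _)]
  refine mul_le_mul_right ?_ _
  have e : ∀ z, (dat a hU hΦ q 0).Hd z =
      (Hm (fun l => deriv (fun w => Φ w ^ (q + 1)) (zeta (a l) z)) a).det := by
    intro z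
    unfold Data.Hd
    rw [dat_G]
    congr 1
    ext j k
    simp [Hm, dat, Fintype.sum_sum_type]
  simp only [e]
  refine lintegral_mono_set fun z hz => ⟨(dat_Om a hU hΦ q 0 z).1 hz.1, ?_⟩
  have h3 := hz.2
  rw [dat_psi] at h3
  simp only [Complex.ofReal_zero, zero_mul, norm_zero] at h3
  rw [zero_pow two_ne_zero, Finset.sum_const_zero] at h3
  linarith

end Vale.Agent.P248
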