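import Vale.Agent.P248.Basic

/-!
TASK P248-Mat (with FS.lean).  Linear algebra.  H = Hm G a is real symmetric PSD
(xᵀ H x = Σ ‖G l‖² (a l ⬝ᵥ x)²), Mm α β F G a = α H + β (conj η) ηᵀ is Hermitian.
* det_Mm_le: for A Hermitian PSD (A = α H), c = -β ≥ 0, u = conj η: Re det(A - c u u*) ≤ det A.  For A + τ I
  (positive definite, τ > 0): det(A' - c u u*) = det A' (1 - c u* A'⁻¹ u) (Matrix.det_add_replicateCol_mul_replicateRow /
  det_one_add_replicateCol_mul_replicateRow) and u* A'⁻¹ u ≥ 0, det A' > 0; let τ → 0 (continuity of det).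
* det_Mm_nonneg: the matrix is PSD: for x ∈ ℂⁿ put c l = G l * conj-or-not(Σ_k a l k x k); then
  x* M x = Σ|c l|²/(ψ+δ) - |Σ F l conj(c l)|²/(ψ+δ)² ≥ 0 by Cauchy-Schwarz (ψ = Σ ‖F l‖²).
  Then Matrix.PosSemidef.det_nonneg (open scoped ComplexOrder).
* det_Mm_diag: the matrix is diag(G) (I/(S+1) - (conj F) Fᵀ/(S+1)²) diag(conj G), use det_one_add col*row.
-/

open MeasureTheory Filter Topology Set
open scoped Real ComplexConjugate

namespace Vale.Agent.P248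

namespace MatAux

open Matrix
open scoped ComplexOrder

variable {n : ℕ} {ι : Type} [Fintype ι]

/-- the factor matrix -/
noncomputable def B (G : ι → ℂ) (a : ι → Fin n → ℝ) : Matrix ι (Fin n) ℂ :=
  Matrix.of fun l k => conj (G l) * (a l k : ℂ)

theorem BB (G : ι → ℂ) (a : ι → Fin n → ℝ) :
    (B G a)ᴴ * B G a = (Hm G a).map Complex.ofRealHom := by
  ext j k
  simp only [Matrix.mul_apply, conjTranspose_apply, B, of_apply, Hm, map_apply,
    Complex.ofRealHom_eq_coe, Complex.ofReal_sum, RCLike.star_def, map_mul, Complex.conj_conj,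
    Complex.conj_ofReal]
  refine Finset.sum_congr rfl fun l _ => ?_
  push_cast
  rw [← Complex.mul_conj']
  ring

theorem eta_eq (F G : ι → ℂ) (a : ι → Fin n → ℝ) : eta F G a = F ᵥ* B G a := by
  funext k
  simp only [eta, vecMul, dotProduct, B, of_apply, mul_assoc]

theorem Mm_eq1 (α β : ℝ) (F G : ι → ℂ) (a : ι → Fin n → ℝ) :
    Mm α β F G a = (α : ℂ) • ((B G a)ᴴ * B G a) +
      (β : ℂ) • vecMulVec (star (eta F G a)) (eta F G a) := by
  rw [BB]
  ext j k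
  simp [Mm, vecMulVec_apply]

theorem Mm_eq [DecidableEq ι] (α β : ℝ) (F G : ι → ℂ) (a : ι → Fin n → ℝ) :
    Mm α β F G a = (B G a)ᴴ * ((α : ℂ) • 1 + (β : ℂ) • vecMulVec (star F) F) * B G a := by
  rw [Mm_eq1, eta_eq, Matrix.mul_add, Matrix.add_mul, Matrix.mul_smul, Matrix.mul_one,
    Matrix.smul_mul, Matrix.mul_smul, Matrix.smul_mul, mul_vecMulVec, vecMulVec_mul, star_vecMul]

theorem star_dot (F : ι → ℂ) : star F ⬝ᵥ F = ((∑ l, ‖F l‖ ^ 2 : ℝ) : ℂ) := by
  simp only [dotProduct, Pi.star_apply, RCLike.star_def, Complex.conj_mul', Complex.ofReal_sum,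
    Complex.ofReal_pow]

theorem psd_N [DecidableEq ι] {α β : ℝ} (F : ι → ℂ) (hβ : β ≤ 0)
    (h : 0 ≤ α + β * ∑ l, ‖F l‖ ^ 2) :
    ((α : ℂ) • (1 : Matrix ι ι ℂ) + (β : ℂ) • vecMulVec (star F) F).PosSemidef := by
  refine PosSemidef.of_dotProduct_mulVec_nonneg ?_ fun x => ?_
  · have h1 := (posSemidef_vecMulVec_star_self F).isHermitian
    simp only [IsHermitian, conjTranspose_add, conjTranspose_smul, conjTranspose_one, h1.eq,
      RCLike.star_def, Complex.conj_ofReal]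
  · have h1 : star x ⬝ᵥ (((α : ℂ) • (1 : Matrix ι ι ℂ) + (β : ℂ) • vecMulVec (star F) F) *ᵥ x) =
        ((α * ∑ l, ‖x l‖ ^ 2 + β * ‖F ⬝ᵥ x‖ ^ 2 : ℝ) : ℂ) := by
      rw [add_mulVec, smul_mulVec, smul_mulVec, one_mulVec, vecMulVec_mulVec, dotProduct_add,
        dotProduct_smul, dotProduct_smul, star_dot, op_smul_eq_smul, dotProduct_smul,
        star_dotProduct_star]
      simp only [smul_eq_mul, RCLike.star_def, Complex.mul_conj']
      push_cast
      ring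
    rw [h1]
    have h2 : ‖F ⬝ᵥ x‖ ≤ ∑ l, ‖F l‖ * ‖x l‖ := by
      refine (norm_sum_le _ _).trans (le_of_eq ?_)
      simp only [norm_mul]
    have h3 := Finset.sum_mul_sq_le_sq_mul_sq Finset.univ (fun l => ‖F l‖) fun l => ‖x l‖
    have h4 := (pow_le_pow_left₀ (norm_nonneg _) h2 2).trans h3
    have h5 : 0 ≤ ∑ l, ‖x l‖ ^ 2 := Finset.sum_nonneg fun _ _ => sq_nonneg _
    have h6 := mul_le_mul_of_nonpos_left h4 hβ
    have h7 := mul_nonneg h h5
    exact_mod_cast (by nlinarith : 0 ≤ α * ∑ l, ‖x l‖ ^ 2 + β * ‖F ⬝ᵥ x‖ ^ 2)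

theorem det_le_posDef {A : Matrix (Fin n) (Fin n) ℂ} (hA : A.PosDef) {β : ℝ} (hβ : β ≤ 0)
    (e : Fin n → ℂ) : (A + (β : ℂ) • vecMulVec (star e) e).det.re ≤ A.det.re := by
  have h1 : (β : ℂ) • vecMulVec (star e) e =
      replicateCol Unit ((β : ℂ) • star e) * replicateRow Unit e := by
    rw [← vecMulVec_eq, smul_vecMulVec]
  have hd := hA.det_pos
  rw [h1, det_add_replicateCol_mul_replicateRow hd.ne'.isUnit, det_unique (n := Unit)]
  have h2 : (1 + replicateRow Unit e * A⁻¹ * replicateCol Unit ((β : ℂ) • star e) :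
      Matrix Unit Unit ℂ) default default = 1 + β * (star (star e) ⬝ᵥ (A⁻¹ *ᵥ star e)) := by
    rw [Matrix.add_apply, one_apply_eq, Matrix.mul_assoc, ← replicateCol_mulVec,
      replicateRow_mul_replicateCol_apply, mulVec_smul, dotProduct_smul, star_star, smul_eq_mul]
  have h3 := hA.inv.posSemidef.dotProduct_mulVec_nonneg (star e)
  rw [h2]
  obtain ⟨h4, h5⟩ := Complex.nonneg_iff.1 h3
  obtain ⟨h6, h7⟩ := Complex.pos_iff.1 hd
  simp only [Complex.mul_re, Complex.add_re, Complex.one_re, Complex.ofReal_re, Complex.ofReal_im,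
    ← h5, ← h7, mul_zero, zero_mul, sub_zero]
  nlinarith [mul_nonneg h6.le (mul_nonneg (neg_nonneg.2 hβ) h4)]

theorem det_le_psd {A : Matrix (Fin n) (Fin n) ℂ} (hA : A.PosSemidef) {β : ℝ} (hβ : β ≤ 0)
    (e : Fin n → ℂ) : (A + (β : ℂ) • vecMulVec (star e) e).det.re ≤ A.det.re := by
  have c0 : Continuous fun τ : ℝ => A + (τ : ℂ) • (1 : Matrix (Fin n) (Fin n) ℂ) := by fun_prop
  have c1 : Continuous fun τ : ℝ => (A + (τ : ℂ) • (1 : Matrix (Fin n) (Fin n) ℂ) +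
      (β : ℂ) • vecMulVec (star e) e).det.re :=
    Complex.continuous_re.comp (c0.add continuous_const).matrix_det
  have c2 : Continuous fun τ : ℝ => (A + (τ : ℂ) • (1 : Matrix (Fin n) (Fin n) ℂ)).det.re :=
    Complex.continuous_re.comp c0.matrix_det
  have h := le_of_tendsto_of_tendsto (b := 𝓝[>] (0 : ℝ))
    ((c1.tendsto 0).mono_left nhdsWithin_le_nhds) ((c2.tendsto 0).mono_left nhdsWithin_le_nhds)
    (eventually_nhdsWithin_of_forall fun τ hτ => det_le_posDef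
      (PosDef.posSemidef_add hA (PosDef.one.smul (by exact_mod_cast hτ))) hβ e)
  simpa using h

end MatAux

open MatAux Matrix
open scoped ComplexOrder

theorem det_Hm_nonneg {n : ℕ} {ι : Type} [Fintype ι] (G : ι → ℂ) (a : ι → Fin n → ℝ) :
    0 ≤ (Hm G a).det := by
  have h := (posSemidef_conjTranspose_mul_self (B G a)).det_nonneg
  rw [BB, ← RingHom.mapMatrix_apply, ← RingHom.map_det] at h
  simpa using h

theorem det_Mm_le {n : ℕ} {ι : Type} [Fintype ι] {α β : ℝ} (hα : 0 ≤ α) (hβ : β ≤ 0)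
    (F G : ι → ℂ) (a : ι → Fin n → ℝ) :
    (Mm α β F G a).det.re ≤ α ^ n * (Hm G a).det := by
  have hA : ((α : ℂ) • ((B G a)ᴴ * B G a)).PosSemidef :=
    (posSemidef_conjTranspose_mul_self (B G a)).smul (by exact_mod_cast hα)
  rw [Mm_eq1]
  refine (det_le_psd hA hβ _).trans (le_of_eq ?_)
  rw [det_smul, BB, ← RingHom.mapMatrix_apply, ← RingHom.map_det, Fintype.card_fin,
    Complex.ofRealHom_eq_coe, ← Complex.ofReal_pow, ← Complex.ofReal_mul, Complex.ofReal_re]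

theorem det_Mm_nonneg {n : ℕ} {ι : Type} [Fintype ι] {δ : ℝ} (hδ : 0 < δ)
    (F G : ι → ℂ) (a : ι → Fin n → ℝ) :
    0 ≤ (Mm (1 / (∑ l, ‖F l‖ ^ 2 + δ)) (-1 / (∑ l, ‖F l‖ ^ 2 + δ) ^ 2) F G a).det.re := by
  classical
  have h5 : 0 ≤ ∑ l, ‖F l‖ ^ 2 := Finset.sum_nonneg fun _ _ => sq_nonneg _
  rw [Mm_eq]
  refine (Complex.nonneg_iff.1 ((psd_N F ?_ ?_).conjTranspose_mul_mul_same _).det_nonneg).1
  · exact div_nonpos_of_nonpos_of_nonneg (by norm_num) (sq_nonneg _)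
  · generalize ∑ l, ‖F l‖ ^ 2 = S at h5
    have : 1 / (S + δ) + -1 / (S + δ) ^ 2 * S = δ / (S + δ) ^ 2 := by
      field_simp
      ring
    rw [this]
    positivity

theorem det_Mm_diag {n : ℕ} (F G : Fin n → ℂ) :
    (Mm (1 / (∑ l, ‖F l‖ ^ 2 + 1)) (-1 / (∑ l, ‖F l‖ ^ 2 + 1) ^ 2) F G
      (fun l => Pi.single l 1)).det.re = (∏ l, ‖G l‖ ^ 2) / (∑ l, ‖F l‖ ^ 2 + 1) ^ (n + 1) := by
  have h5 : 0 ≤ ∑ l, ‖F l‖ ^ 2 := Finset.sum_nonneg fun _ _ => sq_nonneg _
  have hB : B G (fun l => Pi.single l 1) = diagonal fun l => conj (G l) := by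
    ext l k
    by_cases h : l = k
    · subst h; simp [B]
    · simp [B, h, Ne.symm h]
  have hd := star_dot F
  rw [Mm_eq, hB]
  generalize ∑ l, ‖F l‖ ^ 2 = S at h5 hd
  have hS : ((S : ℂ) + 1) ≠ 0 := by exact_mod_cast (by linarith : S + 1 ≠ 0)
  have hN : ((1 / (S + 1) : ℝ) : ℂ) • (1 : Matrix (Fin n) (Fin n) ℂ) +
      ((-1 / (S + 1) ^ 2 : ℝ) : ℂ) • vecMulVec (star F) F =
      ((1 / (S + 1) : ℝ) : ℂ) • (1 + replicateCol Unit (((-1 / (S + 1) : ℝ) : ℂ) • star F) *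
        replicateRow Unit F) := by
    rw [← vecMulVec_eq, smul_vecMulVec, smul_add, smul_smul]
    congr 2
    push_cast
    field_simp
  rw [hN, det_mul, det_mul, det_smul, det_one_add_replicateCol_mul_replicateRow, dotProduct_smul,
    dotProduct_comm, hd, diagonal_conjTranspose, det_diagonal, det_diagonal, Fintype.card_fin]
  have h2 : (∏ i, star (fun l => conj (G l)) i) * ∏ i, conj (G i) =
      ((∏ l, ‖G l‖ ^ 2 : ℝ) : ℂ) := by
    rw [← Finset.prod_mul_distrib]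
    simp [Complex.mul_conj']
  rw [mul_right_comm, h2, smul_eq_mul, ← Complex.ofReal_mul, ← Complex.ofReal_one,
    ← Complex.ofReal_add, ← Complex.ofReal_pow, ← Complex.ofReal_mul, ← Complex.ofReal_mul,
    Complex.ofReal_re]
  have hS' : S + 1 ≠ 0 := by linarith
  rw [one_div, inv_pow]
  field_simp
  ring

end Vale.Agent.P248
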