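import Vale.Agent.P248.NL
import Vale.Agent.P248.Mat

/-! Null Lagrangian identity for `k(ψ) η` (helper74). -/

open MeasureTheory Filter Topology Set
open scoped Real ComplexConjugate Pointwise

namespace Vale.Agent.P248

abbrev EE (n : ℕ) := (Fin n → ℝ) × (Fin n → ℝ)

variable {n : ℕ}

theorem haarEE (n : ℕ) : (volume : Measure (EE n)).IsAddHaarMeasure :=
  Measure.prod.instIsAddHaarMeasure volume volume

noncomputable def zetaL (a : Fin n → ℝ) : EE n →L[ℝ] ℂ :=
  LinearMap.toContinuousLinearMap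
    { toFun := zeta a
      map_add' := by
        intro x y
        simp only [zeta, Prod.fst_add, Prod.snd_add, dotProduct_add]
        push_cast; ring
      map_smul' := by
        intro c x
        simp only [zeta, Prod.smul_fst, Prod.smul_snd, dotProduct_smul, smul_eq_mul,
          RingHom.id_apply, Complex.real_smul]
        push_cast; ring }

theorem zetaL_apply (a : Fin n → ℝ) (z : EE n) : zetaL a z = zeta a z := rfl

theorem hasFDerivAt_zeta (a : Fin n → ℝ) (z : EE n) : HasFDerivAt (zeta a) (zetaL a) z :=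
  (zetaL a).hasFDerivAt

theorem contDiff_zeta (a : Fin n → ℝ) : ContDiff ℝ 2 (zeta a) := (zetaL a).contDiff

theorem zeta_smul (a : Fin n → ℝ) (c : ℝ) (z : EE n) : zeta a (c • z) = c * zeta a z := by
  rw [← zetaL_apply, map_smul, zetaL_apply, Complex.real_smul]

/-- `∂_{x_j} - i ∂_{y_j}` -/
noncomputable def Dop (j : Fin n) (h : EE n → ℂ) (z : EE n) : ℂ :=
  fderiv ℝ h z (Pi.single j 1, 0) - Complex.I * fderiv ℝ h z (0, Pi.single j 1)

theorem Dop_mul (j : Fin n) {h₁ h₂ : EE n → ℂ} {z : EE n} (d₁ : DifferentiableAt ℝ h₁ z)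
    (d₂ : DifferentiableAt ℝ h₂ z) :
    Dop j (fun z => h₁ z * h₂ z) z = h₁ z * Dop j h₂ z + h₂ z * Dop j h₁ z := by
  unfold Dop
  rw [fderiv_fun_mul d₁ d₂]
  simp only [add_apply, smul_apply, smul_eq_mul]
  ring

theorem Dop_sum (j : Fin n) {ι : Type} [Fintype ι] {h : ι → EE n → ℂ} {z : EE n}
    (d : ∀ l, DifferentiableAt ℝ (h l) z) :
    Dop j (fun z => ∑ l, h l z) z = ∑ l, Dop j (h l) z := by
  unfold Dop
  rw [fderiv_fun_sum fun l _ => d l]
  simp only [sum_apply, Finset.mul_sum, Finset.sum_sub_distrib]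

theorem Dop_const (j : Fin n) (c : ℂ) (z : EE n) : Dop j (fun _ => c) z = 0 := by
  simp [Dop]

theorem hasFDerivAt_holo {a : Fin n → ℝ} {f : ℂ → ℂ} {z : EE n} {c : ℂ}
    (hf : HasDerivAt f c (zeta a z)) :
    HasFDerivAt (fun z => f (zeta a z)) (c • zetaL a) z := by
  have := (hf.hasFDerivAt.restrictScalars ℝ).comp z (hasFDerivAt_zeta a z)
  refine this.congr_fderiv ?_
  ext1 <;> ext <;> simp [mul_comm]

theorem zetaL_u (a : Fin n → ℝ) (j : Fin n) : zetaL a (Pi.single j 1, 0) = a j := by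
  simp [zetaL_apply, zeta]

theorem zetaL_v (a : Fin n → ℝ) (j : Fin n) :
    zetaL a (0, Pi.single j 1) = a j * Complex.I := by
  simp [zetaL_apply, zeta]

theorem Dop_holo (j : Fin n) {a : Fin n → ℝ} {f : ℂ → ℂ} {z : EE n} {c : ℂ}
    (hf : HasDerivAt f c (zeta a z)) : Dop j (fun z => f (zeta a z)) z = 2 * c * a j := by
  unfold Dop
  rw [(hasFDerivAt_holo hf).fderiv]
  simp only [smul_apply, zetaL_u, zetaL_v, smul_eq_mul]
  linear_combination (-c * a j) * Complex.I_mul_I

theorem Dop_anti (j : Fin n) {a : Fin n → ℝ} {f : ℂ → ℂ} {z : EE n} {c : ℂ}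
    (hf : HasDerivAt f c (zeta a z)) : Dop j (fun z => conj (f (zeta a z))) z = 0 := by
  unfold Dop
  have h := (Complex.conjCLE : ℂ →L[ℝ] ℂ).hasFDerivAt.comp z (hasFDerivAt_holo hf)
  have h' : fderiv ℝ (fun z => conj (f (zeta a z))) z =
      (Complex.conjCLE : ℂ →L[ℝ] ℂ).comp (c • zetaL a) := h.fderiv
  rw [h']
  simp only [ContinuousLinearMap.comp_apply, smul_apply, zetaL_u, zetaL_v,
    smul_eq_mul, ContinuousLinearEquiv.coe_coe, Complex.conjCLE_apply, map_mul,
    Complex.conj_ofReal, Complex.conj_I]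
  linear_combination (conj c * a j) * Complex.I_mul_I

theorem Dop_real (j : Fin n) {ψ : EE n → ℝ} {k : ℝ → ℝ} {z : EE n} {c : ℝ}
    (hψ : DifferentiableAt ℝ ψ z) (hk : HasDerivAt k c (ψ z)) :
    Dop j (fun z => ((k (ψ z) : ℝ) : ℂ)) z = c * Dop j (fun z => ((ψ z : ℝ) : ℂ)) z := by
  unfold Dop
  have h1 := Complex.ofRealCLM.hasFDerivAt.comp z (hk.comp_hasFDerivAt z hψ.hasFDerivAt)
  have h2 := Complex.ofRealCLM.hasFDerivAt.comp z hψ.hasFDerivAt
  have h1' : fderiv ℝ (fun z => ((k (ψ z) : ℝ) : ℂ)) z =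
    Complex.ofRealCLM.comp (c • fderiv ℝ ψ z) := h1.fderiv
  have h2' : fderiv ℝ (fun z => ((ψ z : ℝ) : ℂ)) z =
    Complex.ofRealCLM.comp (fderiv ℝ ψ z) := h2.fderiv
  rw [h1', h2']
  simp only [ContinuousLinearMap.comp_apply, smul_apply, smul_eq_mul,
    Complex.ofRealCLM_apply]
  push_cast; ring

/-- data: linear forms and holomorphic functions -/
structure Data (n : ℕ) (ι : Type) where
  a : ι → Fin n → ℝ
  U : ι → Set ℂ
  f : ι → ℂ → ℂ
  isOpen : ∀ l, IsOpen (U l)
  holo : ∀ l, DifferentiableOn ℂ (f l) (U l)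

namespace Data

variable {ι : Type} [Fintype ι] (d : Data n ι)

def Om : Set (EE n) := {z | ∀ l, zeta (d.a l) z ∈ d.U l}

noncomputable def F (z : EE n) : ι → ℂ := fun l => d.f l (zeta (d.a l) z)

noncomputable def G (z : EE n) : ι → ℂ := fun l => deriv (d.f l) (zeta (d.a l) z)

noncomputable def psi (z : EE n) : ℝ := ∑ l, ‖d.F z l‖ ^ 2

theorem isOpen_Om : IsOpen d.Om := by
  unfold Om
  rw [ofPred_forall]
  exact isOpen_iInter_of_finite fun l => (d.isOpen l).preimage (contDiff_zeta _).continuous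

omit [Fintype ι] in
theorem analyticAt {z : EE n} (hz : z ∈ d.Om) (l : ι) :
    AnalyticAt ℂ (d.f l) (zeta (d.a l) z) :=
  (d.holo l).analyticAt ((d.isOpen l).mem_nhds (hz l))

omit [Fintype ι] in
theorem contDiffAt_F {z : EE n} (hz : z ∈ d.Om) (l : ι) :
    ContDiffAt ℝ 2 (fun z => d.F z l) z :=
  ((d.analyticAt hz l).contDiffAt.restrict_scalars ℝ).comp z (contDiff_zeta _).contDiffAt

omit [Fintype ι] in
theorem contDiffAt_G {z : EE n} (hz : z ∈ d.Om) (l : ι) :
    ContDiffAt ℝ 2 (fun z => d.G z l) z :=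
  ((d.analyticAt hz l).deriv.contDiffAt.restrict_scalars ℝ).comp z (contDiff_zeta _).contDiffAt

theorem contDiffAt_conj {h : EE n → ℂ} {z : EE n} (hh : ContDiffAt ℝ 2 h z) :
    ContDiffAt ℝ 2 (fun z => conj (h z)) z :=
  (Complex.conjCLE : ℂ →L[ℝ] ℂ).contDiff.contDiffAt.comp z hh

theorem contDiffAt_psi {z : EE n} (hz : z ∈ d.Om) : ContDiffAt ℝ 2 d.psi z :=
  ContDiffAt.sum fun l _ => (d.contDiffAt_F hz l).norm_sq ℝ

theorem contDiffAt_eta {z : EE n} (hz : z ∈ d.Om) (k : Fin n) :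
    ContDiffAt ℝ 2 (fun z => eta (d.F z) (d.G z) d.a k) z :=
  ContDiffAt.sum fun l _ =>
    ((d.contDiffAt_F hz l).mul (contDiffAt_conj (d.contDiffAt_G hz l))).mul contDiffAt_const

theorem psi_nonneg (z : EE n) : 0 ≤ d.psi z := Finset.sum_nonneg fun _ _ => sq_nonneg _

theorem Dop_psi {z : EE n} (hz : z ∈ d.Om) (j : Fin n) :
    Dop j (fun z => ((d.psi z : ℝ) : ℂ)) z = 2 * conj (eta (d.F z) (d.G z) d.a j) := by
  have e : (fun z => ((d.psi z : ℝ) : ℂ)) = fun z => ∑ l, d.F z l * conj (d.F z l) := by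
    ext z
    simp only [psi, Complex.mul_conj, Complex.normSq_eq_norm_sq]
    push_cast; rfl
  have hF : ∀ l, DifferentiableAt ℝ (fun z => d.F z l) z := fun l =>
    (d.contDiffAt_F hz l).differentiableAt (by norm_num)
  have hF' : ∀ l, DifferentiableAt ℝ (fun z => conj (d.F z l)) z := fun l =>
    (contDiffAt_conj (d.contDiffAt_F hz l)).differentiableAt (by norm_num)
  rw [e, Dop_sum j fun l => (hF l).fun_mul (hF' l)]
  simp only [eta, map_sum, Finset.mul_sum]
  refine Finset.sum_congr rfl fun l _ => ?_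
  rw [Dop_mul j (hF l) (hF' l)]
  have h1 := (d.analyticAt hz l).differentiableAt.hasDerivAt
  have h2 : Dop j (fun z => d.F z l) z = _ := Dop_holo j h1
  have h3 : Dop j (fun z => conj (d.F z l)) z = _ := Dop_anti j h1
  rw [h2, h3]
  simp only [map_mul, Complex.conj_conj, Complex.conj_ofReal, G]
  ring

theorem Dop_eta {z : EE n} (hz : z ∈ d.Om) (j k : Fin n) :
    Dop j (fun z => eta (d.F z) (d.G z) d.a k) z = 2 * ((Hm (d.G z) d.a j k : ℝ) : ℂ) := by
  have hF : ∀ l, DifferentiableAt ℝ (fun z => d.F z l) z := fun l =>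
    (d.contDiffAt_F hz l).differentiableAt (by norm_num)
  have hG : ∀ l, DifferentiableAt ℝ (fun z => conj (d.G z l)) z := fun l =>
    (contDiffAt_conj (d.contDiffAt_G hz l)).differentiableAt (by norm_num)
  unfold eta
  rw [Dop_sum j fun l => ((hF l).fun_mul (hG l)).fun_mul (differentiableAt_const _)]
  simp only [Hm, Matrix.of_apply]
  push_cast
  rw [Finset.mul_sum]
  refine Finset.sum_congr rfl fun l _ => ?_
  rw [Dop_mul j (h₁ := fun z => d.F z l * conj (d.G z l)) ((hF l).mul (hG l))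
    (differentiableAt_const _), Dop_mul j (hF l) (hG l), Dop_const]
  have h1 := (d.analyticAt hz l).differentiableAt.hasDerivAt
  have h1' := (d.analyticAt hz l).deriv.differentiableAt.hasDerivAt
  have h2 : Dop j (fun z => d.F z l) z = _ := Dop_holo j h1
  have h3 : Dop j (fun z => conj (d.G z l)) z = _ := Dop_anti j h1'
  rw [h2, h3]
  have h4 : ((‖d.G z l‖ : ℝ) : ℂ) ^ 2 = d.G z l * conj (d.G z l) := by
    rw [Complex.mul_conj, Complex.normSq_eq_norm_sq]; push_cast; rfl
  rw [h4]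
  simp only [G]
  ring

/-- the integrand -/
noncomputable def T (k : ℝ → ℝ) : EE n → ℝ :=
  d.Om.indicator fun z => (Mm (k (d.psi z)) (deriv k (d.psi z)) (d.F z) (d.G z) d.a).det.re

theorem nl (hn : 1 ≤ n) {k : ℝ → ℝ} (hk : ∀ s, 0 ≤ s → ContDiffAt ℝ 2 k s) {r : ℝ}
    (hr : ∀ s, r ≤ s → k s = 0) (hC : IsCompact {z | z ∈ d.Om ∧ d.psi z ≤ r}) :
    Continuous (d.T k) ∧ Integrable (d.T k) ∧ ∫ z, d.T k z = 0 := by
  have : Nonempty (Fin n) := ⟨⟨0, hn⟩⟩
  have := haarEE n
  set C := {z | z ∈ d.Om ∧ d.psi z ≤ r} with hCdef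
  set g : Fin n → EE n → ℂ := fun j => d.Om.indicator
    fun z => ((k (d.psi z) : ℝ) : ℂ) * eta (d.F z) (d.G z) d.a j with hg
  have hg0 : ∀ j z, z ∉ C → g j z = 0 := by
    intro j z hz
    by_cases h : z ∈ d.Om
    · have : r ≤ d.psi z := (not_le.1 fun h' => hz ⟨h, h'⟩).le
      simp [hg, indicator_of_mem h, hr _ this]
    · simp [hg, indicator_of_notMem h]
  have hg1 : ∀ j z, z ∉ C → g j =ᶠ[𝓝 z] fun _ => 0 := fun j z hz => by
    filter_upwards [hC.isClosed.isOpen_compl.mem_nhds hz] with w hw using hg0 j w hw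
  have hg2 : ∀ j z, z ∈ d.Om → g j =ᶠ[𝓝 z]
      fun z => ((k (d.psi z) : ℝ) : ℂ) * eta (d.F z) (d.G z) d.a j := fun j z hz => by
    filter_upwards [d.isOpen_Om.mem_nhds hz] with w hw using indicator_of_mem hw _
  have hkψ : ∀ z ∈ d.Om, ContDiffAt ℝ 2 (fun z => ((k (d.psi z) : ℝ) : ℂ)) z := fun z hz =>
    Complex.ofRealCLM.contDiff.contDiffAt.comp z
      ((hk _ (d.psi_nonneg z)).comp z (d.contDiffAt_psi hz))
  have hgs : ∀ j, ContDiff ℝ 2 (g j) := by
    intro j
    rw [contDiff_iff_contDiffAt]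
    intro z
    by_cases h : z ∈ d.Om
    · exact ((hkψ z h).mul (d.contDiffAt_eta h j)).congr_of_eventuallyEq (hg2 j z h)
    · exact contDiffAt_const.congr_of_eventuallyEq (hg1 j z fun h' => h h'.1)
  have hgc : ∀ j, HasCompactSupport (g j) := fun j => HasCompactSupport.intro hC (hg0 j)
  have key := integral_det_fderiv_eq_zero (volume : Measure (EE n)) hn g hgs hgc
    (fun j => (Pi.single j 1, 0)) (fun j => (0, Pi.single j 1))
  set D : EE n → ℂ := fun z => (Matrix.of fun j k => Dop j (g k) z).det with hD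
  have key' : ∫ z, D z = 0 := key
  have hD0 : ∀ z, z ∉ C → D z = 0 := by
    intro z hz
    have : (Matrix.of fun j k => Dop j (g k) z) = 0 := by
      ext j k
      simp only [Matrix.of_apply, Dop, (hg1 k z hz).fderiv_eq]
      simp
    simp only [hD, this, Matrix.det_zero]
  have hDc : Continuous D := by
    refine Continuous.matrix_det (continuous_matrix fun j k => ?_)
    have h1 := (hgs k).continuous_fderiv (by norm_num)
    simp only [Matrix.of_apply, Dop]
    fun_prop
  have hDT : ∀ z, d.T k z = (1 / 2 ^ n) * (D z).re := by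
    intro z
    by_cases h : z ∈ d.Om
    · have : (Matrix.of fun j k => Dop j (g k) z) =
          (2 : ℂ) • Mm (k (d.psi z)) (deriv k (d.psi z)) (d.F z) (d.G z) d.a := by
        ext i j
        have e1 : Dop i (g j) z = Dop i
            (fun z => ((k (d.psi z) : ℝ) : ℂ) * eta (d.F z) (d.G z) d.a j) z := by
          simp only [Dop, (hg2 j z h).fderiv_eq]
        rw [Matrix.of_apply, e1, Dop_mul i ((hkψ z h).differentiableAt (by norm_num))
          ((d.contDiffAt_eta h j).differentiableAt (by norm_num)), d.Dop_eta h,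
          Dop_real i ((d.contDiffAt_psi h).differentiableAt (by norm_num))
            ((hk _ (d.psi_nonneg z)).differentiableAt (by norm_num)).hasDerivAt, d.Dop_psi h]
        simp only [Mm, Matrix.smul_apply, Matrix.of_apply, smul_eq_mul]
        ring
      simp only [T, indicator_of_mem h, hD, this, Matrix.det_smul, Fintype.card_fin]
      have e2 : (2 : ℂ) ^ n = ((2 ^ n : ℝ) : ℂ) := by push_cast; rfl
      rw [e2, Complex.re_ofReal_mul]
      field_simp
    · simp [T, indicator_of_notMem h, hD0 z fun h' => h h'.1]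
  have hT : d.T k = fun z => (1 / 2 ^ n) * (D z).re := funext hDT
  have hDi : Integrable D := hDc.integrable_of_hasCompactSupport (HasCompactSupport.intro hC hD0)
  rw [hT]
  refine ⟨by fun_prop, hDi.re.const_mul _, ?_⟩
  rw [integral_const_mul]
  have := integral_re hDi
  simp only [RCLike.re_to_complex] at this
  rw [this, key']; simp

end Data

end Vale.Agent.P248
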