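import Vale.Agent.P248.MassA

/-! Comparison of the regularised logarithmic mass with the mass of `ψ` (helper74). -/

open MeasureTheory Filter Topology Set
open scoped Real ComplexConjugate Pointwise

namespace Vale.Agent.P248

variable {n : ℕ}

/-- cut-off functions -/
theorem exists_cutoffs {r₀ r₁ δ : ℝ} (h0 : 0 < r₀) (h01 : r₀ < r₁) (h1 : r₁ < 1) (hδ : 0 < δ) :
    ∃ (k₀ k₁ : ℝ → ℝ) (r : ℝ), r < 1 ∧ (∀ s, 0 ≤ s → ContDiffAt ℝ 2 k₀ s) ∧
      (∀ s, 0 ≤ s → ContDiffAt ℝ 2 k₁ s) ∧ (∀ s, r ≤ s → k₀ s = 0) ∧ (∀ s, r ≤ s → k₁ s = 0) ∧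
      (∀ s, r₁ < s → k₀ s = k₁ s ∧ deriv k₀ s = deriv k₁ s) ∧
      (∀ s, 0 ≤ s → s ≤ r₁ → k₀ s = 1 / (s + δ) ∧ deriv k₀ s = -1 / (s + δ) ^ 2 ∧
        0 ≤ k₁ s ∧ k₁ s ≤ 1 / r₀ ∧ deriv k₁ s ≤ 0) := by
  set r₂ := (2 * r₁ + 1) / 3 with hr₂
  set r₃ := (r₁ + 2) / 3 with hr₃
  have h12 : r₁ < r₂ := by rw [hr₂]; linarith
  have h23 : r₂ < r₃ := by rw [hr₂, hr₃]; linarith
  have h3 : r₃ < 1 := by rw [hr₃]; linarith
  set χ : ℝ → ℝ := fun s => Real.smoothTransition ((r₃ - s) / (r₃ - r₂)) with hχ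
  set m : ℝ → ℝ := fun s => r₀ + Real.smoothTransition ((s - r₀) / (r₁ - r₀)) * (s - r₀) with hm
  have hχs : ContDiff ℝ 2 χ :=
    (Real.smoothTransition.contDiff (n := 2)).comp (by fun_prop)
  have hms : ContDiff ℝ 2 m :=
    contDiff_const.add (((Real.smoothTransition.contDiff (n := 2)).comp (by fun_prop)).mul
      (by fun_prop))
  have hχ1 : ∀ s, s ≤ r₂ → χ s = 1 := fun s hs =>
    Real.smoothTransition.one_of_one_le (by rw [le_div_iff₀ (by linarith)]; linarith)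
  have hχ0 : ∀ s, r₃ ≤ s → χ s = 0 := fun s hs =>
    Real.smoothTransition.zero_of_nonpos (div_nonpos_of_nonpos_of_nonneg (by linarith) (by linarith))
  have hm' : ∀ s, m s = r₀ + Real.smoothTransition ((s - r₀) / (r₁ - r₀)) * max (s - r₀) 0 := by
    intro s
    rcases le_total 0 (s - r₀) with h | h
    · rw [max_eq_left h]
    · simp only [hm]
      rw [Real.smoothTransition.zero_of_nonpos (div_nonpos_of_nonpos_of_nonneg h (by linarith))]
      simp
  have hm0 : ∀ s, r₀ ≤ m s := fun s => by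
    rw [hm']
    have := mul_nonneg (Real.smoothTransition.nonneg ((s - r₀) / (r₁ - r₀))) (le_max_right (s - r₀) 0)
    linarith
  have hmm : Monotone m := by
    intro s t hst
    rw [hm', hm']
    have h4 : Real.smoothTransition ((s - r₀) / (r₁ - r₀)) ≤
        Real.smoothTransition ((t - r₀) / (r₁ - r₀)) :=
      Real.smoothTransition.monotone (div_le_div_of_nonneg_right (by linarith) (by linarith))
    have h5 : max (s - r₀) 0 ≤ max (t - r₀) 0 := max_le_max (by linarith) le_rfl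
    have := mul_le_mul h4 h5 (le_max_right _ _) (Real.smoothTransition.nonneg _)
    linarith
  have hm1 : ∀ s, r₁ ≤ s → m s = s := fun s hs => by
    simp only [hm]
    rw [Real.smoothTransition.one_of_one_le (by rw [le_div_iff₀ (by linarith)]; linarith)]
    ring
  refine ⟨fun s => χ s / (s + δ), fun s => χ s / (m s + δ), r₃, h3, fun s hs => ?_, fun s hs => ?_,
    fun s hs => by simp [hχ0 s hs], fun s hs => by simp [hχ0 s hs], fun s hs => ?_,
    fun s hs hs' => ?_⟩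
  · exact hχs.contDiffAt.div (by fun_prop) (by positivity)
  · exact hχs.contDiffAt.div (hms.contDiffAt.add contDiffAt_const) (by linarith [hm0 s])
  · have : (fun s => χ s / (s + δ)) =ᶠ[𝓝 s] fun s => χ s / (m s + δ) := by
      filter_upwards [Ioi_mem_nhds hs] with t ht
      rw [hm1 t (le_of_lt ht)]
    exact ⟨this.eq_of_nhds, this.deriv_eq⟩
  · have e0 : (fun s => χ s / (s + δ)) =ᶠ[𝓝 s] fun s => (s + δ)⁻¹ := by
      filter_upwards [Iio_mem_nhds (hs'.trans_lt h12)] with t ht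
      rw [hχ1 t (le_of_lt ht), one_div]
    have e1 : (fun s => χ s / (m s + δ)) =ᶠ[𝓝 s] fun s => 1 / (m s + δ) := by
      filter_upwards [Iio_mem_nhds (hs'.trans_lt h12)] with t ht
      rw [hχ1 t (le_of_lt ht)]
    have hp : 0 < m s + δ := by linarith [hm0 s]
    refine ⟨by simp only [hχ1 s (by linarith)], ?_, ?_, ?_, ?_⟩
    · rw [e0.deriv_eq]
      exact (((hasDerivAt_id' s).add_const δ).fun_inv (by positivity)).deriv
    · simp only [hχ1 s (by linarith)]; positivity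
    · simp only [hχ1 s (by linarith)]
      exact one_div_le_one_div_of_le h0 (by linarith [hm0 s])
    · rw [e1.deriv_eq]
      apply Antitone.deriv_nonpos
      intro x y hxy
      exact one_div_le_one_div_of_le (by linarith [hm0 x]) (by linarith [hmm hxy])

namespace Data

variable {ι : Type} [Fintype ι] (d : Data n ι)

def C (r : ℝ) : Set (EE n) := {z | z ∈ d.Om ∧ d.psi z ≤ r}

noncomputable def M0 (δ : ℝ) (z : EE n) : ℝ :=
  (Mm (1 / (d.psi z + δ)) (-1 / (d.psi z + δ) ^ 2) (d.F z) (d.G z) d.a).det.re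

noncomputable def Hd (z : EE n) : ℝ := (Hm (d.G z) d.a).det

theorem continuousOn_Hd : ContinuousOn d.Hd d.Om := by
  have h1 : Continuous fun G : ι → ℂ => (Hm G d.a).det := by
    refine Continuous.matrix_det (continuous_matrix fun j k => ?_)
    simp only [Hm, Matrix.of_apply]
    fun_prop
  exact h1.comp_continuousOn (continuousOn_pi.2 fun l z hz =>
    (d.contDiffAt_G hz l).continuousAt.continuousWithinAt)

theorem cmp (hn : 1 ≤ n) {r₀ r₁ δ : ℝ} (h0 : 0 < r₀) (h01 : r₀ < r₁) (h1 : r₁ < 1) (hδ : 0 < δ)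
    (hK : ∀ r, r < 1 → IsCompact (d.C r)) :
    Integrable ((d.C r₁).indicator (d.M0 δ)) ∧
      ∫ z, (d.C r₁).indicator (d.M0 δ) z ≤ (1 / r₀) ^ n * ∫ z in d.C r₁, d.Hd z := by
  have := haarEE n
  obtain ⟨k₀, k₁, r, hr, s0, s1, z0, z1, heq, hlow⟩ := exists_cutoffs h0 h01 h1 hδ
  obtain ⟨-, i0, e0⟩ := d.nl hn s0 z0 (hK r hr)
  obtain ⟨-, i1, e1⟩ := d.nl hn s1 z1 (hK r hr)
  have hC := hK r₁ h1
  have hCm := hC.measurableSet
  have hT0 : ∀ z ∈ d.C r₁, d.T k₀ z = d.M0 δ z := by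
    intro z hz
    obtain ⟨h2, h3, -⟩ := hlow _ (d.psi_nonneg z) hz.2
    simp only [T, indicator_of_mem hz.1, M0, h2, h3]
  have hT1 : ∀ z ∈ d.C r₁, d.T k₁ z ≤ (1 / r₀) ^ n * d.Hd z := by
    intro z hz
    obtain ⟨-, -, h2, h3, h4⟩ := hlow _ (d.psi_nonneg z) hz.2
    simp only [T, indicator_of_mem hz.1]
    refine (det_Mm_le h2 h4 _ _ _).trans ?_
    exact mul_le_mul_of_nonneg_right (pow_le_pow_left₀ h2 h3 n) (det_Hm_nonneg _ _)
  have hT2 : ∀ z ∈ (d.C r₁)ᶜ, d.T k₀ z = d.T k₁ z := by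
    intro z hz
    by_cases h : z ∈ d.Om
    · obtain ⟨h2, h3⟩ := heq (d.psi z) (not_le.1 fun h' => hz ⟨h, h'⟩)
      simp only [T, indicator_of_mem h, h2, h3]
    · simp only [T, indicator_of_notMem h]
  have hind : (d.C r₁).indicator (d.M0 δ) = (d.C r₁).indicator (d.T k₀) :=
    indicator_congr fun z hz => (hT0 z hz).symm
  rw [hind]
  refine ⟨i0.indicator hCm, ?_⟩
  rw [integral_indicator hCm]
  have a0 := integral_add_compl hCm i0
  have a1 := integral_add_compl hCm i1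
  have a2 : ∫ z in (d.C r₁)ᶜ, d.T k₀ z = ∫ z in (d.C r₁)ᶜ, d.T k₁ z :=
    setIntegral_congr_fun hCm.compl hT2
  have a3 : ∫ z in d.C r₁, d.T k₁ z ≤ ∫ z in d.C r₁, (1 / r₀) ^ n * d.Hd z :=
    setIntegral_mono_on i1.integrableOn
      (((d.continuousOn_Hd.mono fun z hz => hz.1).integrableOn_compact hC).const_mul _) hCm hT1
  rw [integral_const_mul] at a3
  linarith

theorem cmp_scaled (hn : 1 ≤ n) {r₀ r₁ δ lam : ℝ} (h0 : 0 < r₀) (h01 : r₀ < r₁) (h1 : r₁ < 1)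
    (hδ : 0 < δ) (hl : 0 < lam) (hK : ∀ r, r < 1 → IsCompact (d.C r)) :
    AEMeasurable (fun z : EE n => ENNReal.ofReal
      (lam ^ (2 * n) * (d.C r₁).indicator (d.M0 δ) (lam • z))) ∧
    ∫⁻ z : EE n, ENNReal.ofReal (lam ^ (2 * n) * (d.C r₁).indicator (d.M0 δ) (lam • z)) ≤
      ENNReal.ofReal ((1 / r₀) ^ n * ∫ z in d.C r₁, d.Hd z) := by
  have := haarEE n
  obtain ⟨hi, hle⟩ := d.cmp hn h0 h01 h1 hδ hK
  have hi' : Integrable fun z : EE n => lam ^ (2 * n) * (d.C r₁).indicator (d.M0 δ) (lam • z) :=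
    (hi.comp_smul hl.ne').const_mul _
  refine ⟨hi'.aemeasurable.ennreal_ofReal, ?_⟩
  rw [← ofReal_integral_eq_lintegral_ofReal hi' (Eventually.of_forall fun z => ?_)]
  · refine ENNReal.ofReal_le_ofReal (le_trans (le_of_eq ?_) hle)
    rw [integral_const_mul, Measure.integral_comp_smul_of_nonneg volume _ lam (hR := hl.le)]
    have : Module.finrank ℝ (EE n) = 2 * n := by
      simp [Module.finrank_prod, two_mul]
    rw [this, smul_eq_mul]
    field_simp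
  · exact mul_nonneg (by positivity) (indicator_nonneg (fun z _ => det_Mm_nonneg hδ _ _ _) _)

end Data

theorem Mm_scale {ι : Type} [Fintype ι] (F G : ι → ℂ) (a : ι → Fin n → ℝ) {σ lam : ℝ}
    (hσ : 0 < σ) :
    Mm (1 / (∑ l, ‖F l / σ‖ ^ 2 + 1)) (-1 / (∑ l, ‖F l / σ‖ ^ 2 + 1) ^ 2) (fun l => F l / σ)
      (fun l => lam * G l / σ) a =
    ((lam ^ 2 : ℝ) : ℂ) • Mm (1 / (∑ l, ‖F l‖ ^ 2 + σ ^ 2)) (-1 / (∑ l, ‖F l‖ ^ 2 + σ ^ 2) ^ 2)
      F G a := by
  have h1 : ∑ l, ‖F l / σ‖ ^ 2 = (∑ l, ‖F l‖ ^ 2) / σ ^ 2 := by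
    rw [Finset.sum_div]
    refine Finset.sum_congr rfl fun l _ => ?_
    rw [norm_div, Complex.norm_real, div_pow, Real.norm_eq_abs, sq_abs]
  have h2 : ∀ j k, Hm (fun l => lam * G l / σ) a j k = lam ^ 2 / σ ^ 2 * Hm G a j k := by
    intro j k
    simp only [Hm, Matrix.of_apply, Finset.mul_sum]
    refine Finset.sum_congr rfl fun l _ => ?_
    rw [norm_div, norm_mul, Complex.norm_real, Complex.norm_real, div_pow, mul_pow,
      Real.norm_eq_abs, sq_abs, Real.norm_eq_abs, sq_abs]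
    ring
  have h3 : ∀ k, eta (fun l => F l / σ) (fun l => lam * G l / σ) a k =
      ((lam / σ ^ 2 : ℝ) : ℂ) * eta F G a k := by
    intro k
    simp only [eta, Finset.mul_sum, map_div₀, map_mul, Complex.conj_ofReal]
    refine Finset.sum_congr rfl fun l _ => ?_
    push_cast; ring
  ext j k
  simp only [Mm, Matrix.of_apply, Matrix.smul_apply, smul_eq_mul, h1, h2, h3, map_mul,
    Complex.conj_ofReal]
  set S := ∑ l, ‖F l‖ ^ 2 with hS
  have hS0 : 0 ≤ S := Finset.sum_nonneg fun _ _ => sq_nonneg _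
  have e1 : (1 / (S / σ ^ 2 + 1)) * (lam ^ 2 / σ ^ 2) = lam ^ 2 * (1 / (S + σ ^ 2)) := by
    field_simp
  have e2 : (-1 / (S / σ ^ 2 + 1) ^ 2) * ((lam / σ ^ 2) * (lam / σ ^ 2)) =
      lam ^ 2 * (-1 / (S + σ ^ 2) ^ 2) := by
    field_simp
  have e1' := congrArg (fun x : ℝ => (x : ℂ)) e1
  have e2' := congrArg (fun x : ℝ => (x : ℂ)) e2
  simp only [Complex.ofReal_mul] at e1' e2' ⊢
  linear_combination ((Hm G a j k : ℝ) : ℂ) * e1' + conj (eta F G a j) * eta F G a k * e2'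

theorem continuous_Mm {ι : Type} [Fintype ι] (a : ι → Fin n → ℝ) :
    Continuous fun p : (ι → ℂ) × (ι → ℂ) => (Mm (1 / (∑ l, ‖p.1 l‖ ^ 2 + 1))
      (-1 / (∑ l, ‖p.1 l‖ ^ 2 + 1) ^ 2) p.1 p.2 a).det.re := by
  refine Complex.continuous_re.comp (Continuous.matrix_det (continuous_matrix fun j k => ?_))
  simp only [Mm, Hm, eta, Matrix.of_apply]
  have hp : ∀ p : (ι → ℂ) × (ι → ℂ), (∑ l, ‖p.1 l‖ ^ 2 + 1) ≠ 0 := fun p => by positivity
  have h1 : Continuous fun p : (ι → ℂ) × (ι → ℂ) => 1 / (∑ l, ‖p.1 l‖ ^ 2 + 1) :=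
    continuous_const.div (by fun_prop) hp
  have h2 : Continuous fun p : (ι → ℂ) × (ι → ℂ) => -1 / (∑ l, ‖p.1 l‖ ^ 2 + 1) ^ 2 :=
    continuous_const.div (by fun_prop) fun p => pow_ne_zero _ (hp p)
  have h3 := Complex.continuous_conj
  fun_prop

end Vale.Agent.P248
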