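import Vale.Agent.P248.Basic

/-!
TASK P248-NL.  Null Lagrangian: the integral of a Jacobian-type determinant of compactly supported C²
functions vanishes.
Step 1 (real directions e j): Matrix.det_apply' gives ∫ det = Σ_σ sgn σ ∫ ∏_k ∂_{e (σ k)} g k.  Fix k₀ (n ≥ 1).
Integrate by parts in the factor k₀ (integral_mul_fderiv_eq_neg_fderiv_mul_of_integrable or
integral_bilinear_hasLineDerivAt_right_eq_neg_left_of_integrable; everything is continuous with compact
support):  ∫ ∏_k ∂_{σ k} g k = - Σ_{m ≠ k₀} ∫ g k₀ * ∂_{σ k₀} ∂_{σ m} g m * ∏_{k ≠ k₀, m} ∂_{σ k} g k.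
For fixed m the term I(σ, m) is invariant under σ ↦ σ * swap k₀ m (symmetry of second derivatives,
ContDiffAt.isSymmSndFDerivAt) while the sign flips, so Σ_σ sgn σ I(σ,m) = 0 (Finset.sum_involution, or
reindex by Equiv.mulRight and conclude S = -S).
Step 2: expand the rows ∂_{u j} - i ∂_{v j} multilinearly
((Matrix.detRowAlternating).toMultilinearMap.map_add_univ / MultilinearMap.map_add_univ, Matrix.det_mul_column),
or redo Step 1 directly with the operators D j f = ∂_{u j} f - i ∂_{v j} f.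
-/

open MeasureTheory Filter Topology Set
open scoped Real ComplexConjugate

namespace Vale.Agent.P248

namespace NLAux

variable {E : Type} [NormedAddCommGroup E] [NormedSpace ℝ E]

/-- the first order operator with constant coefficients -/
noncomputable def D (u v : E) (f : E → ℂ) : E → ℂ :=
  fun z => fderiv ℝ f z u - Complex.I * fderiv ℝ f z v

theorem contDiff_D (u v : E) {f : E → ℂ} (hf : ContDiff ℝ 2 f) : ContDiff ℝ 1 (D u v f) := by
  have h : ContDiff ℝ 1 (fderiv ℝ f) := hf.fderiv_right (m := 1) (by norm_num)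
  exact (h.clm_apply contDiff_const).sub (contDiff_const.mul (h.clm_apply contDiff_const))

theorem D_comm (u v u' v' : E) {f : E → ℂ} (hf : ContDiff ℝ 2 f) (z : E) :
    D u v (D u' v' f) z = D u' v' (D u v f) z := by
  have h : ContDiff ℝ 1 (fderiv ℝ f) := hf.fderiv_right (m := 1) (by norm_num)
  have h1 : HasFDerivAt (fderiv ℝ f) (fderiv ℝ (fderiv ℝ f) z) z :=
    (h.differentiable (by simp) z).hasFDerivAt
  have hs : IsSymmSndFDerivAt ℝ f z := hf.contDiffAt.isSymmSndFDerivAt (by simp)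
  have key : ∀ a b w : E, fderiv ℝ (D a b f) z w =
      fderiv ℝ (fderiv ℝ f) z w a - Complex.I * fderiv ℝ (fderiv ℝ f) z w b := by
    intro a b w
    have h2 := (h1.clm_apply (hasFDerivAt_const a z)).sub
      ((h1.clm_apply (hasFDerivAt_const b z)).const_mul Complex.I)
    have h3 : fderiv ℝ (D a b f) z = _ := h2.fderiv
    rw [h3]
    simp
  simp only [D]
  change fderiv ℝ (D u' v' f) z u - Complex.I * fderiv ℝ (D u' v' f) z v =
    fderiv ℝ (D u v f) z u' - Complex.I * fderiv ℝ (D u v f) z v'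
  rw [key, key, key, key, hs u u', hs u v', hs v u', hs v v']
  ring

theorem D_mul_prod {ι : Type} [DecidableEq ι] (u v : E) (s : Finset ι) {g : E → ℂ}
    {f : ι → E → ℂ} (hg : Differentiable ℝ g) (hf : ∀ i, Differentiable ℝ (f i)) (z : E) :
    D u v (fun w => g w * ∏ i ∈ s, f i w) z =
      D u v g z * ∏ i ∈ s, f i z + g z * ∑ i ∈ s, D u v (f i) z * ∏ j ∈ s.erase i, f j z := by
  have h1 := (hg z).hasFDerivAt.mul
    (HasFDerivAt.finsetProd (u := s) fun i _ => (hf i z).hasFDerivAt)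
  have h3 : fderiv ℝ (fun w => g w * ∏ i ∈ s, f i w) z = _ := h1.fderiv
  simp only [D]
  rw [h3]
  simp only [ContinuousLinearMap.add_apply, ContinuousLinearMap.smul_apply,
    ContinuousLinearMap.sum_apply, smul_eq_mul, sub_mul, Finset.sum_sub_distrib, Finset.mul_sum,
    mul_sub, mul_add]
  have e1 : ∑ i ∈ s, g z * ((∏ j ∈ s.erase i, f j z) * fderiv ℝ (f i) z u) =
      ∑ i ∈ s, g z * (fderiv ℝ (f i) z u * ∏ j ∈ s.erase i, f j z) :=
    Finset.sum_congr rfl fun i _ => by ring
  have e2 : ∑ i ∈ s, Complex.I * (g z * ((∏ j ∈ s.erase i, f j z) * fderiv ℝ (f i) z v)) =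
      ∑ i ∈ s, g z * (Complex.I * fderiv ℝ (f i) z v * ∏ j ∈ s.erase i, f j z) :=
    Finset.sum_congr rfl fun i _ => by ring
  rw [e1, e2]
  ring

/-- an alternating sum of terms invariant under a transposition vanishes -/
theorem alt_sum {ι : Type} [Fintype ι] [DecidableEq ι] {a b : ι} (hab : a ≠ b)
    (T : Equiv.Perm ι → ℂ) (hT : ∀ σ, T (σ * Equiv.swap a b) = T σ) :
    ∑ σ : Equiv.Perm ι, ((Equiv.Perm.sign σ : ℤ) : ℂ) * T σ = 0 := by
  have h := Equiv.sum_comp (Equiv.mulRight (Equiv.swap a b))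
    fun σ : Equiv.Perm ι => ((Equiv.Perm.sign σ : ℤ) : ℂ) * T σ
  simp only [Equiv.coe_mulRight, hT, Equiv.Perm.sign_mul, Equiv.Perm.sign_swap hab,
    Units.val_mul, Units.val_neg, Units.val_one, Int.cast_mul, Int.cast_neg, Int.cast_one,
    mul_neg, mul_one, neg_mul, Finset.sum_neg_distrib] at h
  linear_combination (-1 / 2 : ℂ) * h

theorem det_eq {n : ℕ} (k₀ : Fin n) (g : Fin n → E → ℂ) (hg : ∀ k, ContDiff ℝ 2 (g k))
    (u v : Fin n → E) (z : E) :
    (Matrix.of fun j k => D (u j) (v j) (g k) z).det =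
      ∑ σ : Equiv.Perm (Fin n), ((Equiv.Perm.sign σ : ℤ) : ℂ) * D (u (σ k₀)) (v (σ k₀))
        (fun w => g k₀ w * ∏ k ∈ Finset.univ.erase k₀, D (u (σ k)) (v (σ k)) (g k) w) z := by
  have h1 : ∀ σ : Equiv.Perm (Fin n), _ := fun σ => D_mul_prod (u (σ k₀)) (v (σ k₀))
    (Finset.univ.erase k₀) (f := fun k => D (u (σ k)) (v (σ k)) (g k))
    ((hg k₀).differentiable (by simp))
    (fun k => (contDiff_D _ _ (hg k)).differentiable (by simp)) z
  simp only [h1, mul_add, Finset.sum_add_distrib]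
  have h2 : ∑ σ : Equiv.Perm (Fin n), ((Equiv.Perm.sign σ : ℤ) : ℂ) * (g k₀ z *
      ∑ m ∈ Finset.univ.erase k₀, D (u (σ k₀)) (v (σ k₀)) (D (u (σ m)) (v (σ m)) (g m)) z *
        ∏ j ∈ (Finset.univ.erase k₀).erase m, D (u (σ j)) (v (σ j)) (g j) z) = 0 := by
    simp only [Finset.mul_sum]
    rw [Finset.sum_comm]
    refine Finset.sum_eq_zero fun m hm => ?_
    have hne : m ≠ k₀ := Finset.ne_of_mem_erase hm
    refine alt_sum hne.symm _ fun σ => ?_
    simp only [Equiv.Perm.mul_apply, Equiv.swap_apply_left, Equiv.swap_apply_right]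
    rw [D_comm _ _ _ _ (hg m)]
    congr 2
    refine Finset.prod_congr rfl fun j hj => ?_
    rw [Equiv.swap_apply_of_ne_of_ne (Finset.ne_of_mem_erase (Finset.mem_of_mem_erase hj))
      (Finset.ne_of_mem_erase hj)]
  rw [h2, add_zero, Matrix.det_apply']
  refine Finset.sum_congr rfl fun σ _ => ?_
  rw [← Finset.mul_prod_erase _ _ (Finset.mem_univ k₀)]
  rfl

variable [FiniteDimensional ℝ E] [MeasurableSpace E] [BorelSpace E]

theorem integrable_fderiv (μ : Measure E) [μ.IsAddHaarMeasure] {f : E → ℂ} (hf : ContDiff ℝ 1 f)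
    (hc : HasCompactSupport f) (u : E) : Integrable (fun z => fderiv ℝ f z u) μ :=
  ((hf.continuous_fderiv (by simp)).clm_apply continuous_const).integrable_of_hasCompactSupport
    (hc.fderiv_apply (𝕜 := ℝ) u)

theorem integral_fderiv (μ : Measure E) [μ.IsAddHaarMeasure] {f : E → ℂ} (hf : ContDiff ℝ 1 f)
    (hc : HasCompactSupport f) (u : E) : ∫ z, fderiv ℝ f z u ∂μ = 0 := by
  have h := integral_mul_fderiv_eq_neg_fderiv_mul_of_integrable (μ := μ) (f := fun _ => (1 : ℂ))
    (g := f) (v := u) (by simp) (by simpa using integrable_fderiv μ hf hc u)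
    (by simpa using hf.continuous.integrable_of_hasCompactSupport hc)
    (fun _ _ => differentiableAt_const _) (fun x _ => hf.differentiable (by simp) x)
  simpa using h

theorem integrable_D (μ : Measure E) [μ.IsAddHaarMeasure] {f : E → ℂ} (hf : ContDiff ℝ 1 f)
    (hc : HasCompactSupport f) (u v : E) : Integrable (D u v f) μ :=
  (integrable_fderiv μ hf hc u).sub ((integrable_fderiv μ hf hc v).const_mul _)

theorem integral_D (μ : Measure E) [μ.IsAddHaarMeasure] {f : E → ℂ} (hf : ContDiff ℝ 1 f)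
    (hc : HasCompactSupport f) (u v : E) : ∫ z, D u v f z ∂μ = 0 := by
  simp only [D]
  rw [integral_sub (integrable_fderiv μ hf hc u) ((integrable_fderiv μ hf hc v).const_mul _),
    integral_const_mul, integral_fderiv μ hf hc, integral_fderiv μ hf hc]
  simp

end NLAux

open NLAux in
theorem integral_det_fderiv_eq_zero {E : Type} [NormedAddCommGroup E] [NormedSpace ℝ E]
    [FiniteDimensional ℝ E] [MeasurableSpace E] [BorelSpace E] (μ : Measure E)
    [μ.IsAddHaarMeasure] {n : ℕ} (hn : 1 ≤ n) (g : Fin n → E → ℂ)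
    (hg : ∀ k, ContDiff ℝ 2 (g k)) (hc : ∀ k, HasCompactSupport (g k)) (u v : Fin n → E) :
    ∫ z, (Matrix.of fun j k =>
      fderiv ℝ (g k) z (u j) - Complex.I * fderiv ℝ (g k) z (v j)).det ∂μ = 0 := by
  set k₀ : Fin n := ⟨0, hn⟩
  have h1 : ∀ σ : Equiv.Perm (Fin n), ContDiff ℝ 1
      (fun w => g k₀ w * ∏ k ∈ Finset.univ.erase k₀, D (u (σ k)) (v (σ k)) (g k) w) :=
    fun σ => ((hg k₀).of_le (by norm_num)).mul (contDiff_prod fun k _ => contDiff_D _ _ (hg k))
  have h2 : ∀ σ : Equiv.Perm (Fin n), HasCompactSupport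
      (fun w => g k₀ w * ∏ k ∈ Finset.univ.erase k₀, D (u (σ k)) (v (σ k)) (g k) w) :=
    fun σ => (hc k₀).mul_right
  change ∫ z, (Matrix.of fun j k => D (u j) (v j) (g k) z).det ∂μ = 0
  simp only [det_eq k₀ g hg u v]
  rw [integral_finsetSum _ fun σ _ => (integrable_D μ (h1 σ) (h2 σ) _ _).const_mul _]
  refine Finset.sum_eq_zero fun σ _ => ?_
  rw [integral_const_mul, integral_D μ (h1 σ) (h2 σ), mul_zero]

end Vale.Agent.P248
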