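import Vale.Agent.P248.Basic

/-!
TASK P248-Psi.  Basic facts about Psi w = κ Σ w^(2k+1)/(2k+1)², κ = 8/π², on the unit disc.
dPsi w = κ Σ w^(2k)/(2k+1) is its derivative and w * dPsi w = κ A, A = ½ log((1+w)/(1-w)) = X + iY.
Hints.
* hasDerivAt_Psi: termwise differentiation on a smaller ball (hasDerivAt_tsum_of_isPreconnected,
  or differentiableOn_tsum_of_summable_norm / hasSum_deriv_of_summable_norm).
* mul_dPsi: both sides vanish at 0 and have derivative κ/(1-w²) on the (convex) disc; or use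
  Complex.hasSum_taylorSeries_log / Complex.hasSum_taylorSeries_neg_log for log(1+w), log(1-w)
  (then log((1+w)/(1-w)) = log(1+w) - log(1-w), both args have positive real part).
* re_dPsi_ge: for w ≠ 0, A(w)/w = ∫ x in 0..1, 1/(1 - x²w²) (FTC for x ↦ A(xw)), and
  Re (1/(1-z)) ≥ 1/2 for |z| < 1.  For w = 0, dPsi 0 = κ.
* re_dPsi_large: dPsi is even. Near w = 1: Re dPsi = κ Re(A conj w)/|w|² = κ (X u + Y v)/|w|²,
  X = ½ log(|1+w|/|1-w|) → ∞, u ≥ 1/2, |Y v| ≤ π/2.
* (1+w)/(1-w) = (1 - |w|² + 2 i Im w)/|1-w|², so 2Y = arg has positive cosine, |2Y| < π/2,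
  tan(2Y) = 2 Im w/(1-|w|²) (Complex.tan_arg, Complex.abs_arg_lt_pi_div_two_iff, tan strictly monotone).
* Psi_circle: imaginary part is the definition of Tf (Complex.im_tsum / HasSum.mapL); the real part is
  κ Σ cos((2k+1)θ)/(2k+1)² = 1 - 2θ/π on [0,π]: use hasSum_one_div_nat_pow_mul_cos (k = 1, Bernoulli
  polynomial B₂: Σ_{m≥1} cos(2π m x)/m² = π² (x² - x + 1/6), x ∈ [0,1]) at x = θ/(2π) and, for the even
  terms (HasSum.even_add_odd), at x = θ/π.
-/

open MeasureTheory Filter Topology Set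
open scoped Real ComplexConjugate

namespace Vale.Agent.P248

theorem kap_pos : 0 < kap := by
  unfold kap; positivity

theorem psi_cast (k : ℕ) : (2 * (k : ℂ) + 1) = ((2 * k + 1 : ℕ) : ℂ) := by push_cast; ring

theorem psi_ne (k : ℕ) : (2 * (k : ℂ) + 1) ≠ 0 := by
  rw [psi_cast]; exact Nat.cast_ne_zero.2 (Nat.succ_ne_zero _)

theorem psi_norm (k : ℕ) : ‖(2 * (k : ℂ) + 1)‖ = 2 * (k : ℝ) + 1 := by
  rw [psi_cast, Complex.norm_natCast]; push_cast; ring

theorem psi_dterm_le {r : ℝ} {y : ℂ} (hy : ‖y‖ ≤ r) (k : ℕ) :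
    ‖y ^ (2 * k) / (2 * (k : ℂ) + 1)‖ ≤ (r ^ 2) ^ k := by
  rw [norm_div, norm_pow, psi_norm, ← pow_mul]
  have h0 : (0 : ℝ) ≤ k := Nat.cast_nonneg k
  exact (div_le_self (by positivity) (by linarith)).trans (pow_le_pow_left₀ (norm_nonneg _) hy _)

theorem psi_geom {r : ℝ} (h0 : 0 ≤ r) (h1 : r < 1) : Summable fun k : ℕ => (r ^ 2) ^ k :=
  summable_geometric_of_lt_one (by positivity) (by nlinarith)

theorem hasDerivAt_Psi {w : ℂ} (hw : ‖w‖ < 1) : HasDerivAt Psi (dPsi w) w := by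
  obtain ⟨r, hr1, hr2⟩ := exists_between hw
  have hr0 : 0 < r := (norm_nonneg w).trans_lt hr1
  refine HasDerivAt.const_mul _ (hasDerivAt_tsum_of_isPreconnected
    (g := fun (k : ℕ) (z : ℂ) => z ^ (2 * k + 1) / (2 * (k : ℂ) + 1) ^ 2)
    (g' := fun (k : ℕ) (z : ℂ) => z ^ (2 * k) / (2 * (k : ℂ) + 1)) (t := Metric.ball 0 r) (y₀ := 0)
    (psi_geom hr0.le hr2) Metric.isOpen_ball (convex_ball 0 r).isPreconnected
    (fun k y _ => ?_) (fun k y hy => psi_dterm_le (mem_ball_zero_iff.1 hy).le k)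
    (Metric.mem_ball_self hr0) (by simp) (mem_ball_zero_iff.2 hr1))
  convert! (hasDerivAt_pow (2 * k + 1) y).div_const ((2 * (k : ℂ) + 1) ^ 2) using 1
  have := psi_ne k
  rw [← psi_cast, Nat.add_sub_cancel]
  field_simp

theorem continuousOn_dPsi : ContinuousOn dPsi (Metric.ball 0 1) := by
  have h : DifferentiableOn ℂ Psi (Metric.ball 0 1) := fun w hw =>
    (hasDerivAt_Psi (mem_ball_zero_iff.1 hw)).differentiableAt.differentiableWithinAt
  exact (h.deriv Metric.isOpen_ball).continuousOn.congr fun w hw =>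
    (hasDerivAt_Psi (mem_ball_zero_iff.1 hw)).deriv.symm

theorem psi_summable : Summable fun k : ℕ => 1 / (2 * (k : ℝ) + 1) ^ 2 := by
  have h := (Real.summable_one_div_nat_pow (p := 2)).2 (by norm_num)
  have h2 := h.comp_injective (i := fun k : ℕ => 2 * k + 1) fun a b hab => by
    simp only at hab; omega
  refine h2.congr fun k => ?_
  simp

theorem continuousOn_Psi : ContinuousOn Psi (Metric.closedBall 0 1) := by
  refine continuousOn_const.mul (continuousOn_tsum (fun k => by fun_prop) psi_summable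
    fun k y hy => ?_)
  rw [norm_div, norm_pow, norm_pow, psi_norm]
  exact div_le_div_of_nonneg_right (pow_le_one₀ (norm_nonneg _) (mem_closedBall_zero_iff.1 hy))
    (by positivity)

theorem Psi_zero : Psi 0 = 0 := by
  simp [Psi]

theorem Psi_neg (w : ℂ) : Psi (-w) = -Psi w := by
  rw [Psi, Psi, ← mul_neg, ← tsum_neg]
  congr 2
  funext k
  rw [Odd.neg_pow ⟨k, rfl⟩, neg_div]

theorem dPsi_neg (w : ℂ) : dPsi (-w) = dPsi w := by
  rw [dPsi, dPsi]
  congr 2
  funext k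
  rw [Even.neg_pow (even_two_mul k)]

theorem Psi_conj (w : ℂ) : Psi (conj w) = conj (Psi w) := by
  rw [Psi, Psi, map_mul, Complex.conj_ofReal, Complex.conj_tsum]
  congr 2
  funext k
  simp [map_ofNat]

theorem dPsi_conj (w : ℂ) : dPsi (conj w) = conj (dPsi w) := by
  rw [dPsi, dPsi, map_mul, Complex.conj_ofReal, Complex.conj_tsum]
  congr 2
  funext k
  simp [map_ofNat]

theorem psi_hasSum_Aw {w : ℂ} (hw : ‖w‖ < 1) :
    HasSum (fun k : ℕ => w ^ (2 * k + 1) / (2 * (k : ℂ) + 1)) (Aw w) := by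
  have h := (Complex.hasSum_arctan (z := -Complex.I * w) (by simpa using hw)).mul_left Complex.I
  have e : -Complex.I * w * Complex.I = w := by
    linear_combination (-w) * Complex.I_mul_I
  convert! h using 1
  · funext k
    have e1 : (-Complex.I) ^ (2 * k + 1) = -Complex.I * (-1) ^ k := by
      rw [pow_succ, pow_mul, neg_sq, Complex.I_sq, mul_comm]
    have e2 : ((-1 : ℂ) ^ k) * (-1) ^ k = 1 := by rw [← mul_pow]; simp
    rw [mul_pow, e1, psi_cast, ← mul_div_assoc]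
    congr 1
    linear_combination (w ^ (2 * k + 1) * ((-1 : ℂ) ^ k * (-1) ^ k)) * Complex.I_mul_I -
      w ^ (2 * k + 1) * e2
  · rw [Complex.arctan, e, Aw]
    linear_combination (Complex.log ((1 + w) / (1 - w)) / 2) * Complex.I_mul_I

theorem mul_dPsi {w : ℂ} (hw : ‖w‖ < 1) : w * dPsi w = (kap : ℂ) * Aw w := by
  rw [dPsi, mul_left_comm, ← tsum_mul_left, ← (psi_hasSum_Aw hw).tsum_eq]
  congr 2
  funext k
  ring

theorem psi_one_sub_ne {w : ℂ} (hw : ‖w‖ < 1) : 1 - w ≠ 0 := by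
  intro h
  rw [← sub_eq_zero.1 h] at hw
  simp at hw

theorem psi_q_re (w : ℂ) :
    ((1 + w) / (1 - w)).re = (1 - ‖w‖ ^ 2) / Complex.normSq (1 - w) := by
  rw [Complex.div_re, ← add_div, Complex.sq_norm, Complex.normSq_apply w]
  congr 1
  simp
  ring

theorem psi_q_im (w : ℂ) : ((1 + w) / (1 - w)).im = 2 * w.im / Complex.normSq (1 - w) := by
  rw [Complex.div_im, ← sub_div]
  congr 1
  simp
  ring

theorem psi_sq_pos {w : ℂ} (hw : ‖w‖ < 1) : 0 < 1 - ‖w‖ ^ 2 := by
  nlinarith [norm_nonneg w]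

theorem psi_q_re_pos {w : ℂ} (hw : ‖w‖ < 1) : 0 < ((1 + w) / (1 - w)).re := by
  rw [psi_q_re]
  exact div_pos (psi_sq_pos hw) (Complex.normSq_pos.2 (psi_one_sub_ne hw))

theorem psi_hasDerivAt_Aw {w : ℂ} (hw : ‖w‖ < 1) : HasDerivAt Aw (1 / (1 - w ^ 2)) w := by
  have h1 := psi_one_sub_ne hw
  have h2 : 1 + w ≠ 0 := by simpa using psi_one_sub_ne (w := -w) (by simpa using hw)
  have h3 : 1 - w ^ 2 = (1 + w) * (1 - w) := by ring
  have h := ((((hasDerivAt_id w).const_add 1).div ((hasDerivAt_id w).const_sub 1) h1).clog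
    (Or.inl (psi_q_re_pos hw))).const_mul (1 / 2 : ℂ)
  convert! h using 1
  simp only [id, Pi.div_apply, h3]
  field_simp
  ring

theorem psi_re_inv {z : ℂ} (hz : ‖z‖ < 1) : 1 / 2 ≤ (1 / (1 - z)).re := by
  have h1 := psi_q_re_pos hz
  have h2 : (1 + z) / (1 - z) = 2 * (1 / (1 - z)) - 1 := by
    have := psi_one_sub_ne hz
    field_simp
    ring
  rw [h2] at h1
  simp only [Complex.sub_re, Complex.mul_re, Complex.re_ofNat, Complex.im_ofNat,
    Complex.one_re] at h1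
  linarith

theorem dPsi_eq {w : ℂ} (hw : ‖w‖ < 1) (h0 : w ≠ 0) : dPsi w = (kap : ℂ) * (Aw w / w) := by
  rw [← mul_div_assoc, ← mul_dPsi hw, mul_div_cancel_left₀ _ h0]

theorem re_dPsi_ge {w : ℂ} (hw : ‖w‖ < 1) : kap / 2 ≤ (dPsi w).re := by
  have hk := kap_pos
  by_cases h0 : w = 0
  · subst h0
    have : dPsi 0 = kap := by
      rw [dPsi, tsum_eq_single 0]
      · simp
      · intro k hk
        simp [hk]
    rw [this, Complex.ofReal_re]
    linarith
  have hx : ∀ x ∈ Icc (0 : ℝ) 1, ‖(x : ℂ) * w‖ < 1 := by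
    intro x hx
    rw [norm_mul, Complex.norm_real, Real.norm_of_nonneg hx.1]
    exact (mul_le_of_le_one_left (norm_nonneg _) hx.2).trans_lt hw
  have hd : ∀ x ∈ Icc (0 : ℝ) 1, HasDerivAt (fun x : ℝ => (Aw (x * w) / w).re)
      (1 / (1 - ((x : ℂ) * w) ^ 2)).re x := by
    intro x h
    have h1 : HasDerivAt (fun z : ℂ => Aw (z * w) / w) (1 / (1 - ((x : ℂ) * w) ^ 2)) x := by
      have := ((psi_hasDerivAt_Aw (hx x h)).comp (x : ℂ)
        ((hasDerivAt_id (x : ℂ)).mul_const w)).div_const w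
      convert! this using 1
      rw [one_mul, mul_div_cancel_right₀ _ h0]
    exact h1.real_of_complex
  have h2 := (convex_Icc (0 : ℝ) 1).mul_sub_le_image_sub_of_le_deriv
    (f := fun x : ℝ => (Aw (x * w) / w).re) (C := 1 / 2)
    (fun x h => (hd x h).continuousAt.continuousWithinAt)
    (fun x h => (hd x (interior_subset h)).differentiableAt.differentiableWithinAt)
    (fun x h => by
      rw [(hd x (interior_subset h)).deriv]
      refine psi_re_inv ?_
      rw [norm_pow]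
      exact pow_lt_one₀ (norm_nonneg _) (hx x (interior_subset h)) two_ne_zero)
    0 (by simp) 1 (by simp) zero_le_one
  have h3 : Aw 0 = 0 := by simp [Aw]
  simp only [Complex.ofReal_one, Complex.ofReal_zero, one_mul, zero_mul, h3, zero_div,
    Complex.zero_re, sub_zero, mul_one] at h2
  rw [dPsi_eq hw h0, Complex.re_ofReal_mul]
  nlinarith

theorem psi_Aw_im (w : ℂ) : (Aw w).im = Complex.arg ((1 + w) / (1 - w)) / 2 := by
  have : Aw w = ((1 / 2 : ℝ) : ℂ) * Complex.log ((1 + w) / (1 - w)) := by simp [Aw]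
  rw [this, Complex.im_ofReal_mul, Complex.log_im]
  ring

theorem psi_Aw_re (w : ℂ) : (Aw w).re = Real.log (‖1 + w‖ / ‖1 - w‖) / 2 := by
  have : Aw w = ((1 / 2 : ℝ) : ℂ) * Complex.log ((1 + w) / (1 - w)) := by simp [Aw]
  rw [this, Complex.re_ofReal_mul, Complex.log_re, norm_div]
  ring

theorem re_dPsi_large (M : ℝ) : ∃ ρ : ℝ, 0 < ρ ∧ ∀ w : ℂ, ‖w‖ < 1 →
    (‖w - 1‖ < ρ ∨ ‖w + 1‖ < ρ) → M ≤ (dPsi w).re := by
  have hk := kap_pos
  set T : ℝ := 2 * (|M| / kap) + π with hT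
  have hM0 : 0 ≤ |M| / kap := by positivity
  have key : ∀ w : ℂ, ‖w‖ < 1 → ‖w - 1‖ < min (1 / 2) (Real.exp (-(2 * T))) →
      M ≤ (dPsi w).re := by
    intro w hw h
    have h1 : ‖w - 1‖ < 1 / 2 := h.trans_le (min_le_left _ _)
    have h2 : ‖1 - w‖ < Real.exp (-(2 * T)) := by
      rw [norm_sub_rev]; exact h.trans_le (min_le_right _ _)
    have hu : 1 / 2 ≤ w.re := by
      have := (abs_lt.1 ((Complex.abs_re_le_norm (w - 1)).trans_lt h1)).1
      simp only [Complex.sub_re, Complex.one_re] at this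
      linarith
    have hv : |w.im| ≤ 1 := (Complex.abs_im_le_norm w).trans hw.le
    have h0 : w ≠ 0 := by
      rintro rfl
      norm_num at hu
    have h3 : 1 ≤ ‖1 + w‖ := by
      refine le_trans ?_ (Complex.re_le_norm _)
      simp only [Complex.add_re, Complex.one_re]
      linarith
    have h4 : 0 < ‖1 - w‖ := norm_pos_iff.2 (psi_one_sub_ne hw)
    have hX : T ≤ (Aw w).re := by
      rw [psi_Aw_re, le_div_iff₀ two_pos, Real.le_log_iff_exp_le (by positivity), le_div_iff₀ h4]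
      refine le_trans ?_ h3
      have := mul_le_mul_of_nonneg_left h2.le (Real.exp_pos (T * 2)).le
      rw [← Real.exp_add, show T * 2 + -(2 * T) = 0 by ring, Real.exp_zero] at this
      exact this
    have hY : |(Aw w).im| ≤ π / 2 := by
      rw [psi_Aw_im, abs_div, abs_two]
      exact div_le_div_of_nonneg_right (Complex.abs_arg_le_pi _) zero_le_two
    have h5 : |(Aw w).im * w.im| ≤ π / 2 := by
      rw [abs_mul]
      exact (mul_le_of_le_one_right (abs_nonneg _) hv).trans hY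
    have h6 : |M| / kap ≤ (Aw w).re * w.re + (Aw w).im * w.im := by
      have := (abs_le.1 h5).1
      have hpi := Real.pi_pos
      nlinarith
    have h7 : 0 < Complex.normSq w := Complex.normSq_pos.2 h0
    have h8 : Complex.normSq w ≤ 1 := by
      rw [← Complex.sq_norm]
      linarith [psi_sq_pos hw]
    have h9 : |M| / kap ≤ (Aw w / w).re := by
      rw [Complex.div_re, ← add_div]
      exact h6.trans (le_div_self (hM0.trans h6) h7 h8)
    rw [dPsi_eq hw h0, Complex.re_ofReal_mul]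
    rw [div_le_iff₀' hk] at h9
    exact (le_abs_self M).trans h9
  refine ⟨min (1 / 2) (Real.exp (-(2 * T))), by positivity, fun w hw h => ?_⟩
  rcases h with h | h
  · exact key w hw h
  · rw [← dPsi_neg]
    refine key (-w) (by simpa using hw) ?_
    rwa [← norm_neg, neg_sub, sub_neg_eq_add, add_comm]

theorem Aw_im_nonneg {w : ℂ} (hw : ‖w‖ < 1) (h : 0 ≤ w.im) : 0 ≤ (Aw w).im := by
  have _ := hw
  rw [psi_Aw_im]
  refine div_nonneg (Complex.arg_nonneg_iff.2 ?_) zero_le_two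
  rw [psi_q_im]
  exact div_nonneg (by positivity) (Complex.normSq_nonneg _)

theorem Aw_im_small {w : ℂ} (hw : ‖w‖ < 1) {Y : ℝ} (h0 : 0 < Y) (h1 : Y < π / 4)
    (h : (Aw w).im < Y) : 2 * w.im ≤ Real.tan (2 * Y) * (1 - ‖w‖ ^ 2) := by
  rw [psi_Aw_im] at h
  have h2 := abs_lt.1 (Complex.abs_arg_lt_pi_div_two_iff.2 (Or.inl (psi_q_re_pos hw)))
  have h3 := Real.strictMonoOn_tan ⟨h2.1, h2.2⟩ (b := 2 * Y) ⟨by linarith, by linarith⟩
    (by linarith)
  have h4 := Complex.normSq_pos.2 (psi_one_sub_ne hw)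
  rw [Complex.tan_arg, psi_q_re, psi_q_im, div_div_div_cancel_right₀ h4.ne',
    div_lt_iff₀ (psi_sq_pos hw)] at h3
  exact h3.le

theorem psi_cos_sum {x : ℝ} (hx : x ∈ Icc (0 : ℝ) 1) :
    HasSum (fun n : ℕ => 1 / (n : ℝ) ^ 2 * Real.cos (2 * π * n * x))
      (π ^ 2 * (x ^ 2 - x + 6⁻¹)) := by
  have h := hasSum_one_div_nat_pow_mul_cos (k := 1) one_ne_zero hx
  rw [← bernoulliFun_two]
  convert! h using 1
  simp only [bernoulliFun, mul_one, Nat.factorial]
  push_cast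
  ring

theorem psi_cos_odd {θ : ℝ} (h0 : 0 ≤ θ) (h1 : θ ≤ π) :
    HasSum (fun k : ℕ => Real.cos ((2 * (k : ℝ) + 1) * θ) / (2 * (k : ℝ) + 1) ^ 2)
      (π ^ 2 / 8 * (1 - 2 * θ / π)) := by
  have hpi := Real.pi_pos
  have ha := psi_cos_sum (x := θ / (2 * π))
    ⟨by positivity, by rw [div_le_one (by positivity)]; linarith⟩
  have hb := (psi_cos_sum (x := θ / π) ⟨by positivity, by rwa [div_le_one hpi]⟩).mul_left (1 / 4)
  have hb' : HasSum (fun k : ℕ => 1 / ((2 * k : ℕ) : ℝ) ^ 2 *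
      Real.cos (2 * π * (2 * k : ℕ) * (θ / (2 * π))))
      (1 / 4 * (π ^ 2 * ((θ / π) ^ 2 - θ / π + 6⁻¹))) := by
    convert! hb using 2 with k
    rw [show 2 * π * ((2 * k : ℕ) : ℝ) * (θ / (2 * π)) = 2 * π * k * (θ / π) by
      push_cast; field_simp]
    push_cast
    ring
  have hc := (ha.summable.comp_injective (i := fun k : ℕ => 2 * k + 1) fun a b hab => by
    simp only at hab; omega).hasSum
  have hd := ha.unique (HasSum.even_add_odd
    (f := fun n : ℕ => 1 / (n : ℝ) ^ 2 * Real.cos (2 * π * n * (θ / (2 * π)))) hb' hc)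
  convert! hc using 1
  · funext k
    simp only [Function.comp_apply]
    rw [show 2 * π * ((2 * k + 1 : ℕ) : ℝ) * (θ / (2 * π)) = (2 * (k : ℝ) + 1) * θ by
      push_cast; field_simp]
    push_cast
    ring
  · rw [← sub_eq_iff_eq_add'.2 hd]
    field_simp
    ring

theorem Psi_circle {θ : ℝ} (h0 : 0 ≤ θ) (h1 : θ ≤ π) :
    Psi (Complex.exp (θ * Complex.I)) =
      ((1 - 2 * θ / π : ℝ) : ℂ) + ((Tf θ : ℝ) : ℂ) * Complex.I := by
  have hpi := Real.pi_pos
  have hs : Summable fun k : ℕ => Real.sin ((2 * (k : ℝ) + 1) * θ) / (2 * (k : ℝ) + 1) ^ 2 := by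
    refine psi_summable.of_norm_bounded fun k => ?_
    rw [norm_div, Real.norm_of_nonneg (r := (2 * (k : ℝ) + 1) ^ 2) (by positivity)]
    exact div_le_div_of_nonneg_right (Real.abs_sin_le_one _) (by positivity)
  have h := (Complex.hasSum_ofReal.2 (psi_cos_odd h0 h1)).add
    ((Complex.hasSum_ofReal.2 hs.hasSum).mul_right Complex.I)
  have e : ∀ k : ℕ, Complex.exp (θ * Complex.I) ^ (2 * k + 1) / (2 * (k : ℂ) + 1) ^ 2 =
      ((Real.cos ((2 * (k : ℝ) + 1) * θ) / (2 * (k : ℝ) + 1) ^ 2 : ℝ) : ℂ) +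
      ((Real.sin ((2 * (k : ℝ) + 1) * θ) / (2 * (k : ℝ) + 1) ^ 2 : ℝ) : ℂ) * Complex.I := by
    intro k
    rw [← Complex.exp_nat_mul, ← mul_assoc, Complex.exp_mul_I, ← psi_cast]
    push_cast
    ring
  rw [Psi, tsum_congr e, h.tsum_eq, Tf, mul_add, ← mul_assoc, ← Complex.ofReal_mul,
    ← Complex.ofReal_mul]
  congr 2
  unfold kap
  field_simp

end Vale.Agent.P248
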