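import Vale.Agent.P248.Bodies

/-!
TASK P248-Vol (with Hanner.lean).  Volumes of products and l¹-sums.
The map (x,y) ↦ Fin.append x y is measure preserving (volume_measurePreserving_sumPiEquivProdPi(_symm) with
volume_measurePreserving_piCongrLeft finSumFinEquiv, or volume_preserving_piFinAdd-like lemmas).
For a Body K with gauge g = gauge K (gauge_add_le, gauge_neg, gauge_eq_zero, gauge_smul, gauge_le_one_iff_mem_closure)
MeasureTheory.measure_lt_one_eq_integral_div_gamma (p = 1) and MeasureTheory.measure_le_eq_lt give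
vol K = (∫ exp(-g))/n!.  Apply the same two lemmas to the norm z ↦ gauge A x + gauge B y on Fin (k+l) → ℝ, whose unit
ball is sumSet A B (mem_sumSet), and use integral_prod_mul.
-/

open MeasureTheory Filter Topology Set
open scoped Real ComplexConjugate Pointwise

namespace Vale.Agent.P248

variable {n k l : ℕ}

/-- appending as a measurable equivalence -/
noncomputable def volAppend (k l : ℕ) : ((Fin k → ℝ) × (Fin l → ℝ)) ≃ᵐ (Fin (k + l) → ℝ) :=
  (Fin.appendHomeomorph (X := ℝ) k l).toMeasurableEquiv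

theorem volAppend_apply (p : (Fin k → ℝ) × (Fin l → ℝ)) :
    volAppend k l p = Fin.append p.1 p.2 := rfl

theorem vol_append_mp : MeasurePreserving (volAppend k l) volume volume := by
  have h1 := volume_measurePreserving_sumPiEquivProdPi_symm (fun _ : Fin k ⊕ Fin l => ℝ)
  have h2 := volume_measurePreserving_piCongrLeft (fun _ : Fin (k + l) => ℝ) finSumFinEquiv
  convert h2.comp h1 using 1
  funext p i
  rw [volAppend_apply]
  refine Fin.addCases (fun j => ?_) (fun j => ?_) i
  · rw [Fin.append_left]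
    exact (Equiv.piCongrLeft_sumInl (fun _ : Fin (k + l) => ℝ) finSumFinEquiv p.1 p.2 j).symm
  · rw [Fin.append_right]
    exact (Equiv.piCongrLeft_sumInr (fun _ : Fin (k + l) => ℝ) finSumFinEquiv p.1 p.2 j).symm

theorem vol_gauge_eq {S : Set (Fin n → ℝ)} {g : (Fin n → ℝ) → ℝ} (h0 : ∀ z, 0 ≤ g z)
    (hs : ∀ r : ℝ, 0 ≤ r → ∀ z, g (r • z) = r * g z) (hS : ∀ z, z ∈ S ↔ g z ≤ 1) (z : Fin n → ℝ) :
    gauge S z = g z := by
  have key : ∀ r : ℝ, 0 < r → (z ∈ r • S ↔ g z ≤ r) := by
    intro r hr
    rw [Set.mem_smul_set_iff_inv_smul_mem₀ hr.ne', hS, hs _ (inv_nonneg.2 hr.le),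
      inv_mul_le_iff₀ hr, mul_one]
  apply le_antisymm
  · refine le_of_forall_pos_le_add fun ε hε => ?_
    have hpos : 0 < g z + ε := by linarith [h0 z]
    exact gauge_le_of_mem hpos.le ((key _ hpos).2 (by linarith))
  · rw [gauge_def]
    refine le_csInf ⟨g z + 1, by have := h0 z; simp only [mem_Ioi]; linarith,
      (key _ (by linarith [h0 z])).2 (by linarith)⟩ ?_
    rintro r ⟨hr, hz⟩
    exact (key r hr).1 hz

theorem Body.vol_nhds {K : Set (Fin n → ℝ)} (hK : Body K) : K ∈ 𝓝 (0 : Fin n → ℝ) :=
  mem_interior_iff_mem_nhds.1 hK.zero_mem_interior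

theorem Body.vol_gauge_le {K : Set (Fin n → ℝ)} (hK : Body K) (x : Fin n → ℝ) :
    x ∈ K ↔ gauge K x ≤ 1 := by
  rw [gauge_le_one_iff_mem_closure hK.convex hK.vol_nhds, hK.compact.isClosed.closure_eq]

theorem Body.vol_gauge_zero {K : Set (Fin n → ℝ)} (hK : Body K) {x : Fin n → ℝ}
    (h : gauge K x = 0) : x = 0 :=
  (gauge_eq_zero (absorbent_nhds_zero hK.vol_nhds)
    (NormedSpace.isVonNBounded_of_isBounded ℝ hK.compact.isBounded)).1 h

theorem Body.vol_eq_integral {K : Set (Fin n → ℝ)} (hK : Body K) :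
    volume.real K = (∫ x, Real.exp (-gauge K x)) / n.factorial := by
  have h5 : ∀ (r : ℝ) (x : Fin n → ℝ), gauge K (r • x) ≤ |r| * gauge K x := by
    intro r x
    rcases le_total 0 r with hr | hr
    · rw [gauge_smul_of_nonneg hr, abs_of_nonneg hr, smul_eq_mul]
    · rw [← gauge_neg hK.symm, ← neg_smul, gauge_smul_of_nonneg (neg_nonneg.2 hr),
        abs_of_nonpos hr, smul_eq_mul]
  have h := measure_lt_one_eq_integral_div_gamma (volume : Measure (Fin n → ℝ))
    (g := gauge K) gauge_zero (gauge_neg hK.symm)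
    (gauge_add_le hK.convex (absorbent_nhds_zero hK.vol_nhds)) hK.vol_gauge_zero h5 one_pos
  rw [setOfPred_gauge_lt_one_eq_interior hK.convex hK.vol_nhds,
    measure_interior_of_null_frontier (hK.convex.addHaar_frontier volume)] at h
  rw [Measure.real, h, ENNReal.toReal_ofReal]
  · simp [Real.Gamma_nat_eq_factorial]
  · exact div_nonneg (integral_nonneg fun _ => (Real.exp_pos _).le)
      (Real.Gamma_pos_of_pos (by positivity)).le

theorem vol_append_smul (r : ℝ) (x : Fin k → ℝ) (y : Fin l → ℝ) :
    r • Fin.append x y = Fin.append (r • x) (r • y) := by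
  funext i
  refine Fin.addCases (fun j => ?_) (fun j => ?_) i <;> simp

theorem vol_gauge_sumSet {A : Set (Fin k → ℝ)} {B : Set (Fin l → ℝ)} (hA : Body A) (hB : Body B)
    (x : Fin k → ℝ) (y : Fin l → ℝ) :
    gauge (sumSet A B) (Fin.append x y) = gauge A x + gauge B y := by
  have := vol_gauge_eq (S := sumSet A B)
    (g := fun z => gauge A (fun i => z (Fin.castAdd l i)) + gauge B (fun j => z (Fin.natAdd k j)))
    (fun z => add_nonneg (gauge_nonneg _) (gauge_nonneg _))
    (fun r hr z => by
      rw [mul_add, ← smul_eq_mul, ← smul_eq_mul, ← gauge_smul_of_nonneg hr,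
        ← gauge_smul_of_nonneg hr]
      rfl)
    (fun z => by
      rw [mem_sumSet hA hB]
      constructor
      · rintro ⟨a, ha, b, hb, t, h0, h1, rfl⟩
        simp only [Fin.append_left, Fin.append_right]
        rw [gauge_smul_of_nonneg h0, gauge_smul_of_nonneg (sub_nonneg.2 h1), smul_eq_mul,
          smul_eq_mul]
        have h2 := mul_le_mul_of_nonneg_left (gauge_le_one_of_mem ha) h0
        have h3 := mul_le_mul_of_nonneg_left (gauge_le_one_of_mem hb) (sub_nonneg.2 h1)
        linarith
      · intro hz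
        set a : Fin k → ℝ := fun i => z (Fin.castAdd l i) with ha
        set b : Fin l → ℝ := fun j => z (Fin.natAdd k j) with hb
        have hz' : z = Fin.append a b := by
          funext i
          refine Fin.addCases (fun j => ?_) (fun j => ?_) i <;> simp [ha, hb]
        have aux : ∀ {m : ℕ} {C : Set (Fin m → ℝ)}, Body C → ∀ (c : Fin m → ℝ) (t : ℝ),
            gauge C c ≤ t → ∃ x ∈ C, t • x = c := by
          intro m C hC c t ht
          rcases (le_trans (gauge_nonneg c) ht).eq_or_lt with h | h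
          · refine ⟨0, hC.zero_mem, ?_⟩
            rw [smul_zero]
            exact (hC.vol_gauge_zero (le_antisymm (h ▸ ht) (gauge_nonneg _))).symm
          · refine ⟨t⁻¹ • c, (hC.vol_gauge_le _).2 ?_, by rw [smul_smul, mul_inv_cancel₀ h.ne',
              one_smul]⟩
            rw [gauge_smul_of_nonneg (inv_nonneg.2 h.le), smul_eq_mul, inv_mul_le_iff₀ h, mul_one]
            exact ht
        obtain ⟨x, hx, hxa⟩ := aux hA a (gauge A a) le_rfl
        obtain ⟨y, hy, hyb⟩ := aux hB b (1 - gauge A a) (by linarith)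
        exact ⟨x, hx, y, hy, gauge A a, gauge_nonneg _, by linarith [gauge_nonneg (s := B) b],
          by rw [hxa, hyb, hz']⟩) (Fin.append x y)
  simpa using this

theorem volume_prodSet {A : Set (Fin k → ℝ)} {B : Set (Fin l → ℝ)} (hA : Body A) (hB : Body B) :
    volume.real (prodSet A B) = volume.real A * volume.real B := by
  have e : prodSet A B = volAppend k l '' (A ×ˢ B) := by
    ext z
    constructor
    · rintro ⟨x, hx, y, hy, rfl⟩
      exact ⟨(x, y), ⟨hx, hy⟩, rfl⟩
    · rintro ⟨⟨x, y⟩, ⟨hx, hy⟩, rfl⟩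
      exact ⟨x, hx, y, hy, rfl⟩
  have _ := hA
  have _ := hB
  rw [e, MeasurableEquiv.image_eq_preimage_symm, Measure.real,
    vol_append_mp.symm.measure_preimage_equiv, Measure.volume_eq_prod, Measure.prod_prod,
    ENNReal.toReal_mul]
  rfl

theorem volume_sumSet {A : Set (Fin k → ℝ)} {B : Set (Fin l → ℝ)} (hA : Body A) (hB : Body B) :
    volume.real (sumSet A B) =
      (k.factorial * l.factorial / (k + l).factorial : ℝ) * (volume.real A * volume.real B) := by
  rw [(hA.sum_body hB).vol_eq_integral, hA.vol_eq_integral, hB.vol_eq_integral,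
    ← vol_append_mp.integral_comp' (fun z => Real.exp (-gauge (sumSet A B) z))]
  simp only [volAppend_apply, vol_gauge_sumSet hA hB, neg_add, Real.exp_add]
  rw [Measure.volume_eq_prod, integral_prod_mul (fun x => Real.exp (-gauge A x))
    (fun y => Real.exp (-gauge B y))]
  have h1 : (k.factorial : ℝ) ≠ 0 := by positivity
  have h2 : (l.factorial : ℝ) ≠ 0 := by positivity
  have h3 : ((k + l).factorial : ℝ) ≠ 0 := by positivity
  field_simp

theorem vp_prodSet {A : Set (Fin k → ℝ)} {B : Set (Fin l → ℝ)} (hA : Body A) (hB : Body B) :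
    vp (prodSet A B) = (k.factorial * l.factorial / (k + l).factorial : ℝ) * (vp A * vp B) := by
  unfold vp
  rw [polar_prodSet hA hB, volume_prodSet hA hB, volume_sumSet hA.polar_body hB.polar_body]
  ring

theorem vp_sumSet {A : Set (Fin k → ℝ)} {B : Set (Fin l → ℝ)} (hA : Body A) (hB : Body B) :
    vp (sumSet A B) = (k.factorial * l.factorial / (k + l).factorial : ℝ) * (vp A * vp B) := by
  unfold vp
  rw [polar_sumSet, volume_sumSet hA hB, volume_prodSet hA.polar_body hB.polar_body]
  ring

end Vale.Agent.P248
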